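import Vale.Agent.P218N.Spec2

/-! Block NL: complex conjugation of the ansatz, the equation and the boundary terms. -/

open MeasureTheory Set Filter Topology
open scoped ContDiff Real ComplexConjugate

set_option linter.unusedSectionVars false

noncomputable section

namespace Vale.Agent.P218N

open Vale.Agent.P218H (J1 sa)
open Vale.Agent.P218T.HJ (wt Tb gm eta dta eta_conj dta_conj)

attribute [local simp] map_ofNat

namespace Cjg

theorem slit {z : ℂ} (h : z ∈ Complex.slitPlane) : conj z ∈ Complex.slitPlane := by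
  simpa [Complex.mem_slitPlane_iff] using h

theorem sqrt_conj {z : ℂ} (h : z ∈ Complex.slitPlane) :
    Complex.sqrt (conj z) = conj (Complex.sqrt z) := by
  rw [Complex.sqrt, Complex.sqrt, Complex.conj_cpow _ _ (Complex.slitPlane_arg_ne_pi h)]
  simp

theorem dt_star (a b : V3) : dt (star a) (star b) = conj (dt a b) := by simp [dt]

theorem cr_star (a b : V3) : cr (star a) (star b) = star (cr a b) := by
  apply ext3 <;> simp

theorem nn_star (A : Fin 3 → V3) (m : V3) : nn (star A) (star m) = star (nn A m) := by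
  simp [nn, ← cr_star]

theorem kk_star (A B : Fin 3 → V3) (m : V3) : kk (star A) (star B) (star m) = star (kk A B m) := by
  simp [kk, ← cr_star]

theorem gg_star (A : Fin 3 → V3) (m : V3) : gg (star A) (star m) = conj (gg A m) := by
  rw [gg, gg, nn_star, dt_star]

theorem ee_star (θ : ℂ) (X : V3) (A : Fin 3 → V3) (A₂ : Fin 3 → Fin 3 → V3) (m : V3)
    (m₁ : Fin 3 → V3) :
    ee (conj θ) (star X) (star A) (star A₂) (star m) (star m₁) = conj (ee θ X A A₂ m m₁) := by
  have e : dn (star A) (star A₂) (star m) (star m₁) = star (dn A A₂ m m₁) := funext fun c => by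
    rw [Pi.star_apply, dn, dn, star_add, ← kk_star, ← nn_star]
    rfl
  rw [ee, ee, bb, bb, e, nn_star, kk_star, dt_star, dt_star, gg_star]
  simp

theorem rr_star (l : V3) (A : Fin 3 → V3) (m : V3) :
    rr (star l) (star A) (star m) = star (rr l A m) := by simp [rr]

theorem cay_star (o v : V3) : cay (star o) (star v) = star (cay o v) := by
  rw [cay, cay, cr_star, cr_star, dt_star]
  simp

theorem cx_star (v : E3) : star (cx v) = cx v := funext fun i => by simp [cx]

theorem nu_star (w : E3 → ℝ) (x : E3) : star (nu w x) = nu w x := cx_star _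

theorem pd_nu_star (w : E3 → ℝ) (x : E3) : star (pd (nu w) x) = pd (nu w) x := funext fun c => by
  have e : (starL' ℝ : V3 ≃L[ℝ] V3) ∘ nu w = nu w := funext fun y => nu_star w y
  have h := (starL' ℝ : V3 ≃L[ℝ] V3).comp_fderiv (f := nu w) (x := x)
  rw [e] at h
  exact (congrArg (fun T : E3 →L[ℝ] V3 => T (EuclideanSpace.single c 1)) h).symm

theorem lk_conj (k s : ℂ) : lk (conj k) (conj s) = conj (lk k s) := by
  simp [lk, ← Complex.exp_conj]

theorem lk'_conj (k s : ℂ) : lk' (conj k) (conj s) = conj (lk' k s) := by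
  simp [lk', ← Complex.exp_conj]

section

variable {B : Type*} [NormedAddCommGroup B] [NormedSpace ℝ B] [StarAddMonoid B] [StarModule ℝ B]
  [ContinuousStar B] {G : E3 × ℂ × B → V3} {z : E3 × ℂ × B} {x : E3} {j : Jt} {t : B}

/-- `G` commutes with the conjugation near `z` -/
def Cv (G : E3 × ℂ × B → V3) (z : E3 × ℂ × B) : Prop :=
  ∀ᶠ q in 𝓝 z, G (q.1, star q.2) = star (G q)

theorem Cv.fderiv (h : Cv G z) {v : E3 × ℂ × B} (hv : star v.2 = v.2) :
    Cv (fun q => fderiv ℝ G q v) z := by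
  filter_upwards [h.eventually_nhds] with q hq
  let σ : (E3 × ℂ × B) ≃L[ℝ] (E3 × ℂ × B) := (ContinuousLinearEquiv.refl ℝ E3).prodCongr (starL' ℝ)
  have h1 : G ∘ σ =ᶠ[𝓝 q] (starL' ℝ : V3 ≃L[ℝ] V3) ∘ G := hq
  have h2 := h1.fderiv_eq (𝕜 := ℝ)
  rw [σ.comp_right_fderiv, ContinuousLinearEquiv.comp_fderiv] at h2
  have h3 := congrArg (fun T : E3 × ℂ × B →L[ℝ] V3 => T v) h2
  have h4 : σ v = v := Prod.ext rfl hv
  simp only [ContinuousLinearMap.comp_apply, ContinuousLinearEquiv.coe_coe, h4] at h3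
  exact h3

theorem Cv.dB (h : Cv G z) (b : Fin 3) : Cv (dB b G) z := h.fderiv (star_zero _)

theorem Cv.dF (h : Cv G z) : Cv (dF G) z := h.fderiv (Prod.ext (star_one ℂ) (star_zero _))

theorem Cv.at_ (h : Cv G (x, j none none, t)) :
    G (x, (star j) none none, star t) = star (G (x, j none none, t)) := h.self_of_nhds

theorem Cv.jA (h : Cv G (x, j none none, t)) : jA G x (star j) (star t) = star (jA G x j t) :=
  funext fun b => by
    rw [Pi.star_apply, P218N.jA, P218N.jA, (h.dB b).at_, h.dF.at_, star_add, star_smul]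
    rfl

theorem Cv.jA2 (h : Cv G (x, j none none, t)) : jA2 G x (star j) (star t) = star (jA2 G x j t) :=
  funext fun c => funext fun b => by
    rw [Pi.star_apply, Pi.star_apply, P218N.jA2, P218N.jA2, (h.dB b).jA, h.dF.jA, h.dF.at_,
      star_add, star_add, star_smul, star_smul]
    rfl

end

variable {ι α : Type} [Fintype ι] [Fintype α] {D : AD ι α} {x : E3} {φ : ℂ} {t : Pi' ι α}

theorem ov_star (h : D.Re) (x : E3) (t : Pi' ι α) : D.ov x (star t) = star (D.ov x t) := by
  have e : ∀ j l, star (D.om j l) = D.om j l := fun j l => congrFun (congrFun h.om j) l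
  simp [AD.ov, star_sum, e]

theorem arg_star (h : D.Re) (j : ι) (x : E3) (φ : ℂ) :
    D.VS j x + conj φ / D.q j x = conj (D.VS j x + φ / D.q j x) := by
  have e1 : conj (D.VS j x) = D.VS j x := congrFun (congrFun h.VS j) x
  have e2 : conj (D.q j x) = D.q j x := congrFun (congrFun h.q j) x
  rw [map_add, map_div₀, e1, e2]

theorem cv_XX (h : D.Re) (g : D.Rg x φ t) : Cv D.XX (x, φ, t) := by
  have h1 : ∀ᶠ q : E3 × ℂ × Pi' ι α in 𝓝 (x, φ, t), ∀ j, D.lam j q.1 = 0 ∨
      D.VS j q.1 + q.2.1 / D.q j q.1 ∈ Complex.slitPlane := eventually_all.2 fun j => by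
    rcases g.cyl j with e | ⟨a, -, c, -, e, f⟩
    · exact ((continuousAt_fst (p := (x, φ, t))).eventually
        (show ∀ᶠ y in 𝓝 x, D.lam j y = 0 from e)).mono fun q k => .inl k
    · have k : ContinuousAt (fun q : E3 × ℂ × Pi' ι α => D.VS j q.1 + q.2.1 / D.q j q.1)
          (x, φ, t) := (a.continuousAt.comp_of_eq continuousAt_fst rfl).add
        (continuousAt_snd.fst.div (c.continuousAt.comp_of_eq continuousAt_fst rfl) e)
      exact (k.eventually_mem (Complex.isOpen_slitPlane.mem_nhds f)).mono fun q k => .inr k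
  filter_upwards [h1] with q hq
  have e1 : star (D.a q.1) = D.a q.1 := congrFun h.a q.1
  have e2 : ∀ j, star (D.er j q.1) = D.er j q.1 := fun j => congrFun (congrFun h.er j) q.1
  have e3 : ∀ j, star (D.ax j) = D.ax j := fun j => congrFun h.ax j
  have e4 : ∀ j, conj (D.rS j q.1) = D.rS j q.1 := fun j => congrFun (congrFun h.rS j) q.1
  have e5 : ∀ j, D.lam j q.1 * (Complex.sqrt (D.VS j q.1 + conj q.2.1 / D.q j q.1) - D.rS j q.1) =
      conj (D.lam j q.1 * (Complex.sqrt (D.VS j q.1 + q.2.1 / D.q j q.1) - D.rS j q.1)) :=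
    fun j => by
      rcases hq j with k | k
      · simp [k]
      · rw [arg_star h, sqrt_conj k, map_mul, map_sub, e4, Complex.conj_ofReal]
  rw [AD.XX, AD.XX, ← cay_star, ← ov_star h]
  congr 1
  simp only [AD.X0, Prod.fst_star, Prod.snd_star, star_add, star_sum, star_smul, cx_star, e1, e2,
    e3, Complex.star_def, e5, Pi.star_apply, map_mul, Complex.conj_ofReal]

theorem gw_star (x : E3) (t : Pi' ι α) (s : ℂ) : D.gw x (star t) (conj s) = conj (D.gw x t s) := by
  simp [AD.gw, ← lk_conj]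

theorem Om_star (x : E3) (t : Pi' ι α) (s : ℂ) : D.Om x (star t) (conj s) = conj (D.Om x t s) := by
  simp [AD.Om, gw_star, ← Complex.exp_conj]

theorem th_star (x : E3) (t : Pi' ι α) (s : ℂ) : D.th x (star t) (conj s) = conj (D.th x t s) := by
  simp [AD.th, gw_star, ← lk'_conj]

theorem lw_star (x : E3) (t : Pi' ι α) (s : ℂ) : D.lw x (star t) (conj s) = star (D.lw x t s) :=
  funext fun c => by simp [AD.lw, gw_star, ← lk_conj]

theorem mn_conj (f : ℝ → ℂ) : mn (fun θ => conj (f θ)) = conj (mn f) := integral_conj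

theorem norm_sqrt_sq (V : ℂ) : ‖Complex.sqrt V‖ ^ 2 = ‖V‖ := by
  rw [← norm_pow, Complex.sqrt, ← Complex.cpow_nat_mul]
  simp

theorem slit_pc {V p : ℂ} (hV : 0 < V.re) (h : ‖p‖ ^ 2 ≤ 2 * ‖V‖) :
    1 + (p / Complex.sqrt V) ^ 2 / 4 ∈ Complex.slitPlane := by
  have h0 : 0 < ‖V‖ := hV.trans_le (Complex.re_le_norm V)
  refine Complex.mem_slitPlane_of_norm_lt_one ?_
  rw [norm_div, norm_pow, norm_div, div_pow, norm_sqrt_sq, Complex.norm_ofNat, div_div,
    div_lt_one (by positivity)]
  linarith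

end Cjg

open Cjg

/-- **CJA** -/
theorem cja : CJA := by
  intro ι α _ _ D h x j t g
  have c := cv_XX h g.rg
  have hb : ∀ i, conj (D.b i x) = D.b i x := fun i => congrFun (congrFun h.b i) x
  have hg : gg (jA D.XX x (star j) (star t)) (nu D.w x) = conj (gg (jA D.XX x j t) (nu D.w x)) := by
    rw [c.jA, ← gg_star, nu_star]
  have hl : D.lag x (star t) = conj (D.lag x t) := by simp [AD.lag, hb]
  have hE : D.E x (star j) (star t) = star (D.E x j t) := by
    have hr : conj (rh0 x) = rh0 x := Complex.conj_ofReal _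
    simp only [AD.E]
    rw [hg, sqrt_conj g.sl, c.at_, c.dF.at_, c.jA, c.jA2, dt_star, th_star, lw_star, Om_star, hl]
    conv_lhs => rw [← nu_star D.w x, ← pd_nu_star D.w x]
    rw [ee_star, nn_star, rr_star, cr_star, dt_star, dt_star]
    simp [hr, nu_star]
  refine ⟨⟨⟨g.rg.w, g.rg.a, g.rg.lam, g.rg.rot, g.rg.sh, g.rg.ze, fun l => (g.rg.cyl l).imp_right
    fun k => ⟨k.1, k.2.1, k.2.2.1, k.2.2.2.1, k.2.2.2.2.1, ?_⟩, ?_⟩, ⟨fun l => ?_, ?_⟩, ?_⟩,
    c.at_, hE, ?_, ?_, fun φ => funext fun i => funext fun i' => ?_⟩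
  · exact arg_star h l x (j none none) ▸ slit k.2.2.2.2.2
  · rw [ov_star h, dt_star]
    simpa using (map_ne_zero conj).2 g.rg.cay
  · refine (g.rw.k l).imp_right fun k => ?_
    rw [c.at_, dt_star]
    simpa [← Complex.exp_conj] using (map_ne_zero conj).2 k
  · rw [c.at_, dt_star, gw_star]
    exact (map_ne_zero conj).2 g.rw.g
  · exact hg ▸ slit g.sl
  · rw [AD.Rm, AD.Rm, hE]
    simp [AD.Ln, hb]
  · rw [AD.If, AD.If, AD.Wj, AD.Wj, hg, sqrt_conj g.sl, c.at_, dt_star, Om_star]
    simp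
  · exact congrFun ((congrArg (P218H.dd i) (P218H.dd_conj i' φ)).trans (P218H.dd_conj i _)) x

/-- **CJF** -/
theorem cjf : CJF := by
  intro J₀ J v ε k ζ ζ₁ ζ₂ c V U p
  refine ⟨funext fun i => by fin_cases i <;> simp [rj], ?_, fun hV => ?_⟩
  · have e : te (conj ε) (conj k) (conj ζ ^ 2 + conj (U 0)) = conj (te ε k (ζ ^ 2 + U 0)) := by
      rw [← map_pow, ← map_add, te, te, lk_conj, lk'_conj]
      simp
    simp only [Ef, Pi.star_apply, Complex.star_def, e]
    simp [vv, vD]
  have hs := sqrt_conj (z := V) (.inl hV)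
  have hY : conj ζ ^ 2 * conj V / 4 = conj (ζ ^ 2 * V / 4) := by simp
  refine ⟨?_, fun hp => ?_⟩
  · simp only [Tf, Tb, wt, Complex.star_def, hY, eta_conj, hs]
    simp [← Complex.exp_conj]
  · have h1 : ∀ θ, Complex.sqrt (1 + (conj (p θ) / conj (Complex.sqrt V)) ^ 2 / 4) =
        conj (Complex.sqrt (1 + (p θ / Complex.sqrt V) ^ 2 / 4)) := fun θ => by
      rw [← sqrt_conj (slit_pc hV (hp θ))]
      simp
    have hP : ∀ θ, Pc (conj V) (conj (p θ)) = conj (Pc V (p θ)) := fun θ => by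
      simp only [Pc, hs, h1, map_div₀]
    have hQ : ∀ θ, Qc (conj V) (conj (p θ)) = conj (Qc V (p θ)) := fun θ => by
      simp only [Qc, hs, h1, map_div₀, map_one]
    have hk : lk (conj k) (conj ζ ^ 2 + conj V) = conj (lk k (ζ ^ 2 + V)) := by
      rw [← map_pow, ← map_add, lk_conj]
    have hG : ∀ I, gm I (conj ζ) (conj V) = conj (gm I ζ V) := fun I => by
      rw [gm, gm, hY, eta_conj, dta_conj]
      simp
    have hm : ∀ g : ℝ → ℝ, mn (fun θ => g θ * (conj ζ / 2 * conj (Pc V (p θ)) -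
        conj (Complex.sqrt V) * conj (Qc V (p θ)))) =
        conj (mn fun θ => g θ * (ζ / 2 * Pc V (p θ) - Complex.sqrt V * Qc V (p θ))) := fun g => by
      rw [← mn_conj]
      simp
    simp only [Bc, Complex.star_def, Pi.star_apply, hs, hP, hQ, hk, hG, hm, mn_conj]
    apply ext3 <;> simp [-Complex.ofReal_cos, -Complex.ofReal_sin]

end Vale.Agent.P218N
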