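import Vale.Agent.P218N.Spec
import Vale.Agent.P218R.Base0

/-! Block NL: the linearisation of the shrinker operator at the identity map. -/

open Filter Topology
open scoped RealInnerProductSpace

noncomputable section

namespace Vale.Agent.P218N

open Vale.Agent.P218.H63 (lap hessSq)
open Vale.Agent.P218H (op sa)

namespace Lp

/-- the identity matrix -/
def id3 : Fin 3 → V3 := ![![1, 0, 0], ![0, 1, 0], ![0, 0, 1]]

/-- the trace -/
def tr (B : Fin 3 → V3) : ℂ := B 0 0 + B 1 1 + B 2 2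

theorem nn_id (m : V3) : nn id3 m = m := by
  apply ext3 <;> simp [nn, id3]

theorem kk_id (B : Fin 3 → V3) (m : V3) : kk id3 B m = tr B • m - fun c => dt (B c) m := by
  apply ext3 <;>
  · simp [kk, id3, tr, dt]
    ring

theorem dt_id (c : Fin 3) (m : V3) : dt (id3 c) m = m c := by
  fin_cases c <;> simp [dt, id3]

/-- the algebra of the linearisation -/
theorem alg {x n Y : V3} {h B : Fin 3 → V3} {C t : Fin 3 → Fin 3 → V3} (e : dt n n = 1)
    (k : ∀ c, dt (h c) n = 0) (s : ∀ b c, h b c = h c b) (s1 : ∀ a b, t a b = t b a)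
    (s2 : ∀ a b c, t a b c = t a c b) (k2 : ∀ a c, dt (t a c) n + dt (h c) (h a) = 0)
    (sh : tr h = dt x n / 2)
    (g : ∀ a, tr (t a) - (n a + dt x (h a)) / 2 =
      n a * dt n fun b => tr (t b) - (n b + dt x (h b)) / 2) :
    dt Y n + dt x (kk id3 B n) + 2 * (-(dt (kk id3 B n) (kk h id3 n)
      + dt n (kk (fun c => kk id3 (C c) n + kk id3 B (h c)) id3 n + kk h B n))
      + tr h * (dt (kk id3 B n) n + dt n (kk id3 B n))) =
    2 * ((∑ i, ∑ j, h i j * h j i + 1 / 2) * dt Y n + ∑ j, -(x j) / 2 * (dt (B j) n + dt Y (h j))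
      + ∑ i, ∑ j, ((if i = j then 1 else 0) - n i * n j) *
        (dt (C i j) n + dt (B j) (h i) + (dt (B i) (h j) + dt Y (t i j)))) := by
  have s3 := fun a => s2 a 1 0
  have s4 := fun a => s2 a 2 0
  have s5 := fun a => s2 a 2 1
  have c : (dt n fun b => tr (t b) - (n b + dt x (h b)) / 2) =
      -(∑ i, ∑ j, h i j * h j i + 1 / 2) := by
    linear_combination (norm := (simp only [dt, tr, Fin.sum_univ_three, s 1 0, s 2 0, s 2 1, s1 1 0,
      s1 2 0, s1 2 1, s3, s4, s5]; ring1))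
      k2 0 0 + k2 1 1 + k2 2 2 - e / 2 - x 0 / 2 * k 0 - x 1 / 2 * k 1 - x 2 / 2 * k 2
  rw [c] at g
  have a1 : dt n (kk (fun c => kk id3 (C c) n) id3 n) =
      -∑ i, ∑ j, ((if i = j then 1 else 0) - n i * n j) * dt (C i j) n := by
    rw [kk_comm]
    linear_combination (norm := (simp [dt, tr, kk_id, Fin.sum_univ_three]; ring1))
      -(dt (C 0 0) n + dt (C 1 1) n + dt (C 2 2) n) * e
  have a2 : dt x (kk id3 B n) + 2 * (-(dt (kk id3 B n) (kk h id3 n)
      + (dt n (kk (fun c => kk id3 B (h c)) id3 n) + dt n (kk h B n)))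
      + tr h * (dt (kk id3 B n) n + dt n (kk id3 B n))) = 2 * (∑ j, -(x j) / 2 * dt (B j) n
      + ∑ i, ∑ j, ((if i = j then 1 else 0) - n i * n j) * (dt (B j) (h i) + dt (B i) (h j))) := by
    rw [kk_comm h id3, kk_comm _ id3]
    simp only [kk_id]
    linear_combination (norm := (simp [dt, tr, kk, Fin.sum_univ_three, s 1 0, s 2 0, s 2 1]; ring1))
      (-2 * tr B) * sh + (-2 * tr B * tr h + 4 * (dt (B 0) (h 0) + dt (B 1) (h 1) + dt (B 2) (h 2))) * e
      + (6 * tr B * n 0 - 4 * dt (B 0) n) * k 0 + (6 * tr B * n 1 - 4 * dt (B 1) n) * k 1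
      + (6 * tr B * n 2 - 4 * dt (B 2) n) * k 2
  have a3 : dt Y n = 2 * ((∑ i, ∑ j, h i j * h j i + 1 / 2) * dt Y n + ∑ j, -(x j) / 2 * dt Y (h j)
      + ∑ i, ∑ j, ((if i = j then 1 else 0) - n i * n j) * dt Y (t i j)) := by
    linear_combination (norm := (simp [dt, tr, Fin.sum_univ_three, s 1 0, s 2 0, s 2 1, s1 1 0,
      s1 2 0, s1 2 1, s3, s4, s5]; ring1))
      -2 * Y 0 * g 0 - 2 * Y 1 * g 1 - 2 * Y 2 * g 2
      + 2 * Y 0 * (n 0 * k2 0 0 + n 1 * k2 1 0 + n 2 * k2 2 0)
      + 2 * Y 1 * (n 0 * k2 0 1 + n 1 * k2 1 1 + n 2 * k2 2 1)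
      + 2 * Y 2 * (n 0 * k2 0 2 + n 1 * k2 1 2 + n 2 * k2 2 2)
      - 2 * dt Y (h 0) * k 0 - 2 * dt Y (h 1) * k 1 - 2 * dt Y (h 2) * k 2
  have a4 : kk (fun c => kk id3 (C c) n + kk id3 B (h c)) id3 n =
      kk (fun c => kk id3 (C c) n) id3 n + kk (fun c => kk id3 B (h c)) id3 n := kk_add _ _ _ _
  rw [a4, dt_add, dt_add, a1]
  simp only [mul_add, Finset.sum_add_distrib] at a2 a3 ⊢
  linear_combination a2 + a3

/-- the derivative of the operator along a curve of jets -/
theorem hd_ee {X : ℂ → V3} {A : ℂ → Fin 3 → V3} {A₂ : ℂ → Fin 3 → Fin 3 → V3} {x n Y : V3}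
    {h B : Fin 3 → V3} {C : Fin 3 → Fin 3 → V3} (e : dt n n = 1) (k : ∀ c, dt (h c) n = 0)
    (X0 : X 0 = x) (A0 : A 0 = id3) (A20 : A₂ 0 = 0) (hX : HasDerivAt X Y 0)
    (hA : HasDerivAt A B 0) (hA₂ : HasDerivAt A₂ C 0) :
    HasDerivAt (fun s => ee 1 (X s) (A s) (A₂ s) n h)
      (dt Y n + dt x (kk id3 B n) + 2 * (-(dt (kk id3 B n) (kk h id3 n)
      + dt n (kk (fun c => kk id3 (C c) n + kk id3 B (h c)) id3 n + kk h B n))
      + tr h * (dt (kk id3 B n) n + dt n (kk id3 B n)))) 0 := by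
  have z : ∀ A : Fin 3 → V3, nn A 0 = 0 := fun A => by simp [nn]
  have z' : ∀ (B : Fin 3 → V3) (m : V3), kk B 0 m = 0 := kk_zero'
  have c0 := fun m : V3 => hasDerivAt_const (0 : ℂ) m
  have hN := hd_nn hA (c0 n)
  have hD : HasDerivAt (fun s => dn (A s) (A₂ s) n h)
      (fun c => kk id3 (C c) n + kk id3 B (h c)) 0 := hasDerivAt_pi.2 fun c => by
    refine ((hd_kk hA (hasDerivAt_pi.1 hA₂ c) (c0 n)).fun_add (hd_nn hA (c0 (h c)))).congr_deriv ?_
    simp only [A0, A20, Pi.zero_apply, z, z', zero_add, add_zero]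
  have D0 : dn (A 0) (A₂ 0) n h = h := by
    funext c
    simp only [dn, A0, A20, Pi.zero_apply, z', nn_id, zero_add]
  have G0 : gg (A 0) n = 1 := by rw [gg, A0, nn_id, e]
  have hb := (hd_dt hN (hd_kk hD hA (c0 n))).fun_neg
  have := ((hd_dt hX hN).const_mul 1).fun_add ((hb.const_mul 2).fun_div (hd_dt hN hN)
    (by rw [← gg, G0]; exact one_ne_zero))
  refine this.congr_deriv ?_
  have b0 : dt n (kk h id3 n) = tr h := by
    rw [kk_comm, kk_id, show (fun c => dt (h c) n) = 0 from funext k, sub_zero, dt_smul, e, mul_one]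
  rw [D0]
  simp only [X0, A0, nn_id, z, kk_zero, add_zero, e, b0]
  ring

/-- the inclusion of real vectors -/
def cxL : E3 →L[ℝ] V3 :=
  ContinuousLinearMap.pi fun i => Complex.ofRealCLM.comp (EuclideanSpace.proj i)

theorem pd_cx {g : E3 → E3} {x : E3} (hg : DifferentiableAt ℝ g x) (c : Fin 3) :
    pd (fun y => cx (g y)) x c = cx (pd g x c) :=
  DFunLike.congr_fun (cxL.hasFDerivAt.comp x hg.hasFDerivAt).fderiv _

theorem pd_id (x : E3) : pd cx x = id3 := by
  funext c
  rw [show cx = fun y => cx (id y) from rfl, pd_cx differentiableAt_id, pd, fderiv_id]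
  fin_cases c <;> apply ext3 <;> simp [cx, id3]

theorem dt_cx (a b : E3) : dt (cx a) (cx b) = (⟪a, b⟫ : ℝ) := by
  simp [dt, cx, PiLp.inner_apply, Fin.sum_univ_three, mul_comm]

theorem pd_dt {a b : E3 → V3} {x : E3} (ha : DifferentiableAt ℝ a x) (hb : DifferentiableAt ℝ b x)
    (c : Fin 3) : DifferentiableAt ℝ (fun y => dt (a y) (b y)) x ∧
      pd (fun y => dt (a y) (b y)) x c = dt (pd a x c) (b x) + dt (a x) (pd b x c) := by
  have d : DifferentiableAt ℝ (fun y => dt (a y) (b y)) x := by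
    rw [differentiableAt_pi] at ha hb
    exact (((ha 0).mul (hb 0)).add ((ha 1).mul (hb 1))).add ((ha 2).mul (hb 2))
  exact ⟨d, pd_eq d (by simpa using hd_dt (hd_pd ha c) (hd_pd hb c))⟩

/-- second derivatives of a dot product -/
theorem pd_dt2 {a b : E3 → V3} {x : E3} (ha : ContDiffAt ℝ 2 a x) (hb : ContDiffAt ℝ 2 b x)
    (i j : Fin 3) : pd (fun y => pd (fun y => dt (a y) (b y)) y j) x i =
      dt (pd (pd a) x i j) (b x) + dt (pd a x j) (pd b x i)
        + (dt (pd a x i) (pd b x j) + dt (a x) (pd (pd b) x i j)) := by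
  have e : (fun y => pd (fun y => dt (a y) (b y)) y j) =ᶠ[𝓝 x]
      fun y => dt (pd a y j) (b y) + dt (a y) (pd b y j) := by
    filter_upwards [ha.eventually (by simp), hb.eventually (by simp)] with y h1 h2
    exact (pd_dt (h1.differentiableAt (by norm_num)) (h2.differentiableAt (by norm_num)) j).2
  have a1 := (cd_pd ha (k := 1) (by norm_num)).differentiableAt (by norm_num)
  have b1 := (cd_pd hb (k := 1) (by norm_num)).differentiableAt (by norm_num)
  have h1 := pd_dt (differentiableAt_pi.1 a1 j) (hb.differentiableAt (by norm_num)) i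
  have h2 := pd_dt (ha.differentiableAt (by norm_num)) (differentiableAt_pi.1 b1 j) i
  rw [pd_congr e, pd_apply a1, pd_apply b1, ← h1.2, ← h2.2]
  exact pd_eq (h1.1.add h2.1) ((hd_pd h1.1 i).fun_add (hd_pd h2.1 i))

theorem trace_eq (M : E3 →L[ℝ] E3) :
    LinearMap.trace ℝ E3 M.toLinearMap = ∑ i, M (EuclideanSpace.single i 1) i := by
  rw [LinearMap.trace_eq_sum_inner _ (EuclideanSpace.basisFun (Fin 3) ℝ)]
  simp [EuclideanSpace.basisFun_apply, EuclideanSpace.inner_single_left]

theorem lin_eq {V : Type*} [NormedAddCommGroup V] [NormedSpace ℝ V] (l : E3 →L[ℝ] V) (v : E3) :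
    l v = ∑ i, v i • l (EuclideanSpace.single i 1) := by
  have e : v = ∑ c, v c • EuclideanSpace.single c (1 : ℝ) := by
    ext i
    simp [Pi.single_apply]
  conv_lhs => rw [e]
  simp only [map_sum, map_smul]

variable {w : E3 → ℝ} {p : E3}

theorem grad_apply (w : E3 → ℝ) (y : E3) (i : Fin 3) : gradient w y i = pd w y i := by
  rw [pd, ← InnerProductSpace.toDual_symm_apply, EuclideanSpace.inner_single_right]
  simp [gradient]

theorem cd_grad (hw : ContDiffAt ℝ 3 w p) : ContDiffAt ℝ 2 (gradient w) p :=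
  contDiffAt_euclidean.2 fun i => by
    simp only [grad_apply]
    exact contDiffAt_pi.1 (cd_pd hw (by norm_num)) i

theorem lap_eq (hg : DifferentiableAt ℝ (gradient w) p) :
    ((lap w p : ℝ) : ℂ) = tr (pd (nu w) p) := by
  simp only [lap, trace_eq, tr, Fin.sum_univ_three, show nu w = fun y => cx (gradient w y) from rfl,
    pd_cx hg]
  simp [cx, pd]

theorem hess_eq (hg : DifferentiableAt ℝ (gradient w) p) :
    ((hessSq w p : ℝ) : ℂ) = ∑ i, ∑ j, pd (nu w) p i j * pd (nu w) p j i := by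
  simp only [hessSq, trace_eq, show nu w = fun y => cx (gradient w y) from rfl, pd_cx hg,
    ContinuousLinearMap.comp_apply]
  simp only [lin_eq (fderiv ℝ (gradient w) p) (fderiv ℝ (gradient w) p _)]
  simp [cx, pd]

end Lp

open Lp in
theorem linp : LINP := by
  intro w p hw h1 w0 hs
  have hg := cd_grad hw
  have hn : ContDiffAt ℝ 2 (nu w) p := cxL.contDiff.contDiffAt.comp p hg
  have hh := (cd_pd hn (k := 1) (by norm_num)).differentiableAt (by norm_num)
  have dn := hn.differentiableAt (by norm_num)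
  have hW : ContDiffAt ℝ 3 (fun y => (w y : ℂ)) p := Complex.ofRealCLM.contDiff.contDiffAt.comp p hw
  have eW : nu w =ᶠ[𝓝 p] pd fun y => (w y : ℂ) := by
    filter_upwards [hw.eventually (by simp)] with y hy
    funext i
    rw [nu, cx, grad_apply]
    exact (DFunLike.congr_fun (Complex.ofRealCLM.hasFDerivAt.comp y
      (hy.differentiableAt (by norm_num)).hasFDerivAt).fderiv _).symm
  have s : ∀ᶠ y in 𝓝 p, ∀ b c, pd (nu w) y b c = pd (nu w) y c b := by
    filter_upwards [pd_congr' eW, hW.eventually (by simp)] with y h h' b c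
    rw [h]
    exact pd_symm (h'.of_le (by norm_num)) b c
  have s2 : ∀ a b c, pd (pd (nu w)) p a b c = pd (pd (nu w)) p a c b := fun a b c => by
    rw [pd_apply hh, pd_apply (differentiableAt_pi.1 hh b), pd_apply hh,
      pd_apply (differentiableAt_pi.1 hh c)]
    exact congrFun (pd_congr (s.mono fun y h => h b c)) a
  have e : (fun y => dt (nu w y) (nu w y)) =ᶠ[𝓝 p] fun _ => 1 := h1.mono fun y h => by
    simp only [nu, dt_cx, real_inner_self_eq_norm_sq, h]
    simp
  have e0 : dt (nu w p) (nu w p) = 1 := e.self_of_nhds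
  have k : ∀ c, dt (pd (nu w) p c) (nu w p) = 0 := fun c => by
    have := congrFun (pd_congr e) c
    rw [(pd_dt dn dn c).2, pd_const, dt_comm (nu w p), Pi.zero_apply] at this
    linear_combination this / 2
  have k2 : ∀ a c, dt (pd (pd (nu w)) p a c) (nu w p) + dt (pd (nu w) p c) (pd (nu w) p a) = 0 :=
    fun a c => by
      have := congrFun (pd_congr (f := fun y => pd (fun y => dt (nu w y) (nu w y)) y c)
        (g := fun _ => 0) ((pd_congr' e).mono fun y h => by simp only [h, pd_const]; rfl)) a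
      rw [pd_dt2 hn hn, pd_const, dt_comm (nu w p), dt_comm (pd _ p a), Pi.zero_apply] at this
      linear_combination this / 2
  have z : ∀ᶠ y in 𝓝 p, w y = 0 → tr (pd (nu w) y) - dt (cx y) (nu w y) / 2 = 0 := by
    filter_upwards [hs, hg.eventually (by simp)] with y h h' h0
    rw [← lap_eq (h'.differentiableAt (by norm_num)), h h0, nu, dt_cx]
    simp
  have sh : tr (pd (nu w) p) = dt (cx p) (nu w p) / 2 := sub_eq_zero.1 (z.self_of_nhds w0)
  have dx : DifferentiableAt ℝ cx p := cxL.differentiableAt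
  have d3 := fun b c => differentiableAt_pi.1 (differentiableAt_pi.1 hh b) c
  have dF : DifferentiableAt ℝ (fun y => tr (pd (nu w) y) - dt (cx y) (nu w y) / 2) p :=
    (((d3 0 0).add (d3 1 1)).add (d3 2 2)).sub ((pd_dt dx dn 0).1.mul_const (2 : ℂ)⁻¹)
  have pF : ∀ a, pd (fun y => tr (pd (nu w) y) - dt (cx y) (nu w y) / 2) p a =
      tr (pd (pd (nu w)) p a) - (nu w p a + dt (cx p) (pd (nu w) p a)) / 2 := fun a => by
    have q := fun b c => hasDerivAt_pi.1 (hasDerivAt_pi.1 (hd_pd hh a) b) c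
    refine pd_eq dF ((((q 0 0).fun_add (q 1 1)).fun_add (q 2 2)).fun_sub
      (((hd_pd (pd_dt dx dn a).1 a).congr_deriv ?_).div_const 2))
    rw [(pd_dt dx dn a).2, pd_id, dt_id]
  have w1 : fderiv ℝ w p (gradient w p) = 1 := by
    rw [← InnerProductSpace.toDual_symm_apply]
    exact (real_inner_self_eq_norm_sq _).trans (by rw [← gradient, h1.self_of_nhds, one_pow])
  have g : ∀ a, tr (pd (pd (nu w)) p a) - (nu w p a + dt (cx p) (pd (nu w) p a)) / 2 =
      nu w p a * dt (nu w p) fun b =>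
        tr (pd (pd (nu w)) p b) - (nu w p b + dt (cx p) (pd (nu w) p b)) / 2 := fun a => by
    have := P218R.tan_zero (hw.of_le (by norm_num)) w0 (fun h => by simp [h] at w1) dF z
      (v := EuclideanSpace.single a 1 - gradient w p a • gradient w p)
      (by rw [map_sub, map_smul, w1, grad_apply, pd, smul_eq_mul, mul_one, sub_self])
    rw [map_sub, map_smul, sub_eq_zero, lin_eq _ (gradient w p), Fin.sum_univ_three] at this
    simp only [← pF]
    simp only [Complex.real_smul] at this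
    exact this
  refine ⟨by rw [pd_id, nn_id], by rw [gg, pd_id, nn_id, e0], ?_, fun Y hY X A A₂ X0 A0 A20 hX hA
    hA₂ => ?_⟩
  · have D0 : P218N.dn id3 0 (nu w p) (pd (nu w) p) = pd (nu w) p := by
      funext c
      simp only [P218N.dn, Pi.zero_apply, kk_zero', nn_id, zero_add]
    rw [ee, gg, bb, pd_id, D0, nn_id, e0, kk_comm, kk_id,
      show (fun c => dt (pd (nu w) p c) (nu w p)) = 0 from funext k, sub_zero, dt_smul, e0, sh]
    ring
  · refine (hd_ee e0 k X0 (A0.trans (pd_id p)) A20 hX hA hA₂).congr_deriv ?_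
    rw [alg e0 k s.self_of_nhds (pd_symm hn) s2 k2 sh g, ← hess_eq (hg.differentiableAt (by norm_num))]
    have f1 := fun j => (pd_dt (hY.differentiableAt (by norm_num)) dn j).2
    have f2 := pd_dt2 hY hn
    simp only [← f1, ← f2, op, Fintype.sum_option, sa, Complex.real_smul, Complex.ofReal_zero,
      zero_mul, zero_add, Complex.ofReal_sub, Complex.ofReal_mul, Complex.ofReal_add,
      Complex.ofReal_div, Complex.ofReal_neg, Complex.ofReal_one, Complex.ofReal_ofNat,
      apply_ite Complex.ofReal]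
    rfl

end Vale.Agent.P218N
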