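import Vale.Agent.P218N.Spec2
import Vale.Agent.P218N.Linp

/-! Block NL: the remainder vanishes to second order. -/

open Set Filter Topology
open scoped ContDiff

set_option linter.unusedSectionVars false

noncomputable section

namespace Vale.Agent.P218N

open Vale.Agent.P218H (J1 sa op)

namespace L0

section gen

variable {B : Type*} [NormedAddCommGroup B] [NormedSpace ℝ B] [NormedSpace ℂ B]
  [IsScalarTower ℝ ℂ B] {G : E3 × ℂ × B → V3} {x : E3} {φ' : E3 → ℂ} {t' : B}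

theorem lei (n : ℕ) : (n : WithTop ℕ∞) ≤ ∞ := by exact_mod_cast le_top

theorem jt_zero (x : E3) : jt (fun _ => 0) x = 0 := by
  funext i i'
  rcases i with _ | c <;> rcases i' with _ | b <;> simp [jt, P218H.dd]

theorem yv_eq (d : DifferentiableAt ℝ G (x, 0, 0))
    (k : DifferentiableAt ℂ (fun ζ => G (x, ζ)) (0, 0)) (a : ℂ) (t' : B) {v : V3}
    (hv : HasDerivAt (fun s : ℂ => G (x, s • a, s • t')) v 0) :
    a • dF G (x, 0, 0) + dT t' G (x, 0, 0) = v := by
  have c : HasDerivAt (fun s : ℂ => (s • a, s • t')) (a, t') 0 := by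
    simpa using ((hasDerivAt_id (0 : ℂ)).smul_const a).prodMk ((hasDerivAt_id (0 : ℂ)).smul_const t')
  have e := (HasFDerivAt.comp_hasDerivAt_of_eq (0 : ℂ) k.hasFDerivAt c (by simp)).unique hv
  rw [← e, dF, dT, SH.part d k, SH.part d k, ← map_smul, ← map_add]
  simp

theorem comm2 {z : E3 × ℂ × B} (c : ContDiffAt ℝ 2 G z) (u v : E3 × ℂ × B) :
    fderiv ℝ (fun q => fderiv ℝ G q u) z v = fderiv ℝ (fun q => fderiv ℝ G q v) z u := by
  have d := (c.fderiv_right (m := 1) (by norm_num)).differentiableAt one_ne_zero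
  rw [fderiv_clm_apply d (differentiableAt_const _), fderiv_clm_apply d (differentiableAt_const _)]
  simpa using (c.isSymmSndFDerivAt (by simp)).eq v u

theorem slice (d : DifferentiableAt ℝ G (x, 0, 0)) :
    DifferentiableAt ℝ (fun y => G (y, 0, 0)) x ∧
      ∀ b, pd (fun y => G (y, 0, 0)) x b = dB b G (x, 0, 0) := by
  have e : HasFDerivAt (fun y => G (y, 0, 0)) _ x :=
    d.hasFDerivAt.comp x (hasFDerivAt_prodMk_left x (0 : ℂ × B))
  exact ⟨e.differentiableAt, fun b => by rw [pd, e.fderiv]; rfl⟩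

theorem pd_yv0 (c : ContDiffAt ℝ 2 G (x, 0, 0)) (hφ : DifferentiableAt ℝ φ' x) (b : Fin 3) :
    pd (yv G (fun _ => 0) φ' 0 t') x b =
      yv (dB b G) (fun _ => 0) φ' 0 t' x + pd φ' x b • dF G (x, 0, 0) := by
  have d := fun u => ((c.fderiv_right (m := 1) (by norm_num)).clm_apply
    (contDiffAt_const (c := u))).differentiableAt one_ne_zero
  have a1 := slice (G := dF G) (d _)
  have a2 := slice (G := dT t' G) (d _)
  refine pd_eq ((hφ.smul a1.1).add a2.1) ?_
  have := (hd_smul (hd_pd hφ b) (hd_pd a1.1 b)).fun_add (hd_pd a2.1 b)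
  simp only [zero_smul, add_zero, a1.2, a2.2] at this
  refine this.congr_deriv ?_
  have e1 : dB b (dF G) (x, 0, 0) = dF (dB b G) (x, 0, 0) := comm2 c _ _
  have e2 : dB b (dT t' G) (x, 0, 0) = dT t' (dB b G) (x, 0, 0) := comm2 c _ _
  rw [e1, e2, yv]
  abel

theorem hd_line {F : Type*} [NormedAddCommGroup F] [NormedSpace ℂ F] (v : F) :
    HasDerivAt (fun s : ℂ => s • v) v 0 := by
  simpa using (hasDerivAt_id (0 : ℂ)).smul_const v

/-- the second derivatives along a line of jets -/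
theorem hd_jA2 (h : SH G (x, 0, 0)) (hφ : ContDiffAt ℝ 2 φ' x) :
    HasDerivAt (fun s : ℂ => jA2 G x (s • jt φ' x) (s • t'))
      (pd (pd (yv G (fun _ => 0) φ' 0 t')) x) 0 := by
  have d1 := hφ.differentiableAt (by norm_num)
  have d2 := fun b => differentiableAt_pi.1
    ((cd_pd hφ (k := 1) (by norm_num)).differentiableAt one_ne_zero) b
  have c0 : ContDiffAt ℝ (1 : ℕ) (fun _ : E3 => (0 : ℂ)) x := contDiffAt_const
  have q : ∀ i i', HasDerivAt (fun s : ℂ => (s • jt φ' x) i i') (jt φ' x i i') 0 := fun i i' =>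
    hd_line _
  have e : ∀ i, ((0 : ℂ) • jt φ' x) none i = jt (fun _ => 0) x none i := fun i => by
    rw [jt_zero, zero_smul]
  have A := fun {H : E3 × ℂ × B → V3} (k : SH H (x, 0, 0)) => hasDerivAt_pi.1
    (SH.hd_jA (φ := fun _ => 0) (j := fun s : ℂ => s • jt φ' x) k c0 d1 (q _ _)
      (fun b => q none (some b)) (hd_line t') e (zero_smul _ _))
  have cY : ContDiffAt ℝ (2 : ℕ) (yv G (fun _ => 0) φ' 0 t') x :=
    SH.cd_yv (φ := fun _ => 0) h contDiffAt_const hφ
  refine hasDerivAt_pi.2 fun c => hasDerivAt_pi.2 fun b => ?_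
  have := ((A (h.dB b) c).fun_add (hd_smul (q none (some b)) (A h.dF c))).fun_add
    (hd_smul (q (some c) (some b)) (h.dF.hd (q none none) (hd_line t') (by simp) (zero_smul _ _)))
  refine this.congr_deriv ?_
  have ev : (fun y => pd (yv G (fun _ => 0) φ' 0 t') y b) =ᶠ[𝓝 x] fun y =>
      yv (dB b G) (fun _ => 0) φ' 0 t' y + pd φ' y b • dF G (y, 0, 0) := by
    have c : ContinuousAt (fun y : E3 => (y, (0 : ℂ), (0 : B))) x := by fun_prop
    filter_upwards [c.eventually (h.ev 2), hφ.eventually (by simp)] with y h1 h2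
    exact pd_yv0 (by exact_mod_cast h1) (h2.differentiableAt (by norm_num)) b
  have a1 := (SH.cd_yv (φ := fun _ => 0) (t' := t') (h.dB b) c0
    (hφ.of_le (by norm_num))).differentiableAt (by simp)
  have a2 := slice (h.dF.sm.differentiableAt (by simp))
  rw [pd_apply ((cd_pd cY (k := 1) (by norm_num)).differentiableAt one_ne_zero), pd_congr ev]
  refine Eq.trans ?_ (pd_eq (a1.add ((d2 b).smul a2.1)) ((hd_pd a1 c).fun_add
    (hd_smul (hd_pd (d2 b) c) (hd_pd a2.1 c)))).symm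
  simp only [zero_smul, add_zero, a2.2, jA, Pi.zero_apply]
  rw [add_assoc, add_comm (_ • dB c _ _)]
  rfl

end gen

variable {ι α : Type} [Fintype ι] [Fintype α] {D : AD ι α} {p x : E3}

/-- the pointwise conditions near a point of the near zone -/
def Pt (D : AD ι α) (x : E3) : Prop := ∀ j, D.sh j x = 0 ∧
  (D.lam j x = 0 ∨ D.VS j x ∈ Complex.slitPlane ∧ Complex.sqrt (D.VS j x) = D.rS j x)

theorem ev_pt (h : D.Nr p) : ∀ᶠ x in 𝓝 p, Pt D x :=
  eventually_all.2 fun j => (h.sh j).and (by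
    rcases h.ok.cyl j with e | ⟨a, -, -, -, -, f, g⟩
    · exact e.mono fun _ => .inl
    · exact ((a.continuousAt.eventually (Complex.isOpen_slitPlane.mem_nhds f)).and g).mono
        fun _ => .inr)

/-- the normal direction -/
def FF (D : AD ι α) (x : E3) : V3 :=
  D.a x + ∑ j, (D.lam j x / (2 * D.rS j x * D.q j x) : ℂ) • D.er j x

theorem X0_zero (h : Pt D x) : D.X0 (x, 0, 0) = cx x := by
  have : ∀ j, (D.lam j x * (Complex.sqrt (D.VS j x) - D.rS j x)) • D.er j x = 0 := fun j => by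
    rcases (h j).2 with e | e <;> simp [e]
  simp [AD.X0, this]

theorem XX_zero (h : Pt D x) : D.XX (x, 0, 0) = cx x := by
  rw [AD.XX, AD.ov_zero x 0 fun _ => .inr rfl, cay_zero, X0_zero h]

theorem ov_smul (s : ℂ) (t : Pi' ι α) : D.ov x (s • t) = s • D.ov x t := by
  simp only [AD.ov, Finset.smul_sum, Prod.smul_fst, Pi.smul_apply, smul_eq_mul]
  exact Finset.sum_congr rfl fun j _ => by module

theorem hd_XX (h : Pt D x) (a : ℂ) (t : Pi' ι α) :
    HasDerivAt (fun s : ℂ => D.XX (x, s • a, s • t)) (a • FF D x + cr (D.ov x t) (cx x)) 0 := by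
  have h1 : HasDerivAt (fun s : ℂ => D.X0 (x, s • a, s • t)) (a • FF D x) 0 := by
    have k : ∀ j, HasDerivAt (fun s : ℂ => (D.lam j x * (Complex.sqrt (D.VS j x + s • a / D.q j x)
        - D.rS j x)) • D.er j x) (a • (D.lam j x / (2 * D.rS j x * D.q j x) : ℂ) • D.er j x) 0 :=
      fun j => by
        rcases (h j).2 with e | e
        · simpa [e] using hasDerivAt_const (0 : ℂ) (0 : V3)
        · have k1 := (hd_sqrt e.1).comp_of_eq (0 : ℂ)
            (((hd_line a).div_const (D.q j x)).const_add (D.VS j x)) (by simp)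
          refine (((k1.sub_const (D.rS j x)).const_mul (D.lam j x : ℂ)).smul_const
            (D.er j x)).congr_deriv ?_
          rw [e.2, smul_smul]
          congr 1
          ring
    have := (((hd_line a).smul_const (D.a x)).const_add (cx x)).fun_add
      (HasDerivAt.fun_sum (u := Finset.univ) fun j _ => k j)
    refine (this.congr_of_eventuallyEq (.of_forall fun s => ?_)).congr_deriv ?_
    · simp [AD.X0, (h _).1]
    · rw [FF, smul_add, Finset.smul_sum]
  have h2 := hd_cay (hd_line (D.ov x t)) h1 (by simp [dt])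
  simp only [zero_smul, cay_zero, X0_zero h] at h2
  refine (h2.congr_of_eventuallyEq (.of_forall fun s => ?_)).congr_deriv ?_
  · simp only [AD.XX, ov_smul]
  · rw [add_comm]
    congr 2
    apply ext3 <;> simp [av, dt]

theorem sh0 (h : D.Nr p) : SH D.XX (p, 0, 0) := (h.ok.rg (t := 0) rfl).XX

theorem ev_yv (h : D.Nr p) (φ' : E3 → ℂ) (t : Pi' ι α) : yv D.XX (fun _ => 0) φ' 0 t =ᶠ[𝓝 p]
    fun x => φ' x • FF D x + cr (D.ov x t) (cx x) := by
  have c : ContinuousAt (fun y : E3 => (y, (0 : ℂ), (0 : Pi' ι α))) p := by fun_prop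
  filter_upwards [ev_pt h, c.eventually ((sh0 h).ev 1), c.eventually (sh0 h).hol] with x a b d
  exact yv_eq (b.differentiableAt (by simp)) d _ _ (hd_XX a _ _)

theorem dt_sum {κ : Type} (s : Finset κ) (f : κ → V3) (v : V3) :
    dt (∑ j ∈ s, f j) v = ∑ j ∈ s, dt (f j) v := by
  simp only [dt, Finset.sum_apply, Finset.sum_mul, Finset.sum_add_distrib]

theorem ev_FF (h : D.Nr p) : ∀ᶠ x in 𝓝 p, D.w x = 0 → dt (FF D x) (nu D.w x) = 1 :=
  h.ok.unit.mono fun x k e => by
    rw [← k e, FF, add_dt, dt_sum]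
    simp only [smul_dt]

theorem dF_eq (h : D.Nr p) : dF D.XX (p, 0, 0) = FF D p := by
  have := (ev_yv h (fun _ => 1) 0).self_of_nhds
  simp only [yv, one_smul, AD.ov_zero p 0 fun _ => .inr rfl] at this
  have z : cr 0 (cx p) = 0 := by apply ext3 <;> simp
  have z' : dT 0 D.XX (p, 0, 0) = 0 := map_zero (fderiv ℝ D.XX (p, 0, 0))
  rwa [z, z', add_zero, add_zero] at this

theorem jA_zero (h : D.Nr p) : jA D.XX p 0 0 = pd cx p ∧ jA2 D.XX p 0 0 = 0 := by
  have e : (fun y => D.XX (y, 0, 0)) =ᶠ[𝓝 p] cx := (ev_pt h).mono fun _ => XX_zero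
  constructor
  · rw [← jt_zero, ← SH.pd (φ := fun _ => 0) (sh0 h) (differentiableAt_const _), pd_congr e]
  · rw [← jt_zero, ← SH.pd2 (φ := fun _ => 0) (sh0 h) contDiffAt_const, pd_congr (pd_congr' e),
      funext Lp.pd_id, pd_const]

theorem lp (h : D.Nr p) : nn (pd cx p) (nu D.w p) = nu D.w p ∧ gg (pd cx p) (nu D.w p) = 1 ∧
    ee 1 (cx p) (pd cx p) 0 (nu D.w p) (pd (nu D.w) p) = 0 ∧
    ∀ Y : E3 → V3, ContDiffAt ℝ 2 Y p →
      ∀ (X : ℂ → V3) (A : ℂ → Fin 3 → V3) (A₂ : ℂ → Fin 3 → Fin 3 → V3),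
        X 0 = cx p → A 0 = pd cx p → A₂ 0 = 0 → HasDerivAt X (Y p) 0 → HasDerivAt A (pd Y p) 0 →
        HasDerivAt A₂ (pd (pd Y) p) 0 →
        HasDerivAt (fun s => ee 1 (X s) (A s) (A₂ s) (nu D.w p) (pd (nu D.w) p))
          (2 * op (sa D.w) (fun y => dt (Y y) (nu D.w y)) p) 0 :=
  linp D.w p (h.ok.w.of_le (lei 3)) h.ok.eik h.ok.zero h.ok.shr

theorem exp_cx (p : E3) : Complex.exp (-dt (cx p) (cx p) / 4) = rh0 p := by
  rw [Lp.dt_cx, real_inner_self_eq_norm_sq, rh0]
  push_cast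
  rfl

theorem XX0 (h : D.Nr p) : D.XX (p, 0, 0) = cx p := XX_zero (ev_pt h).self_of_nhds

theorem fn0 (h : D.Nr p) : dt (dF D.XX (p, 0, 0)) (nn (jA D.XX p 0 0) (nu D.w p)) = 1 := by
  rw [dF_eq h, (jA_zero h).1, (lp h).1, (ev_FF h).self_of_nhds h.ok.zero]

theorem gg0 (h : D.Nr p) : gg (jA D.XX p 0 0) (nu D.w p) = 1 := by rw [(jA_zero h).1, (lp h).2.1]

/-- the parameters for which the weight is the Gaussian -/
def Tr (t : Pi' ι α) : Prop := ∀ l, t.2.2.2.1 l = 0 ∨ t.2.2.2.2 l = 0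

theorem Tr.smul {t : Pi' ι α} (h : Tr t) (s : ℂ) : Tr (s • t) := fun l => by
  rcases h l with e | e <;> simp [e]

theorem Tr.gw {t : Pi' ι α} (h : Tr t) (s : ℂ) : D.gw x t s = 1 := by
  rw [AD.gw, Finset.sum_eq_zero, add_zero]
  intro l _
  rcases h l with e | e <;> simp [e, lk]

theorem Tr.E {t : Pi' ι α} (h : Tr t) (j : Jt) : D.E x j t =
    ee 1 (D.XX (x, j none none, t)) (jA D.XX x j t) (jA2 D.XX x j t) (nu D.w x) (pd (nu D.w) x) / 2
    + Complex.sqrt (gg (jA D.XX x j t) (nu D.w x)) * rh0 x /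
      (Complex.exp (-dt (D.XX (x, j none none, t)) (D.XX (x, j none none, t)) / 4) *
        dt (dF D.XX (x, j none none, t)) (nn (jA D.XX x j t) (nu D.w x))) * D.lag x t := by
  have h1 : ∀ s, D.th x t s = 1 := fun s => by
    rw [AD.th, Finset.sum_eq_zero, mul_zero, zero_div, sub_zero]
    intro l _
    rcases h l with e | e <;> simp [e, lk']
  have h2 : ∀ s, D.lw x t s = 0 := fun s => funext fun c => by
    rw [AD.lw, Finset.sum_eq_zero, zero_div, Pi.zero_apply]
    intro l _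
    rcases h l with e | e <;> simp [e, lk]
  have h3 : ∀ F N A m, dt F (cr N (rr 0 A m)) = 0 := fun F N A m => by simp [rr, dt]
  simp only [AD.E, h1, h2, h3, AD.Om, h.gw, mul_one, zero_div, sub_zero]

theorem tr0 : Tr (0 : Pi' ι α) := fun _ => .inl rfl

theorem gd0 (h : D.Nr p) : D.Gd p 0 0 :=
  ⟨h.ok.rg rfl, ⟨fun l => .inr (by simp), by rw [tr0.gw]; exact one_ne_zero⟩,
    by rw [gg0 h]; exact Complex.one_mem_slitPlane⟩

theorem rm0 (h : D.Nr p) : D.Rm p 0 0 = 0 := by
  rw [AD.Rm, tr0.E, Pi.zero_apply, Pi.zero_apply, XX0 h, (jA_zero h).1, (jA_zero h).2,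
    (lp h).2.2.1]
  simp [AD.lag, AD.Ln]

theorem int_c (h : D.Nr p) {f : E3 → ℂ} (hf : ContDiffAt ℝ 2 f p)
    (e : ∀ᶠ y in 𝓝 p, D.w y = 0 → f y = 0) : op (sa D.w) f p = 0 := by
  have key : ∀ L : ℂ →L[ℝ] ℝ, L (op (sa D.w) f p) = 0 := fun L => by
    rw [← P218H.op_clm L hf]
    exact h.int _ (L.contDiff.contDiffAt.comp p hf)
      ((eventually_nhdsWithin_iff.2 e).mono fun y hy => by simp [hy])
  exact Complex.ext (key Complex.reCLM) (key Complex.imCLM)

theorem op_yv (h : D.Nr p) {φ' : E3 → ℂ} (hφ : ContDiffAt ℝ 2 φ' p) (t : Pi' ι α) :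
    op (sa D.w) (fun y => dt (yv D.XX (fun _ => 0) φ' 0 t y) (nu D.w y)) p = op (sa D.w) φ' p
      + ∑ j, (t.1 (j, 1) * D.b (j, 1) p + t.1 (j, 2) * D.b (j, 2) p) := by
  have cn : ContDiffAt ℝ 2 (nu D.w) p := (cd_nu h.ok.w).of_le (lei 2)
  have c1 : ContDiffAt ℝ 2 (fun y => dt (yv D.XX (fun _ => 0) φ' 0 t y) (nu D.w y)) p :=
    contDiffWithinAt_univ.1 (cd_dt (SH.cd_yv (φ := fun _ => 0) (n := 2) (sh0 h) contDiffAt_const
      hφ).contDiffWithinAt cn.contDiffWithinAt)
  have c2 : ∀ j l, ContDiffAt ℝ 2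
      (fun y => (D.rot j y : ℂ) * dt (cr (D.om j l) (cx y)) (nu D.w y)) p := fun j l =>
    (Complex.ofRealCLM.contDiff.contDiffAt.comp p ((h.ok.rot j).of_le (lei 2))).mul
      (contDiffWithinAt_univ.1 (cd_dt (cd_cr contDiffWithinAt_const cd_cx.contDiffWithinAt)
        cn.contDiffWithinAt))
  have c3 := fun j => (contDiffAt_const (c := t.1 (j, 1)).mul (c2 j 1)).add
    (contDiffAt_const (c := t.1 (j, 2)).mul (c2 j 2))
  have c4 := ContDiffAt.sum (s := Finset.univ) fun j _ => c3 j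
  have e := int_c h (c1.sub (hφ.add c4)) (by
    filter_upwards [ev_yv h φ' t, ev_FF h] with y a b c
    rw [a, add_dt, smul_dt, b c, mul_one, sub_eq_zero, add_right_inj]
    simp only [AD.ov, dt, cr0, cr1, cr2, Finset.sum_apply, Pi.smul_apply, Pi.add_apply,
      smul_eq_mul, Finset.sum_mul, ← Finset.sum_sub_distrib, ← Finset.sum_add_distrib]
    exact Finset.sum_congr rfl fun j _ => by ring)
  rw [P218H.op_sub c1 (hφ.add c4), P218H.op_add hφ c4, P218H.op_sum _ fun j _ => c3 j,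
    sub_eq_zero] at e
  rw [e]
  refine congrArg _ (Finset.sum_congr rfl fun j _ => ?_)
  rw [P218H.op_add (contDiffAt_const.mul (c2 j 1)) (contDiffAt_const.mul (c2 j 2)),
    P218H.op_cmul (c2 j 1), P218H.op_cmul (c2 j 2), h.ok.brot j 1 (by decide),
    h.ok.brot j 2 (by decide)]

/-- the remainder along a line of jets -/
theorem line (h : D.Nr p) {φ' : E3 → ℂ} (hφ : ContDiffAt ℝ 2 φ' p) {t : Pi' ι α} (ht : Tr t) :
    HasDerivAt (fun s : ℂ => D.Rm p (s • jt φ' p) (s • t)) 0 0 := by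
  have q : ∀ i i', HasDerivAt (fun s : ℂ => (s • jt φ' p) i i') (jt φ' p i i') 0 := fun i i' =>
    hd_line _
  have z : ((0 : ℂ) • jt φ' p) none none = 0 := by simp
  have hX := (sh0 h).hd (q none none) (hd_line t) z (zero_smul _ _)
  have hF := (sh0 h).dF.hd (q none none) (hd_line t) z (zero_smul _ _)
  have hA := SH.hd_jA (φ := fun _ => 0) (j := fun s : ℂ => s • jt φ' p) (sh0 h) contDiffAt_const
    (hφ.differentiableAt (by norm_num)) (q _ _) (fun b => q none (some b)) (hd_line t)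
    (fun i => by rw [jt_zero, zero_smul]) (zero_smul _ _)
  have h1 := (lp h).2.2.2 _ (SH.cd_yv (φ := fun _ => 0) (n := 2) (t' := t) (sh0 h)
    contDiffAt_const hφ) _ _ _ (by simp only [zero_smul]; exact XX0 h)
    (by simp only [zero_smul]; exact (jA_zero h).1)
    (by simp only [zero_smul]; exact (jA_zero h).2) hX hA (hd_jA2 (sh0 h) hφ)
  have c0 := hasDerivAt_const (0 : ℂ) (nu D.w p)
  have h2 := ((hd_area hA c0 (by
    simp only [zero_smul]; exact (gd0 h).sl)).mul_const (rh0 p)).fun_div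
    (((hd_dt hX hX).fun_neg.div_const 4).cexp.fun_mul (hd_dt hF (hd_nn hA c0))) (by
      simp only [zero_smul, Pi.zero_apply, fn0 h, mul_one]
      exact Complex.exp_ne_zero _)
  have h3 := ((h1.div_const 2).fun_add (h2.fun_mul (hd_line (D.lag p t)))).fun_sub
    (hd_line (D.Ln p (jt φ' p) t))
  refine (h3.congr_of_eventuallyEq (.of_forall fun s => ?_)).congr_deriv ?_
  · have e1 : D.lag p (s • t) = s • D.lag p t := by
      simp only [AD.lag, Prod.smul_fst, Prod.smul_snd, Pi.smul_apply, smul_eq_mul, mul_sub,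
        Finset.mul_sum, mul_assoc]
    have e2 : D.Ln p (s • jt φ' p) (s • t) = s • D.Ln p (jt φ' p) t := by
      simp only [AD.Ln, Prod.smul_fst, Prod.smul_snd, Pi.smul_apply, smul_eq_mul, mul_sub, mul_add,
        Finset.mul_sum, mul_assoc, Complex.real_smul, mul_left_comm s]
    simp only [AD.Rm, (ht.smul s).E, e1, e2]
  · have r : rh0 p ≠ 0 := exp_cx p ▸ Complex.exp_ne_zero _
    simp only [zero_smul, Pi.zero_apply, fn0 h, gg0 h, XX0 h, exp_cx, mul_zero, zero_add, op_yv h hφ,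
      mul_one, Complex.sqrt_one, one_mul, div_self r]
    simp only [AD.lag, AD.Ln, op, jt, Fintype.sum_prod_type, Fin.sum_univ_three,
      Finset.sum_add_distrib]
    ring

theorem rm_congr {j j' : Jt} (h1 : ∀ i, j none i = j' none i)
    (h2 : ∀ c b, j (some c) (some b) = j' (some c) (some b)) (t : Pi' ι α) :
    D.Rm x j t = D.Rm x j' t := by
  have e : ∀ G : E3 × ℂ × Pi' ι α → V3, jA G x j t = jA G x j' t := fun G => by
    funext b
    simp only [jA, h1]
  have e2 : jA2 D.XX x j t = jA2 D.XX x j' t := by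
    funext c b
    simp only [jA2, e, h1, h2]
  simp only [AD.Rm, AD.E, AD.Ln, e, e2, h1, h2, Fintype.sum_option, sa, zero_smul]

theorem aq0 (h : D.Nr p) (j : Jt) : D.Aq p 0 0 j = 0 := by
  have e1 : dt (FF D p) (nu D.w p) = 1 := (ev_FF h).self_of_nhds h.ok.zero
  have e2 : dt (nu D.w p) (nu D.w p) = 1 := by
    have := (lp h).2.1
    rwa [gg, (lp h).1] at this
  have e3 : ∀ c b, ((sa D.w (some c) (some b) p : ℝ) : ℂ) =
      (if c = b then 1 else 0) - nu D.w p c * nu D.w p b := fun c b => by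
    simp only [sa, nu, cx]
    split_ifs <;> simp
  rw [AD.Aq, Pi.zero_apply, Pi.zero_apply, dF_eq h, e2l, gg0 h, (jA_zero h).1, Lp.pd_id]
  simp only [Complex.real_smul, e3]
  generalize nu D.w p = n at e1 e2
  generalize FF D p = F at e1
  have z : nn Lp.id3 0 = 0 := Lp.nn_id 0
  have e4 : dn Lp.id3 (fun c b => j (some c) (some b) • F) n 0 =
      fun c => kk Lp.id3 (fun b => j (some c) (some b) • F) n := by
    funext c
    rw [dn, Pi.zero_apply, z, add_zero]
  rw [bb, e4, Lp.nn_id, kk_comm]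
  simp only [Lp.kk_id]
  linear_combination (norm := (simp [dt, Lp.tr, Fin.sum_univ_three]; ring1))
    (dt n n * ∑ c, j (some c) (some c) - ∑ c, ∑ b, n c * n b * j (some c) (some b)) * e1
      + (∑ c, j (some c) (some c)) * e2

theorem diff (h : D.Nr p) : DifferentiableAt ℂ (fun z : Jt × Pi' ι α => D.Rm p z.1 z.2) 0 := by
  have G := gd0 h
  have hg : ContDiffAt ℝ ∞ (fun _ : ℝ => p) ((0 : ℝ), (0 : Jt × Pi' ι α)).1 := contDiffAt_const
  have hj : SH (fun q : ℝ × Jt × Pi' ι α => q.2.1) (0, 0) := SH.snd.p1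
  have hu : SH (fun q : ℝ × Jt × Pi' ι α => q.2.2) (0, 0) := SH.snd.p2
  have X := G.rg.sX hg hj hu
  have A := SH.jA G.rg.XX hg hj hu
  have F := G.rg.XX.dF.comp hg (((hj.ap none).ap none).prodMk hu)
  have N := A.nn (.const (nu D.w p))
  have s := X.dt X
  have n : dt (dF D.XX (p, 0, 0)) (nn (jA D.XX p 0 0) (nu D.w p)) ≠ 0 := by
    rw [fn0 h]; exact one_ne_zero
  have lψ : SH (fun q : ℝ × Jt × Pi' ι α => ∑ i, q.2.2.2.1 i * (D.ψ i p : ℂ)) (0, 0) :=
    .sum _ fun i => (hu.p2.p1.ap i).mul (.const _)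
  have e1 := ((G.rg.th G.rw hg hu s).ee X A (SH.jA2 G.rg.XX hg hj hu) (.const (nu D.w p))
    (.const (pd (nu D.w) p)) (Complex.slitPlane_ne_zero G.sl)).div (.const 2) two_ne_zero
  have e2 := (F.dt (N.cr ((G.rg.lw G.rw hg hu s).rr A (.const (nu D.w p))))).div (F.dt N) n
  have e3 := ((((A.gg (.const (nu D.w p))).sqrt G.sl).mul (.const (rh0 p))).div
    ((G.rg.Om G.rw hg hu s).mul (F.dt N))
      (mul_ne_zero (mul_ne_zero (Complex.exp_ne_zero _) G.rw.g) n)).mul
    ((SH.sum Finset.univ fun l => (hu.p1.ap (l, 0)).mul (.const (D.b (l, 0) p))).sub lψ)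
  have e4 := ((SH.sum Finset.univ fun i => SH.sum Finset.univ fun i' =>
    (SH.const ((sa D.w i i' p : ℝ) : ℂ)).mul ((hj.ap i).ap i')).add
      (SH.sum Finset.univ fun l => (hu.p1.ap l).mul (.const (D.b l p)))).sub lψ
  exact (((e1.sub e2).add e3).sub e4).at_

/-- an affine function with a given jet -/
theorem exists_aff (p : E3) (j : Jt) : ∃ φ : E3 → ℂ, ContDiffAt ℝ 2 φ p ∧
    (∀ i, jt φ p none i = j none i) ∧ ∀ c b, jt φ p (some c) (some b) = 0 := by
  let L : E3 →L[ℝ] ℂ := ∑ b, (EuclideanSpace.proj b : E3 →L[ℝ] ℝ).smulRight (j none (some b))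
  have d : ∀ y, fderiv ℝ (fun y => L y + (j none none - L p)) y = L := fun y =>
    (L.hasFDerivAt.add_const _).fderiv
  refine ⟨fun y => L y + (j none none - L p), L.contDiff.contDiffAt.add contDiffAt_const,
    fun i => ?_, fun c b => ?_⟩
  · rcases i with _ | b
    · simp [jt, P218H.dd]
    · simp only [jt, P218H.dd, d]
      simp [L, P218H.ee]
  · simp [jt, P218H.dd, d]

end L0

open L0 in
theorem lin0 : LIN0 := by
  intro ι α _ _ D p h
  refine ⟨XX0 h, (jA_zero h).1, gd0 h, fn0 h, ?_, rm0 h, ?_⟩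
  · rw [AD.If, AD.Om, AD.Wj, tr0.gw, gg0 h, Pi.zero_apply, Pi.zero_apply, XX0 h, exp_cx]
    simp
  · have d := (diff h).hasFDerivAt
    have k : ∀ (j : Jt) (t : Pi' ι α), HasDerivAt (fun s : ℂ => D.Rm p (s • j) (s • t)) 0 0 →
        fderiv ℂ (fun z : Jt × Pi' ι α => D.Rm p z.1 z.2) 0 (j, t) = 0 := fun j t e =>
      (HasFDerivAt.comp_hasDerivAt_of_eq (0 : ℂ) d (hd_line (j, t)) (zero_smul _ _).symm).unique e
    refine d.congr_fderiv (ContinuousLinearMap.ext fun ⟨j, m, l, la, ep, κ⟩ => ?_)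
    obtain ⟨φ, hφ, e1, e2⟩ := exists_aff p j
    have k1 := k (mix j 0) (m, l, la, ep, 0) ((line h hφ fun _ => .inr rfl).congr_of_eventuallyEq
      (.of_forall fun s => rm_congr (fun i => by simp [mix, e1]) (fun c b => by simp [mix, e2]) _))
    have k2 := k 0 (0, 0, 0, 0, κ) (by
      have := line h (φ' := fun _ => 0) contDiffAt_const (t := (0, 0, 0, 0, κ)) fun _ => .inl rfl
      rwa [jt_zero] at this)
    have k3 := k (mix 0 j) 0 ((hasDerivAt_const (0 : ℂ) (0 : ℂ)).congr_of_eventuallyEq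
      (.of_forall fun s => by
        have e : s • mix 0 j = mix 0 (s • j) := by
          funext i i'
          rcases i with _ | c <;> rcases i' with _ | b <;> simp [mix]
        simp only [e, smul_zero]
        rw [AD.Rm_mix, mix_self, rm0 h, aq0 h, add_zero]))
    have e : ((j, m, l, la, ep, κ) : Jt × Pi' ι α) =
        (mix j 0, m, l, la, ep, 0) + (0, 0, 0, 0, 0, κ) + (mix 0 j, 0) := by
      have : mix j 0 + mix 0 j = j := by
        funext i i'
        rcases i with _ | c <;> rcases i' with _ | b <;> simp [mix]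
      simp [this]
    rw [e, map_add, map_add, k1, k2, k3]
    simp

end Vale.Agent.P218N
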