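import Vale.Agent.P218N.Spec2

/-! Block NL, row TUB: uniform bounds on compact sets. -/

open Set Filter Topology Metric
open scoped ContDiff

noncomputable section

namespace Vale.Agent.P218N

open Vale.Agent.P218H (J1)

namespace Tuba

/-- uniform constants on compact sets -/
theorem unif {X Z : Type*} [TopologicalSpace X] [NormedAddCommGroup Z] {K : Set X}
    (hK : IsCompact K) {P : ℝ → X × Z → Prop} (mono : ∀ C C' q, C ≤ C' → P C q → P C' q)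
    (h : ∀ p ∈ K, ∃ C, ∀ᶠ q in 𝓝 (p, 0), P C q) :
    ∃ r C : ℝ, 0 < r ∧ 0 ≤ C ∧ ∀ p ∈ K, ∀ ζ, ‖ζ‖ < r → P C (p, ζ) := by
  refine hK.induction_on (p := fun s => ∃ r C : ℝ, 0 < r ∧ 0 ≤ C ∧ ∀ p ∈ s, ∀ ζ, ‖ζ‖ < r →
    P C (p, ζ)) ⟨1, 0, one_pos, le_rfl, fun _ h => h.elim⟩ ?_ ?_ ?_
  · rintro s t hst ⟨r, C, h1, h2, h3⟩
    exact ⟨r, C, h1, h2, fun p hp => h3 p (hst hp)⟩
  · rintro s t ⟨r, C, h1, h2, h3⟩ ⟨r', C', h1', -, h3'⟩
    refine ⟨min r r', max C C', lt_min h1 h1', le_max_of_le_left h2, fun p hp ζ hζ => ?_⟩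
    rcases hp with hp | hp
    · exact mono _ _ _ (le_max_left _ _) (h3 p hp ζ (hζ.trans_le (min_le_left _ _)))
    · exact mono _ _ _ (le_max_right _ _) (h3' p hp ζ (hζ.trans_le (min_le_right _ _)))
  · intro p hp
    obtain ⟨C, hC⟩ := h p hp
    obtain ⟨u, hu, v, hv, huv⟩ := mem_nhds_prod_iff.1 hC
    obtain ⟨r, hr, hb⟩ := Metric.mem_nhds_iff.1 hv
    exact ⟨u, mem_nhdsWithin_of_mem_nhds hu, r, max C 0, hr, le_max_right _ _, fun x hx ζ hζ =>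
      mono _ _ _ (le_max_left _ _) (huv (mk_mem_prod hx (hb (mem_ball_zero_iff.2 hζ))))⟩

/-- the jets of order at most one -/
def ex (a : J1 3 → ℂ) : Jt := fun _ => a

variable {ι α : Type} [Fintype ι] [Fintype α] {D : AD ι α} {K : Set E3} {p : E3}

theorem rg (hK : ∀ x ∈ K, D.Nr x) (h : D.Rg p 0 0) :
    ∀ᶠ q : E3 × ℂ × Pi' ι α in 𝓝 (p, 0, 0), q.1 ∈ K → D.Rg q.1 q.2.1 q.2.2 := by
  have c : ∀ j, ∀ᶠ q : E3 × ℂ × Pi' ι α in 𝓝 (p, 0, 0), (D.lam j =ᶠ[𝓝 q.1] fun _ => 0) ∨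
      D.VS j q.1 + q.2.1 / D.q j q.1 ∈ Complex.slitPlane := fun j => by
    rcases h.cyl j with e | ⟨a, -, c, -, e, f⟩
    · exact ((continuousAt_fst (p := (p, (0 : ℂ), (0 : Pi' ι α)))).eventually
        e.eventuallyEq_nhds).mono fun q k => .inl k
    · exact ((((SH.fst a).add (SH.snd.p1.div (.fst c) e)).cont (z := (p, (0 : ℂ),
        (0 : Pi' ι α)))).eventually (Complex.isOpen_slitPlane.mem_nhds f)).mono fun q k => .inr k
  filter_upwards [eventually_all.2 c, ((SH.const 4).add (h.ov.dt h.ov)).cont.eventually_ne h.cay]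
    with q h1 h2 hq
  have o := (hK _ hq).ok
  refine ⟨o.w, o.a, o.lam, o.rot, o.sh, o.ze, fun j => ?_, h2⟩
  rcases h1 j with e | e
  · exact .inl e
  · exact (o.cyl j).imp_right fun k => ⟨k.1, k.2.1, k.2.2.1, k.2.2.2.1, k.2.2.2.2.1, e⟩

theorem loc (hL : LIN0) (hK : ∀ x ∈ K, D.Nr x) (hp : p ∈ K) :
    ∃ C : ℝ, ∀ᶠ q : E3 × (J1 3 → ℂ) × Pi' ι α in 𝓝 (p, 0), q.1 ∈ K →
      D.Gd q.1 (ex q.2.1) q.2.2 ∧ D.fn q.1 (ex q.2.1) q.2.2 ≠ 0 ∧
      (∀ l, ‖D.IO l q.1 (ex q.2.1) q.2.2‖ ≤ C * ‖q.2.2.2.2.2.2 l‖ ^ 2) ∧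
      ‖D.If q.1 (ex q.2.1) q.2.2 - rh0 q.1‖ ≤ C * ‖q.2‖ := by
  obtain ⟨-, -, ⟨g1, g2, g3⟩, f1, -⟩ := hL ι α D p (hK p hp)
  set z : E3 × (J1 3 → ℂ) × Pi' ι α := (p, 0) with hz
  have hj : SH (fun q : E3 × (J1 3 → ℂ) × Pi' ι α => ex q.2.1) z := .pi fun _ => SH.snd.p1
  have hu : SH (fun q : E3 × (J1 3 → ℂ) × Pi' ι α => q.2.2) z := SH.snd.p2
  have hg : ContDiffAt ℝ ∞ (fun x : E3 => x) z.1 := contDiffAt_id
  have hX := AD.Rg.sX (g := fun x => x) (z := z) g1 hg hj hu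
  have hs := hX.dt hX
  have hA := SH.jA (g := fun x => x) (z := z) g1.XX hg hj hu
  have hn : SH (fun q : E3 × (J1 3 → ℂ) × Pi' ι α => nu D.w q.1) z := .fst (cd_nu g1.w)
  have hW := AD.Rg.Wj (g := fun x => x) (z := z) g1 hg hj hu g3
  have hO := AD.Rg.Om (g := fun x => x) (z := z) g1 g2 hg hu hs
  have hw := AD.Rg.gw (g := fun x => x) (z := z) g1 g2 hg hu hs
  have hF := (g1.XX.dF.comp (g := fun x => x) (y := z) hg
    (((hj.ap none).ap none).prodMk hu)).dt (hA.nn hn)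
  have he := (hs.neg.div (.const 4) (by norm_num)).exp
  have hk := fun l => (hu.p2.p2.p2.p2.ap l).add he
  have k0 := fun l : ι => (zero_add _).trans_ne (Complex.exp_ne_zero
    (-dt (D.XX (p, 0, 0)) (D.XX (p, 0, 0)) / 4))
  have hH := SH.pi fun l => ((he.mul (.real (g1.ze l))).mul hW).div ((hk l).pow 2)
    (pow_ne_zero 2 (k0 l))
  obtain ⟨L, U, hU, hL'⟩ := ((hO.mul hW).sm.of_le (m := 1)
    (by exact_mod_cast le_top)).exists_lipschitzOnWith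
  obtain ⟨B, hB⟩ := hH.cont.norm.isBoundedUnder_le
  have c0 : ContinuousAt (fun q : E3 × (J1 3 → ℂ) × Pi' ι α => (q.1, q.2.1 none, q.2.2)) z := by
    fun_prop
  have c1 : Tendsto (fun q : E3 × (J1 3 → ℂ) × Pi' ι α => ((q.1, 0) : E3 × (J1 3 → ℂ) × Pi' ι α))
      (𝓝 z) (𝓝 z) := (continuous_fst.prodMk continuous_const).tendsto z
  refine ⟨max L B, ?_⟩
  filter_upwards [c0.eventually (rg hK g1), eventually_all.2 fun l => (hk l).cont.eventually_ne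
    (k0 l), hw.cont.eventually_ne g2.g, (hA.gg hn).cont.eventually
    (Complex.isOpen_slitPlane.mem_nhds g3), hF.cont.eventually_ne (f1.trans_ne one_ne_zero),
    hU, c1.eventually hU, eventually_map.1 hB] with q a1 a2 a3 a4 a5 a6 a7 a8 hq
  refine ⟨⟨a1 hq, ⟨fun l => .inr (a2 l), a3⟩, a4⟩, a5, fun l => ?_, ?_⟩
  · have b := (norm_le_pi_norm _ l).trans (a8.trans (le_max_right (L : ℝ) B))
    refine le_trans (le_of_eq ?_) (mul_le_mul_of_nonneg_right b (sq_nonneg _))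
    rw [← norm_pow, ← norm_mul]
    congr 1
    simp only [AD.IO, lk]
    ring
  · have b := hL'.dist_le_mul q a6 _ a7
    rw [← (hL ι α D q.1 (hK _ hq)).2.2.2.2.1, ← dist_eq_norm]
    refine b.trans (mul_le_mul (le_max_left _ _) (le_of_eq ?_) dist_nonneg
      (le_max_of_le_left L.coe_nonneg))
    simp [Prod.dist_eq, Prod.norm_def]

end Tuba

open Tuba

/-- **TUB** -/
theorem tub (h : LIN0) : TUB := by
  intro ι α _ _ D K hK hN
  obtain ⟨r, C, hr, hC, hb⟩ := unif hK (fun C C' q hC k hq => ⟨(k hq).1, (k hq).2.1,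
    fun l => ((k hq).2.2.1 l).trans (mul_le_mul_of_nonneg_right hC (sq_nonneg _)),
    (k hq).2.2.2.trans (mul_le_mul_of_nonneg_right hC (norm_nonneg _))⟩)
    fun p hp => loc h hN hp
  refine ⟨r, C, hr, hC, fun p hp j t hj ht => ?_⟩
  obtain ⟨⟨a1, a2, a3⟩, b, c, d⟩ := hb p hp (j none, t)
    (max_lt ((pi_norm_lt_iff hr).2 hj) ht) hp
  exact ⟨⟨a1, a2, a3⟩, b, c, fun δ h1 h2 => d.trans (mul_le_mul_of_nonneg_left
    (max_le ((pi_norm_le_iff_of_nonneg ((norm_nonneg _).trans h2)).2 h1) h2) hC)⟩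

end Vale.Agent.P218N
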