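import Vale.Agent.P218N.Form
import Vale.Agent.P218H.SpecS
import Vale.Agent.P218R.Stm
import Vale.Agent.P218W.Fc

/-! Block NL: statements of the self-contained rows. -/

open MeasureTheory Set Filter Topology
open scoped ContDiff RealInnerProductSpace Real

noncomputable section

namespace Vale.Agent.P218N

open Vale.Agent.P218.H63 (lap IsTubeShrinker)
open Vale.Agent.P218H (op sa HH)
open Vale.Agent.P218W (W Le Ret)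

/-- a real vector as a complex vector -/
def cx (v : E3) : V3 := fun i => (v i : ℂ)

/-- the gradient as a complex vector -/
def nu (w : E3 → ℝ) (x : E3) : V3 := cx (gradient w x)

/-- the normalised area measure of the zero set -/
def sig (w : E3 → ℝ) : Measure E3 := (μHE[2] : Measure E3).restrict {x | w x = 0}

/-- linearisation of the shrinker operator at the identity map of a shrinker -/
def LINP : Prop := ∀ (w : E3 → ℝ) (p : E3), ContDiffAt ℝ 3 w p →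
  (∀ᶠ y in 𝓝 p, ‖gradient w y‖ = 1) → w p = 0 →
  (∀ᶠ y in 𝓝 p, w y = 0 → lap w y = ⟪y, gradient w y⟫ / 2) →
  nn (pd cx p) (nu w p) = nu w p ∧ gg (pd cx p) (nu w p) = 1 ∧
  ee 1 (cx p) (pd cx p) 0 (nu w p) (pd (nu w) p) = 0 ∧
  ∀ Y : E3 → V3, ContDiffAt ℝ 2 Y p →
    ∀ (X : ℂ → V3) (A : ℂ → Fin 3 → V3) (A₂ : ℂ → Fin 3 → Fin 3 → V3),
      X 0 = cx p → A 0 = pd cx p → A₂ 0 = 0 → HasDerivAt X (Y p) 0 → HasDerivAt A (pd Y p) 0 →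
      HasDerivAt A₂ (pd (pd Y) p) 0 →
      HasDerivAt (fun s => ee 1 (X s) (A s) (A₂ s) (nu w p) (pd (nu w) p))
        (2 * op (sa w) (fun y => dt (Y y) (nu w y)) p) 0

/-- integration by parts on the surface -/
def SIBP : Prop := ∀ (S : Set E3) (w : E3 → ℝ) (δ C : ℝ), IsTubeShrinker S w δ C →
  ContDiff ℝ ∞ w → IsFiniteMeasureOnCompacts (sig w) ∧ ∀ (K : Set E3) (X Y v : E3 → V3),
    IsCompact K → (∀ x ∈ S, x ∉ K → Y =ᶠ[𝓝 x] fun _ => 0) →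
    (∀ x ∈ S ∩ K, ContDiffAt ℝ 2 X x ∧ ContDiffAt ℝ 1 Y x ∧ ContDiffAt ℝ 1 v x) →
    Integrable (fun x => dt (v x) (kk (pd X x) (pd Y x) (nu w x))) (sig w) ∧
    Integrable (fun x => dt (Y x) (kk (pd v x) (pd X x) (nu w x))) (sig w) ∧
    ∫ x, dt (v x) (kk (pd X x) (pd Y x) (nu w x)) ∂(sig w) =
      ∫ x, dt (Y x) (kk (pd v x) (pd X x) (nu w x)) ∂(sig w)

/-- the divergence theorem on a strip; points are `(z, θ)` -/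
def DIV2 : Prop := ∀ (a b : ℝ) (F G Ft Gz : ℝ × ℝ → ℂ), a ≤ b →
  ContinuousOn G (Icc a b ×ˢ univ) → ContinuousOn Ft (Icc a b ×ˢ univ) →
  ContinuousOn Gz (Icc a b ×ˢ univ) → (∀ z ∈ Ioo a b, F (z, 2 * π) = F (z, 0)) →
  (∀ z ∈ Ioo a b, ∀ θ, HasDerivAt (fun θ => F (z, θ)) (Ft (z, θ)) θ ∧
    HasDerivAt (fun z => G (z, θ)) (Gz (z, θ)) z) →
  ∫ z in a..b, ∫ θ in (0 : ℝ)..2 * π, (Ft (z, θ) + Gz (z, θ)) =
    (∫ θ in (0 : ℝ)..2 * π, G (b, θ)) - ∫ θ in (0 : ℝ)..2 * π, G (a, θ)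

/-- integrals of dominated holomorphic families -/
def HOLI : Prop := ∀ (X T : Type) [NormedAddCommGroup X] [NormedSpace ℂ X] [MeasurableSpace T]
  (μ : Measure T) (U : Set X) (F : X → T → ℂ) (g : T → ℝ), IsOpen U → Integrable g μ →
  (∀ᵐ t ∂μ, DifferentiableOn ℂ (fun x => F x t) U ∧ ∀ x ∈ U, ‖F x t‖ ≤ g t) →
  (∀ x ∈ U, AEStronglyMeasurable (F x) μ) →
  DifferentiableOn ℂ (fun x => ∫ t, F x t ∂μ) U ∧ ∀ x ∈ U, ∀ v,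
    Integrable (fun t => fderiv ℂ (fun y => F y t) x v) μ ∧
    fderiv ℂ (fun y => ∫ t, F y t ∂μ) x v = ∫ t, fderiv ℂ (fun y => F y t) x v ∂μ

/-- a bounded map into a space of bounded functions whose unit ball is closed for uniform
convergence is holomorphic as soon as its values are -/
def HOLY : Prop := ∀ (X Y T : Type) [NormedAddCommGroup X] [NormedSpace ℂ X]
  [NormedAddCommGroup Y] [NormedSpace ℂ Y] (ev : T → Y →L[ℂ] ℂ) (C : ℝ),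
  (∀ t y, ‖ev t y‖ ≤ C * ‖y‖) → (∀ y, (∀ t, ev t y = 0) → y = 0) →
  (∀ f : T → ℂ, (∀ ε > (0 : ℝ), ∃ y : Y, ‖y‖ ≤ 1 ∧ ∀ t, ‖f t - ev t y‖ ≤ ε) →
    ∃ y : Y, ‖y‖ ≤ 1 ∧ ∀ t, ev t y = f t) →
  ∀ (U : Set X) (F : X → Y) (M : ℝ), IsOpen U → (∀ x ∈ U, ‖F x‖ ≤ M) →
    (∀ t, DifferentiableOn ℂ (fun x => ev t (F x)) U) → DifferentiableOn ℂ F U

/-- composition operators on Hölder spaces: `ι → ℂ` are the jets, `P` the parameters -/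
def NEMH : Prop := ∀ (K : Set E3) (ι P : Type) [Fintype ι] [NormedAddCommGroup P]
  [NormedSpace ℂ P] [FiniteDimensional ℂ P] (α : ℝ) (Φ : E3 × ((ι → ℂ) × P) → ℂ),
  IsCompact K → 0 < α → α ≤ 1 → (∀ p ∈ K, ContDiffAt ℝ 1 Φ (p, 0)) →
  (∀ p ∈ K, ∀ᶠ z : E3 × ((ι → ℂ) × P) in 𝓝 (p, 0),
    DifferentiableAt ℂ (fun y => Φ (z.1, y)) z.2) →
  ∃ (r M : ℝ) (N : (ι → HH α K) × P → HH α K), 0 < r ∧
    DifferentiableOn ℂ N (Metric.ball 0 r) ∧ ∀ x ∈ Metric.ball (0 : (ι → HH α K) × P) r,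
      ‖N x‖ ≤ M ∧ ∀ p : K, N x p = Φ (p, (fun i => x.1 i p), x.2)

/-- composition operators on the algebras `W` -/
def NEMW : Prop := ∀ (ι P : Type) [Fintype ι] [NormedAddCommGroup P] [NormedSpace ℂ P],
  ∃ C : ℝ, 0 < C ∧ ∀ (s : Set ℝ) (ρ : ℝ → ℝ) (r M : ℝ) (Φ : (ℝ × ℝ) × ((ι → ℂ) × P) → ℂ),
    Ret s ρ → 0 < r → ContinuousOn Φ ((s ×ˢ univ) ×ˢ Metric.ball 0 r) →
    (∀ y ∈ s ×ˢ (univ : Set ℝ), DifferentiableOn ℂ (fun ζ => Φ (y, ζ)) (Metric.ball 0 r)) →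
    (∀ ζ ∈ Metric.ball (0 : (ι → ℂ) × P) r, Le s (fun y => Φ (y, ζ)) (fun _ => 1) M) →
    ∃ N : (ι → W ρ) × P → W ρ, DifferentiableOn ℂ N (Metric.ball 0 (r / C)) ∧
      ∀ x ∈ Metric.ball (0 : (ι → W ρ) × P) (r / C), ‖N x‖ ≤ C * M ∧
        ∀ z ∈ s, ∀ θ, N x (z, θ) = Φ ((z, θ), (fun i => x.1 i (z, θ)), x.2)

/-- the hypotheses of `NEMW` on a compact strip -/
def LEC : Prop := ∀ (J : Type) [NormedAddCommGroup J] [NormedSpace ℂ J] [FiniteDimensional ℂ J]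
  (a b : ℝ) (Φ : (ℝ × ℝ) × J → ℂ), (∀ z θ ζ, Φ ((z, θ + 2 * π), ζ) = Φ ((z, θ), ζ)) →
  (∀ z ∈ Icc a b, ∀ θ, ContDiffAt ℝ 2 Φ ((z, θ), 0) ∧ ∀ᶠ q : (ℝ × ℝ) × J in 𝓝 ((z, θ), 0),
    DifferentiableAt ℂ (fun ζ => Φ (q.1, ζ)) q.2) →
  ∃ r M : ℝ, 0 < r ∧ ContinuousOn Φ ((Icc a b ×ˢ univ) ×ˢ Metric.ball 0 r) ∧
    (∀ y ∈ Icc a b ×ˢ (univ : Set ℝ), DifferentiableOn ℂ (fun ζ => Φ (y, ζ)) (Metric.ball 0 r)) ∧
    ∀ ζ ∈ Metric.ball (0 : J) r, Le (Icc a b) (fun y => Φ (y, ζ)) (fun _ => 1) M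

/-- consequences of the Cauchy estimates -/
def CAU : Prop := ∀ (X Y : Type) [NormedAddCommGroup X] [NormedSpace ℂ X]
  [NormedAddCommGroup Y] [NormedSpace ℂ Y] [CompleteSpace Y] (F : X → Y) (r M : ℝ), 0 < r →
  DifferentiableOn ℂ F (Metric.ball 0 r) → (∀ x ∈ Metric.ball (0 : X) r, ‖F x‖ ≤ M) →
  ∀ x ∈ Metric.ball (0 : X) (r / 2), ‖fderiv ℂ F x‖ ≤ 4 * M / r ∧
    ‖fderiv ℂ F x - fderiv ℂ F 0‖ ≤ 64 * M / r ^ 2 * ‖x‖ ∧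
    ‖F x - F 0 - fderiv ℂ F 0 x‖ ≤ 64 * M / r ^ 2 * ‖x‖ ^ 2

end Vale.Agent.P218N
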