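import Vale.Agent.P218N.AmbA
import Vale.Agent.P218T.Geo
import Vale.Agent.P218H.Linn
import Vale.Agent.P218Q.Spec
import Vale.Agent.P218W.Cyl

/-! Block NL: statements of the rows about the ambient ansatz and the charts of the ends. -/

open MeasureTheory Set Filter Topology Metric
open scoped ContDiff Real

noncomputable section

namespace Vale.Agent.P218N

open Vale.Agent.P218H (J1 op sa HH Core EndD f2 tri)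
open Vale.Agent.P218T (Mod Per FQ FK jv vJ kJ jk spd kap)
open Vale.Agent.P218T.HJ (wt Tb)
open Vale.Agent.P218W (W cl jet Jet XN)
open Vale.Agent.P218M (rh gO wK)
open Vale.Agent.P218Q (dsc vb oi Prof DF)

/-- holomorphic and quadratically small on a ball -/
def Qd {X Y : Type*} [NormedAddCommGroup X] [NormedSpace ℂ X] [NormedAddCommGroup Y]
    [NormedSpace ℂ Y] (N : X → Y) (r C : ℝ) : Prop :=
  0 < r ∧ 0 ≤ C ∧ DifferentiableOn ℂ N (ball 0 r) ∧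
    ∀ x ∈ ball (0 : X) r, ‖N x‖ ≤ C * ‖x‖ ^ 2 ∧ ‖fderiv ℂ N x‖ ≤ C * ‖x‖

namespace AD

variable {ι α : Type} [Fintype ι] [Fintype α] (D : AD ι α)

/-- a point of the near zone -/
structure Nr (p : E3) : Prop where
  ok : D.Ok p
  int : ∀ f : E3 → ℝ, ContDiffAt ℝ 2 f p → (∀ᶠ y in 𝓝[{x | D.w x = 0}] p, f y = 0) →
    op (sa D.w) f p = 0
  sh : ∀ j, D.sh j =ᶠ[𝓝 p] fun _ => 0
  b : ∀ i, ContDiffAt ℝ 1 (D.b i) p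
  ψ : ∀ i, ContDiffAt ℝ 1 (D.ψ i) p

/-- the integrands are regular at the jet `j` -/
structure Gd (x : E3) (j : Jt) (t : Pi' ι α) : Prop where
  rg : D.Rg x (j none none) t
  rw : D.Rw x t (dt (D.XX (x, j none none, t)) (D.XX (x, j none none, t)))
  sl : gg (jA D.XX x j t) (nu D.w x) ∈ Complex.slitPlane

/-- the normal speed -/
def fn (x : E3) (j : Jt) (t : Pi' ι α) : ℂ :=
  dt (dF D.XX (x, j none none, t)) (nn (jA D.XX x j t) (nu D.w x))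

/-- the weighted unit normal -/
def vn (φ : E3 → ℂ) (t : Pi' ι α) : E3 → V3 :=
  P218N.om (fun y => D.Om y t (dt (D.Xm φ t y) (D.Xm φ t y))) (D.Xm φ t) (nu D.w)

/-- the fields are real -/
structure Re : Prop where
  a : star D.a = D.a
  VS : star D.VS = D.VS
  rS : star D.rS = D.rS
  q : star D.q = D.q
  er : star D.er = D.er
  om : star D.om = D.om
  ax : star D.ax = D.ax
  b : star D.b = D.b

end AD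

section
variable {k : ℕ} {M : Type} [Fintype M] {a β : ℝ} (D : EndD 3 M β) (c : Core 3 k M)

/-- the jets in the core equation -/
def jc (x : D.XX a k) (p : E3) : Jt := mix (jt (D.uu c x) p) (jt (c.wf c.et (f2 x.1)) p +
  jt (fun y => c.ce y • D.ev x.2.1 y) p - c.ce p • jt (D.ev x.2.1) p)

/-- the jets in the equation on the ends -/
def jn (x : D.XX a k) (p : E3) : Jt := mix (jt (D.uu c x) p) (jt (D.ev x.2.1) p +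
  jt (fun y => c.cc y • c.wf c.et (f2 x.1) y) p - c.cc p • jt (c.wf c.et (f2 x.1)) p)

end

/-- the surface below the cuts -/
def SW (M : Mod) (Z : Fin M.n₁ → ℝ) : Set E3 := M.S \ ⋃ j, M.En (.inl j) (Ici (Z j))

/-- the flux through the circle of height `y.1` -/
def fl (M : Mod) (e : M.I) (X Y v : E3 → V3) (y : ℝ × ℝ) : ℂ :=
  -M.sg e * dt (Y (M.P e y)) (cr (v (M.P e y)) (jv (fun q => X (M.P e q)) y 1))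

/-- the conormal on a cylindrical end, in the moving frame -/
def cn (ζ₁ : ℂ) (V : Fin 6 → ℂ) : V3 :=
  cr (cr ![V 3 / (2 * Complex.sqrt (V 0)), 0, ζ₁] ![V 1 / (2 * Complex.sqrt (V 0)),
    Complex.sqrt (V 0), 0]) ![V 1 / (2 * Complex.sqrt (V 0)), Complex.sqrt (V 0), 0]

/-- the flux on a cylindrical end: angular velocity `η`, variations `V'`, `ζ'` -/
def Gf (F : V3 → V3) (η : V3) (Ω ζ ζ₁ ζ' V' : ℂ) (V : Fin 6 → ℂ) : ℂ := -(Ω / Wf ζ₁ V) *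
  dt (cr η (F ![Complex.sqrt (V 0), 0, ζ]) + F ![V' / (2 * Complex.sqrt (V 0)), 0, ζ']) (F (cn ζ₁ V))

/-- the range of the jets on a cylindrical end -/
structure Cj (V : Fin 6 → ℂ) : Prop where
  re : 0 < (V 0).re
  le : ‖V 0‖ ≤ 8
  im : |(V 0).im| ≤ 4
  p : ‖V 3‖ ^ 2 ≤ 2 * ‖V 0‖
  q : ‖V 1‖ ≤ ‖V 0‖ / 2

/-! ### rows -/

/-- the remainder vanishes to second order -/
def LIN0 : Prop := ∀ (ι α : Type) [Fintype ι] [Fintype α] (D : AD ι α) (p : E3), D.Nr p →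
  D.XX (p, 0, 0) = cx p ∧ jA D.XX p 0 0 = pd cx p ∧ D.Gd p 0 0 ∧ D.fn p 0 0 = 1 ∧
  D.If p 0 0 = rh0 p ∧ D.Rm p 0 0 = 0 ∧
  HasFDerivAt (fun z : Jt × Pi' ι α => D.Rm p z.1 z.2) (0 : Jt × Pi' ι α →L[ℂ] ℂ) 0

/-- uniform bounds on compact sets -/
def TUB : Prop := ∀ (ι α : Type) [Fintype ι] [Fintype α] (D : AD ι α) (K : Set E3), IsCompact K →
  (∀ p ∈ K, D.Nr p) → ∃ r C : ℝ, 0 < r ∧ 0 ≤ C ∧ ∀ p ∈ K, ∀ j t, (∀ i, ‖j none i‖ < r) → ‖t‖ < r →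
    D.Gd p j t ∧ D.fn p j t ≠ 0 ∧ (∀ l, ‖D.IO l p j t‖ ≤ C * ‖t.2.2.2.2 l‖ ^ 2) ∧
    ∀ δ, (∀ i, ‖j none i‖ ≤ δ) → ‖t‖ ≤ δ → ‖D.If p j t - rh0 p‖ ≤ C * δ

/-- the remainder on Hölder spaces -/
def QH : Prop := ∀ (ι α : Type) [Fintype ι] [Fintype α] (D : AD ι α) (K : Set E3) (a : ℝ),
  IsCompact K → 0 < a → a ≤ 1 → (∀ p ∈ K, D.Nr p) →
  ∃ (r C : ℝ) (N : (J1 3 × J1 3 → HH a K) × Pi' ι α → HH a K), Qd N r C ∧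
    ∀ x ∈ ball 0 r, ∀ p : K, N x p = D.Rm p (fun i i' => x.1 (i, i') p) x.2

/-- the remainder on a strip -/
def QW : Prop := ∀ (ι α : Type) [Fintype ι] [Fintype α] (D : AD ι α) (P : ℝ × ℝ → E3)
  (χ : E3 → ℝ) (g : ℝ × ℝ → ℂ) (R a b : ℝ), R < a → a ≤ b → Per R P → Per R g →
  (∀ y : ℝ × ℝ, y.1 ∈ Icc a b → ContDiffAt ℝ ∞ P y ∧ ContDiffAt ℝ ∞ g y ∧
    ContDiffAt ℝ ∞ χ (P y) ∧ D.Nr (P y) ∧
    (χ (P y) = 1 ∨ (∀ i, D.b i (P y) = 0) ∧ ∀ i, D.ψ i (P y) = 0)) →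
  ∃ (r C : ℝ) (N : (J1 3 × J1 3 → W (cl a b)) × Pi' ι α → W (cl a b)), Qd N r C ∧
    ∀ x ∈ ball 0 r, ∀ y : ℝ × ℝ, y.1 ∈ Icc a b → N x y =
      g y * (D.Rm (P y) (fun i i' => x.1 (i, i') y) x.2
        - χ (P y) * D.Rm (P y) (mix (fun i i' => x.1 (i, i') y) 0) x.2)

/-- the jets in the core equation are Hölder continuous -/
def JC : Prop := ∀ (k : ℕ) (M : Type) [Fintype M] (c : Core 3 k M), c.Ok0 → ∀ a β : ℝ, 0 < a →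
  a ≤ 1 → ∃ C' : ℝ, 0 ≤ C' ∧ ∀ D : EndD 3 M β,
    (∀ v x, |c.ta x| < c.de → D.ev v x = D.ev v (c.pr x)) →
    (∀ v, ∀ y ∈ c.S, c.r₀ - 1 ≤ ‖y‖ → ‖y‖ ≤ c.r + 7 → ContDiffAt ℝ 2 (D.ev v) y) →
    (∃ C, ∀ v, ∀ y ∈ c.S, c.r₀ - 1 ≤ ‖y‖ → ‖y‖ ≤ c.r + 7 → ‖jt (D.ev v) y‖ ≤ C * ‖v‖) →
    ∃ T : D.XX a k →L[ℂ] (J1 3 × J1 3 → HH a c.K),
      (∀ x (y : c.K), ‖(y : E3)‖ < c.r + 6 → ∀ i i', T x (i, i') y = jc D c x y i i') ∧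
      ∀ x A, ‖x.1‖ ≤ A → (∀ y ∈ c.S, c.r₀ - 1 ≤ ‖y‖ → ‖y‖ ≤ c.r + 7 → ‖jt (D.ev x.2.1) y‖ ≤ A) →
        ‖T x‖ ≤ C' * A

/-- the core equation and the equation on the ends give the equation -/
def SNG : Prop := ∀ (k : ℕ) (ι : Type) [Fintype ι] (c : Core 3 k (ι × Fin 3)), c.Ok0 →
  ∀ (a β s : ℝ) b (D : EndD 3 (ι × Fin 3) β) (A : AD ι (Fin k)) (x : D.XX a k) (t : Pi' ι (Fin k))
    (F : HH a E3), 0 < a → c.AmbOf b → c.a = sa A.w → c.b = A.b → c.ψ = A.ψ → t.1 = x.2.2.1 →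
    t.2.1 = x.2.2.2 → (∀ y, F y = s • f2 x.1 y - op b (f2 x.1) y + c.ext (D.low c s x) y) →
    (∀ y, F y = c.ext (fun p => A.Rm p (jc D c x p) t) y) → ∀ y ∈ c.S, ‖y‖ ≤ c.r + 3 →
    (‖y‖ ≤ c.r₀ ∨ ContDiffAt ℝ 2 (D.ev x.2.1) y) →
    c.ce y • (P218H.cm c.a c.cc (c.wf c.et (f2 x.1)) y + op c.a (D.ev x.2.1) y
      + (A.Rm y (jn D c x y) t - c.cc y • A.Rm y (mix (jt (D.uu c x) y) 0) t)) = 0 →
    A.E y (jt (D.uu c x) y) t = 0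

/-- the first variation of the integrand at a point where the equation holds -/
def ELP : Prop := ∀ (ι α : Type) [Fintype ι] [Fintype α] (D : AD ι α) (x : E3) (φ φ' : E3 → ℂ)
  (t t' : Pi' ι α) (j : ℂ → Jt) (g : ℂ → Pi' ι α) (s : ℂ), D.Gd x (jt φ x) t →
  ContDiffAt ℝ 2 φ x → ContDiffAt ℝ 1 φ' x → t'.2.2.2.2 = 0 →
  (∀ i, j s none i = jt φ x none i) → g s = t →
  (∀ i, HasDerivAt (fun s => j s none i) (jt φ' x none i) s) → HasDerivAt g t' s →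
  D.E x (jt φ x) t = 0 →
  (D.fn x (jt φ x) t ≠ 0 ∧ (∀ l, D.rot l x = 0 ∧ D.sh l x = 0) ∨
    (∀ l, pd (D.ze l) x = 0) ∧ D.lag x t = 0) →
  (ContDiffAt ℝ 2 (D.Xm φ t) x ∧ ContDiffAt ℝ 1 (yv D.XX φ φ' t t') x ∧
    ContDiffAt ℝ 1 (D.vn φ t) x) ∧
  HasDerivAt (fun s => D.If x (j s) (g s))
    (dt (D.vn φ t x) (kk (pd (D.Xm φ t) x) (pd (yv D.XX φ φ' t t') x) (nu D.w x))
      - dt (yv D.XX φ φ' t t' x) (kk (pd (D.vn φ t) x) (pd (D.Xm φ t) x) (nu D.w x))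
      + φ' x * rh0 x * D.lag x t + ∑ l, t'.2.2.2.1 l * D.IO l x (jt φ x) t) s

/-- integration by parts below the cuts -/
def FVA : Prop := ∀ M : Mod, M.Geo → ∀ Z : Fin M.n₁ → ℝ, (∀ j, M.R + 2 ≤ Z j) →
  MeasurableSet (SW M Z) ∧ ∀ (X Y v : E3 → V3) (G : Fin M.n₁ → ℝ × ℝ → ℂ),
  (∀ x ∈ SW M Z, ContDiffAt ℝ 2 X x ∧ ContDiffAt ℝ 1 Y x ∧ ContDiffAt ℝ 1 v x) →
  IntegrableOn (fun x => dt (v x) (kk (pd X x) (pd Y x) (nu M.w x))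
    - dt (Y x) (kk (pd v x) (pd X x) (nu M.w x))) (SW M Z) (sig M.w) →
  (∀ j, ContinuousOn (G j) (Icc (Z j - 1) (Z j) ×ˢ univ) ∧
    ∀ y : ℝ × ℝ, y.1 ∈ Ioo (Z j - 1) (Z j) → G j y = fl M (.inl j) X Y v y) →
  (∀ l, ∀ ε > 0, ∃ R, ∀ y : ℝ × ℝ, R ≤ y.1 → ‖fl M (.inr l) X Y v y‖ ≤ ε) →
  ∫ x in SW M Z, (dt (v x) (kk (pd X x) (pd Y x) (nu M.w x))
    - dt (Y x) (kk (pd v x) (pd X x) (nu M.w x))) ∂sig M.w =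
    ∑ j, ∫ θ in (0 : ℝ)..2 * π, G j (Z j, θ)

/-- a map of a cylindrical end in terms of its squared radius `V` and its height `ζ` -/
def CHC : Prop := ∀ M : Mod, M.Geo → ∀ i (y : ℝ × ℝ), M.R < y.1 → ∀ (X : E3 → V3) (T : V3 → V3)
  (V : ℝ × ℝ → ℂ) (ζ ζ₁ : ℝ → ℂ) (ζ₂ : ℂ), ContDiffAt ℝ 2 X (M.P (.inl i) y) → Orth T 1 →
  ContDiffAt ℝ 2 V y → V y ∈ Complex.slitPlane → (∀ᶠ z in 𝓝 y.1, HasDerivAt ζ (ζ₁ z) z) →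
  ContDiffAt ℝ 1 ζ₁ y.1 → HasDerivAt ζ₁ ζ₂ y.1 → 0 < (Wf (ζ₁ y.1) fun k => jet V k y).re →
  (∀ᶠ q in 𝓝 y, X (M.P (.inl i) q) = T (FQ (M.Q i) q.2 ![Complex.sqrt (V q), 0, ζ q.1])) →
  dt (X (M.P (.inl i) y)) (X (M.P (.inl i) y)) = ζ y.1 ^ 2 + V y ∧
  gg (pd X (M.P (.inl i) y)) (nu M.w (M.P (.inl i) y)) ∈ Complex.slitPlane ∧
  wX X (nu M.w) (M.P (.inl i) y) * M.JS (.inl i) y = Wf (ζ₁ y.1) (fun k => jet V k y) ∧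
  (∀ ε k, eX (te ε k (ζ y.1 ^ 2 + V y)) X (nu M.w) (M.P (.inl i) y) =
    M.s (.inl i) / M.JS (.inl i) y * ζ₁ y.1 * Ef ε k (ζ y.1) (ζ₁ y.1) ζ₂ fun k => jet V k y) ∧
  ∀ (Ω : E3 → ℂ) (Y : E3 → V3) (η : V3) (ζ' V' : ℂ), Y (M.P (.inl i) y) =
    T (cr η (FQ (M.Q i) y.2 ![Complex.sqrt (V y), 0, ζ y.1])
      + FQ (M.Q i) y.2 ![V' / (2 * Complex.sqrt (V y)), 0, ζ']) →
    fl M (.inl i) X Y (om Ω X (nu M.w)) y = Gf (FQ (M.Q i) y.2) η (Ω (M.P (.inl i) y)) (ζ y.1)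
      (ζ₁ y.1) ζ' V' fun k => jet V k y

/-- a map of a conical end in terms of its height `u` -/
def CHK : Prop := ∀ M : Mod, M.Geo → ∀ l (y : ℝ × ℝ), M.R < y.1 → ∀ (X : E3 → V3) (u : ℝ × ℝ → ℂ)
  (G : ℂ), ContDiffAt ℝ 2 X (M.P (.inr l) y) → ContDiffAt ℝ 2 u y →
  G = kD (spd (M.γ l) : ℂ) (kap (M.γ l) (M.n l) y.2) (u y / y.1) (jet u 1 y / y.1) (jet u 3 y) →
  G ∈ Complex.slitPlane →
  (∀ᶠ q in 𝓝 y, X (M.P (.inr l) q) = FK (M.γ l) (M.n l) q.2 ![(q.1 : ℂ), 0, u q]) →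
  dt (X (M.P (.inr l) y)) (X (M.P (.inr l) y)) = y.1 ^ 2 + u y ^ 2 ∧
  gg (pd X (M.P (.inr l) y)) (nu M.w (M.P (.inr l) y)) ∈ Complex.slitPlane ∧
  wX X (nu M.w) (M.P (.inr l) y) * M.JS (.inr l) y = y.1 * Complex.sqrt G ∧
  eX 1 X (nu M.w) (M.P (.inr l) y) =
    M.s (.inr l) / M.JS (.inr l) y * kJ (M.γ l) (M.n l) y.2 (jk y.1 fun k => jet u k y) ∧
  ∀ (Ω : E3 → ℂ) (Y : E3 → V3) (u' : ℂ),
    Y (M.P (.inr l) y) = FK (M.γ l) (M.n l) y.2 ![0, 0, u'] →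
    fl M (.inr l) X Y (om Ω X (nu M.w)) y = Ω (M.P (.inr l) y) * u' * jet u 3 y * y.1 *
      (spd (M.γ l) * (1 - kap (M.γ l) (M.n l) y.2 * (u y / y.1))) ^ 2 / Complex.sqrt G

/-- pointwise bounds on a cylindrical end -/
def CYB : Prop := ∀ (V : Fin 6 → ℂ) (z m : ℝ) (ζ ζ₁ ε : ℂ), Cj V → ‖ζ₁ - 1‖ ≤ 1 / 10 →
  ‖ζ ^ 2 - z ^ 2‖ ≤ 1 → ‖ε‖ ≤ 1 / 2 → 0 < (Wf ζ₁ V).re ∧ ‖Wf ζ₁ V‖ ≤ 8 ∧
    km m + Complex.exp (-(ζ ^ 2 + V 0) / 4) ≠ 0 ∧ ‖lk (km m) (ζ ^ 2 + V 0)‖ ≤ 1 ∧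
    1 + ε * lk (km m) (ζ ^ 2 + V 0) ≠ 0 ∧
    ‖Complex.exp (-(ζ ^ 2 + V 0) / 4)‖ ≤ 2 * Real.exp (-z ^ 2 / 4) ∧
    Complex.exp (-(z ^ 2 + V 0) / 4) * lk (km m) (z ^ 2 + V 0) * Wf 1 V = oi m z (V 0) (V 3) (V 1)

/-- the flux through the cut and the variation of the boundary term -/
def BV : Prop := ∀ (Q : E3 ≃ₗᵢ[ℝ] E3) (η : V3) (J₀ J : ℕ) (ε k ζ' V' v' : ℂ) (v ζ V : ℂ → ℂ) (s : ℂ)
  (p : ℝ → ℂ) (U : ℝ → Fin 6 → ℂ), HasDerivAt v v' s → HasDerivAt ζ ζ' s → HasDerivAt V V' s →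
  ζ s ≠ 0 → 0 < (V s).re → 1 + ε * lk k (ζ s ^ 2 + V s) ≠ 0 → Continuous p →
  (∀ θ, ‖p θ‖ ^ 2 ≤ 2 * ‖V s‖ ∧ U θ 0 = V s ∧ U θ 1 = 0 ∧ U θ 3 = p θ) →
  Bc J₀ J (v s) ε k (ζ s) (V s) p = 0 →
  HasDerivAt (fun s => Tf J₀ J (v s) (ζ s) (V s))
    (Df J₀ J (v s) ε k (ζ s) (V s) p * ζ' + 2 * π * (Tb J (ζ s) (V s) - Tb J₀ (ζ s) (V s)) * v'
      - ∫ θ in (0 : ℝ)..2 * π, Gf (FQ Q θ) η (Complex.exp (-(ζ s ^ 2 + V s) / 4) *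
        (1 + ε * lk k (ζ s ^ 2 + V s))) (ζ s) 1 ζ' V' (U θ)) s

/-- complex conjugation, near part -/
def CJA : Prop := ∀ (ι α : Type) [Fintype ι] [Fintype α] (D : AD ι α), D.Re → ∀ x j t,
  D.Gd x j t → D.Gd x (star j) (star t) ∧
    D.XX (x, star (j none none), star t) = star (D.XX (x, j none none, t)) ∧
    D.E x (star j) (star t) = star (D.E x j t) ∧ D.Rm x (star j) (star t) = star (D.Rm x j t) ∧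
    D.If x (star j) (star t) = star (D.If x j t) ∧
    ∀ φ : E3 → ℂ, jt (star φ) x = star (jt φ x)

/-- complex conjugation, far part -/
def CJF : Prop := ∀ (J₀ J : ℕ) (v ε k ζ ζ₁ ζ₂ c V : ℂ) (U : Fin 6 → ℂ) (p : ℝ → ℂ),
  rj (star c) (star ζ) (star ζ₁) (star ζ₂) = star (rj c ζ ζ₁ ζ₂) ∧
  Ef (star ε) (star k) (star ζ) (star ζ₁) (star ζ₂) (star U) = star (Ef ε k ζ ζ₁ ζ₂ U) ∧
  (0 < V.re → Tf J₀ J (star v) (star ζ) (star V) = star (Tf J₀ J v ζ V) ∧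
    ((∀ θ, ‖p θ‖ ^ 2 ≤ 2 * ‖V‖) → Bc J₀ J (star v) (star ε) (star k) (star ζ) (star V) (star p) =
      star (Bc J₀ J v ε k ζ V p)))

/-- the profile of a solution on a cylindrical end -/
def PRF : Prop := ∃ r₀ : ℝ, 0 < r₀ ∧ ∀ K : ℝ, ∃ K' : ℝ, ∀ J₀ J : ℕ, 10 ^ 13 ≤ J₀ → J₀ ≤ J →
  ∀ᶠ Z : ℝ in atTop, ∀ c ∈ dsc (7 / 5 * P218Q.nu J) Z, ∀ (u V : Fin 6 → ℝ × ℝ → ℂ) (k : ℂ),
  Jet (Icc (Z / 300) Z) u → (∀ i, ContinuousOn (u i) (Icc (Z / 300) Z ×ˢ univ)) →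
  XN (Icc (Z / 300) Z) (P218W.om (fun z => (rh c z).re) (fun z => gO c Z z + (rh c z).re)
    (wK (31 / 16) c) c Z) (P218W.nu (wK (31 / 16) c) c Z) u r₀ → (∀ θ, u 0 (Z, θ) = 0) →
  (∀ i y, V i y = rj c y.1 1 0 i + u i y) →
  (∀ y : ℝ × ℝ, y.1 ∈ Icc (Z / 300) Z → Cj fun i => V i y) ∧ ∀ v ∈ Icc (0 : ℝ) 1,
    Bc J₀ J v 0 k Z (vb Z c) (fun θ => V 3 (Z, θ)) 0 = 0 →
    (v = 1 → DF J K' Z c (Df J₀ J v 0 k Z (vb Z c) fun θ => V 3 (Z, θ))) ∧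
    ((∀ y : ℝ × ℝ, y.1 ∈ Ioo (Z / 300) Z → Ef 0 k y.1 1 0 (fun i => V i y) = 0) → ∀ O : ℝ → ℂ,
      (∀ m ∈ Icc (Z / 20) (Z / 2), ‖O m - ∫ s in (m - 1)..(m + 1), ∫ θ in (0 : ℝ)..2 * π,
        oi m s (V 0 (s, θ)) (V 3 (s, θ)) (V 1 (s, θ))‖ ≤ K * Real.exp (-m ^ 2 / 4) / Z ^ 4) →
      ∃ V₀ V₁ V₂, Prof K' Z c O V₀ V₁ V₂)

end Vale.Agent.P218N
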