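import Vale.Agent.P218I.Spec
import Vale.Agent.P218N.Spec2

/-! Block NL: statements of the rows about the object of INST. -/

open MeasureTheory Set Filter Topology
open scoped ContDiff Real

noncomputable section

namespace Vale.Agent.P218I

open Vale.Agent.P218T Vale.Agent.P218L
open Vale.Agent.P218H (J1)
open Vale.Agent.P218N (V3 sig Pi' Jt jt mix km lk rh0 Wf Tf Df pd yv av kD cay Cj Gf fl)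
open Vale.Agent.P218W (W jet cl XE)
open Vale.Agent.P218T.HJ (Tb)
open Vale.Agent.P218Q (oi)

namespace GD

variable {M : Mod} {k : ℕ} {G : GD M k} {Z : Fin M.n₁ → ℝ}

/-- the rotation of the end `j` -/
def ro (U : G.XX Z) (j : Fin M.n₁) : V3 :=
  U.2.2.1 (j, 1) • om (M.Q j) 1 + U.2.2.1 (j, 2) • om (M.Q j) 2

/-- the total jet of the height on a conical end -/
def ut (U : G.XX Z) (l : Fin M.n₂) (p : ℝ × ℝ) (i : Fin 6) : ℂ :=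
  jet (uS (M.g l)) i p + LD.jx U.2.1 (.inr l) i p

/-- the squared area element on a conical end, divided by `z ^ 2` -/
def gk (U : G.XX Z) (l : Fin M.n₂) (p : ℝ × ℝ) : ℂ := kD (spd (M.γ l) : ℂ)
  (kap (M.γ l) (M.n l) p.2) (ut U l p 0 / p.1) (ut U l p 1 / p.1) (ut U l p 3)

/-- the variation of the reference profile -/
def Vd (y y' : G.XX Z × Pm (Fin M.n₁)) (j : Fin M.n₁) (z : ℝ) : ℂ :=
  y'.2.1 j * (zt (Z j) (y.2.2.1 j) z ^ 2 - 2)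
    + 2 * y.2.1 j * zt (Z j) (y.2.2.1 j) z * (y'.2.2.1 j * cut (Z j - 2) z)
    - (1 - cut (G.ρ + 6) z : ℝ) * (y'.2.1 j * (z ^ 2 - 2))

/-- the variation of the total height -/
def fd (y y' : G.XX Z × Pm (Fin M.n₁)) (x : E3) : ℂ :=
  uu y'.1 x + ∑ j, M.lift (.inl j) (fun p => q M (.inl j) p * Vd y y' j p.1) x

/-- the variation of the parameters -/
def pad (y' : G.XX Z × Pm (Fin M.n₁)) : Pi' (Fin M.n₁) (Fin k) :=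
  (y'.1.2.2.1, y'.1.2.2.2, y'.2.2.1, y'.2.2.2.1, 0)

/-- the jets in the end equation -/
def jN (U : G.XX Z) (x : E3) : Jt := mix (jt (uu U) x)
  (jt (we U) x + jt (fun p => G.cor.cc p • wc U p) x - G.cor.cc x • jt (wc U) x)

variable (z₃ : ℝ) (m : Fin M.n₁ → ℝ) (y y' : G.XX Z × Pm (Fin M.n₁))

/-- the integrand of the functional -/
abbrev Ii (x : E3) : ℂ := (G.ad Z).If x (jt (ft z₃ y) x) (par m y)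

/-- the integrand of an observable -/
abbrev Io (j : Fin M.n₁) (x : E3) : ℂ := (G.ad Z).IO j x (jt (ft z₃ y) x) (par m y)

/-- the equation -/
abbrev Ee (x : E3) : ℂ := (G.ad Z).E x (jt (ft z₃ y) x) (par m y)

/-- the surface -/
abbrev Xs : E3 → V3 := (G.ad Z).Xm (ft z₃ y) (par m y)

/-- its variation -/
abbrev Ys : E3 → V3 := yv (G.ad Z).XX (ft z₃ y) (fd y y') (par m y) (pad y')

/-- its weighted normal -/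
abbrev vs : E3 → V3 := (G.ad Z).vn (ft z₃ y) (par m y)

/-- the weight on the end `j` -/
def Oc (j : Fin M.n₁) (ζ V : ℂ) : ℂ :=
  Complex.exp (-(ζ ^ 2 + V) / 4) * (1 + y.2.2.2.1 j * lk (km (m j)) (ζ ^ 2 + V))

/-- smallness on a cylindrical end -/
structure Sm (j : Fin M.n₁) (p : ℝ × ℝ) : Prop where
  cj : Cj (Vt z₃ y j p)
  z1 : ‖zt₁ (Z j) (y.2.2.1 j) p.1 - 1‖ ≤ 1 / 10
  z2 : ‖zt (Z j) (y.2.2.1 j) p.1 ^ 2 - p.1 ^ 2‖ ≤ 1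
  ep : ‖y.2.2.2.1 j‖ ≤ 1 / 2
  ro : ‖ro y.1 j‖ ≤ 1

/-- smallness on a conical end -/
structure Sk (U : G.XX Z) (l : Fin M.n₂) (p : ℝ × ℝ) : Prop where
  u0 : ‖ut U l p 0‖ ≤ p.1 / 4
  ku : ‖kap (M.γ l) (M.n l) p.2 * ut U l p 0‖ ≤ p.1 / 4
  u3 : ‖ut U l p 3‖ ≤ 1
  lo : spd (M.γ l) ^ 2 / 4 ≤ (gk U l p).re
  hi : ‖gk U l p‖ ≤ 4 * spd (M.γ l) ^ 2

/-- a point where the weight depends on `X · X` only and the Lagrange terms vanish -/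
def Far (x : E3) : Prop := (∀ l, pd ((G.ad Z).ze l) x = 0) ∧ (G.ad Z).lag x (par m y) = 0

end GD

open GD

/-- rows for all cuts -/
def RowZ (Q : ∀ (M : Mod) (k : ℕ), GD M k → (Fin M.n₁ → ℝ) → ℝ → Prop) : Prop :=
  Row fun M k G => ∀ (Z : Fin M.n₁ → ℝ) z₃, (∀ j, G.ρ + 12 ≤ Z j) → G.ρ + 9 ≤ z₃ → Q M k G Z z₃

/-- the ambient fields in the near zone -/
def ADN : Prop := RowZ fun M _ G Z _ => (G.ad Z).Re ∧ ∀ x ∈ M.S,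
  (‖x‖ ≤ G.ρ + 9 → (G.ad Z).Nr x) ∧ (‖x‖ ≤ G.ρ + 2 → ∀ l, G.rot l x = 0) ∧
  (G.ρ + 2 < ‖x‖ → ∀ m (y : G.XX Z × Pm (Fin M.n₁)), Far m y x) ∧
  (G.ρ + 3 < ‖x‖ → ∀ i, G.b i x = 0)

/-- the jets of the end functions and of the glued function -/
def EVJ : Prop := Row fun M _ G => ∃ C : ℝ, 0 ≤ C ∧ ∀ Z : Fin M.n₁ → ℝ, (∀ j, G.ρ + 12 ≤ Z j) →
  (∀ v x, |M.w x| < M.δ → G.ev Z v x = G.ev Z v (P218H.prw M.w x)) ∧ ∀ U : G.XX Z, zn U ≤ ‖U‖ ∧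
    (∀ e (p : ℝ × ℝ), G.z₀ < p.1 → (∀ j, e = .inl j → p.1 < Z j) →
      Per M.R (LD.jx U.2.1 e 0) ∧ ContDiffAt ℝ 2 (LD.jx U.2.1 e 0) p ∧
      (∀ i, jet (LD.jx U.2.1 e 0) i p = LD.jx U.2.1 e i p) ∧
      (we U =ᶠ[𝓝 (M.P e p)] M.lift e fun p => q M e p * LD.jx U.2.1 e 0 p) ∧
      ContDiffAt ℝ 2 (we U) (M.P e p) ∧ ∀ i i', jt (we U) (M.P e p) i i' = ∑ l, M.cJ e i i' l p *
        Frm.jm (fun i => jet (fun p => (q M e p : ℂ)) i p) (fun i => LD.jx U.2.1 e i p) l) ∧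
    ContDiff ℝ 2 (wc U) ∧ ∀ x ∈ M.S, ‖x‖ ≤ G.ρ + 9 → ContDiffAt ℝ 2 (uu U) x ∧
      ‖jt (uu U) x‖ ≤ C * zn U ∧
      (G.ρ - 1 ≤ ‖x‖ → ContDiffAt ℝ 2 (we U) x ∧ ‖jt (we U) x‖ ≤ C * zn U)

/-- the jets in the end equation are in the algebra of the strip -/
def JN : Prop := Row fun M _ G => ∃ C : ℝ, 0 ≤ C ∧ ∀ Z : Fin M.n₁ → ℝ, (∀ j, G.ρ + 12 ≤ Z j) →
  ∀ e, ∃ T : G.XX Z →L[ℂ] (J1 3 × J1 3 → W (cl (G.ρ - 1) (G.ρ + 6))), ∀ U, ‖T U‖ ≤ C * zn U ∧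
    ∀ p : ℝ × ℝ, p.1 ∈ Icc (G.ρ - 1) (G.ρ + 6) → ∀ i i', T U (i, i') p = jN U (M.P e p) i i'

/-- the jets of the total height are holomorphic in the unknowns -/
def JTH : Prop := RowZ fun M _ G Z z₃ => ∀ x ∈ SW Z, (∀ y y' : G.XX Z × Pm (Fin M.n₁),
    ContDiffAt ℝ 2 (ft z₃ y) x ∧ ContDiffAt ℝ 2 (fd y y') x ∧
    (‖x‖ < G.ρ + 6 → ft z₃ y =ᶠ[𝓝 x] uu y.1 ∧ fd y y' =ᶠ[𝓝 x] uu y'.1)) ∧
  ∀ i, Differentiable ℂ (fun y : G.XX Z × Pm (Fin M.n₁) => jt (ft z₃ y) x none i) ∧ ∀ y y',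
    fderiv ℂ (fun y : G.XX Z × Pm (Fin M.n₁) => jt (ft z₃ y) x none i) y y' = jt (fd y y') x none i

/-- the far zone of a cylindrical end -/
def STC : Prop := RowZ fun M _ G Z z₃ => ∀ m (y : G.XX Z × Pm (Fin M.n₁)) j,
  (∀ i, ContinuousOn (fun p => Vt z₃ y j p i) (Icc G.z₀ (Z j) ×ˢ univ)) ∧
  ∀ p : ℝ × ℝ, G.ρ + 4 < p.1 → p.1 < Z j → Sm z₃ y j p →
    ContDiffAt ℝ 2 (fun p => Vt z₃ y j p 0) p ∧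
    (∀ i, jet (fun p => Vt z₃ y j p 0) i p = Vt z₃ y j p i) ∧
    (∀ᶠ p' in 𝓝 p, Xs z₃ m y (M.P (.inl j) p') = cay (ro y.1 j) (FQ (M.Q j) p'.2
      ![Complex.sqrt (Vt z₃ y j p' 0), 0, zt (Z j) (y.2.2.1 j) p'.1])) ∧
    (G.ad Z).Gd (M.P (.inl j) p) (jt (ft z₃ y) (M.P (.inl j) p)) (par m y) ∧
    Ee z₃ m y (M.P (.inl j) p) = kp M (.inl j) p * zt₁ (Z j) (y.2.2.1 j) p.1 * Ec z₃ m y j p ∧
    Ii z₃ m y (M.P (.inl j) p) * M.JS (.inl j) p = Oc m y j (zt (Z j) (y.2.2.1 j) p.1)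
      (Vt z₃ y j p 0) * Wf (zt₁ (Z j) (y.2.2.1 j) p.1) (Vt z₃ y j p) ∧
    Io z₃ m y j (M.P (.inl j) p) * M.JS (.inl j) p =
      Complex.exp (-(zt (Z j) (y.2.2.1 j) p.1 ^ 2 + Vt z₃ y j p 0) / 4) *
        lk (km (m j)) (zt (Z j) (y.2.2.1 j) p.1 ^ 2 + Vt z₃ y j p 0) *
        Wf (zt₁ (Z j) (y.2.2.1 j) p.1) (Vt z₃ y j p) ∧
    (∀ l ≠ j, Io z₃ m y l (M.P (.inl j) p) = 0) ∧
    ∀ y', fl M (.inl j) (Xs z₃ m y) (Ys z₃ m y y') (vs z₃ m y) p =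
      Gf (FQ (M.Q j) p.2) (av (ro y.1 j) (ro y'.1 j))
        (Oc m y j (zt (Z j) (y.2.2.1 j) p.1) (Vt z₃ y j p 0)) (zt (Z j) (y.2.2.1 j) p.1)
        (zt₁ (Z j) (y.2.2.1 j) p.1) (y'.2.2.1 j * cut (Z j - 2) p.1)
        ((y'.1.2.1.1 j).1 0 p + Vd y y' j p.1) (Vt z₃ y j p)

/-- the far zone of a conical end -/
def STK : Prop := RowZ fun M _ G Z z₃ => ∀ m (y : G.XX Z × Pm (Fin M.n₁)) l (p : ℝ × ℝ),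
  G.ρ + 4 < p.1 → Sk y.1 l p →
    (∀ᶠ p' in 𝓝 p, Xs z₃ m y (M.P (.inr l) p') =
      FK (M.γ l) (M.n l) p'.2 ![(p'.1 : ℂ), 0, ut y.1 l p' 0]) ∧
    (G.ad Z).Gd (M.P (.inr l) p) (jt (ft z₃ y) (M.P (.inr l) p)) (par m y) ∧
    Ee z₃ m y (M.P (.inr l) p) = kp M (.inr l) p * Ek l (y.1.2.1.2 l) p ∧
    Ii z₃ m y (M.P (.inr l) p) * M.JS (.inr l) p =
      Complex.exp (-(p.1 ^ 2 + ut y.1 l p 0 ^ 2) / 4) * (p.1 * Complex.sqrt (gk y.1 l p)) ∧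
    (∀ j, Io z₃ m y j (M.P (.inr l) p) = 0) ∧
    ∀ y', fl M (.inr l) (Xs z₃ m y) (Ys z₃ m y y') (vs z₃ m y) p =
      Complex.exp (-(p.1 ^ 2 + ut y.1 l p 0 ^ 2) / 4) * LD.jx y'.1.2.1 (.inr l) 0 p * ut y.1 l p 3 *
        p.1 * (spd (M.γ l) * (1 - kap (M.γ l) (M.n l) p.2 * (ut y.1 l p 0 / p.1))) ^ 2 /
        Complex.sqrt (gk y.1 l p)

/-- smallness in the box, cylindrical ends -/
def SMC : Prop := RowP fun _ _ G p => ∀ y ∈ G.Bx p, ∀ j (q : ℝ × ℝ), q.1 ∈ Icc G.z₀ (p.W j) →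
  Sm p.z₃ y j q

/-- smallness, conical ends -/
def SMK : Prop := Row fun M _ G => ∃ r₀ : ℝ, 0 < r₀ ∧ ∀ (Z : Fin M.n₁ → ℝ) (U : G.XX Z) l
  (q : ℝ × ℝ), ‖U.2.1.2 l‖ < r₀ → G.z₀ ≤ q.1 → Sk U l q

/-- the integrands are regular and dominated in the box -/
def GDS : Prop := RowP fun _ _ G p => ∀ y ∈ G.Bx p, ∀ m, (∀ j, p.Z / 25 ≤ m j) → ∀ x ∈ SW p.W,
  (G.ad p.W).Gd x (jt (ft p.z₃ y) x) (par m y) ∧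
  ((G.ad p.W).fn x (jt (ft p.z₃ y) x) (par m y) ≠ 0 ∧
    (∀ l, (G.ad p.W).rot l x = 0 ∧ (G.ad p.W).sh l x = 0) ∨ Far m y x) ∧
  ‖Ii p.z₃ m y x‖ ≤ p.K * Real.exp (-‖x‖ ^ 2 / 8) ∧
  (∀ j, ‖Io p.z₃ m y j x‖ ≤ p.K * Real.exp (-‖x‖ ^ 2 / 8)) ∧
  (‖x‖ ≤ G.ρ + 5 → ∀ j, ‖Io p.z₃ m y j x‖ ≤ p.K * Real.exp (-m j ^ 2 / 2))

/-- the area grows slowly -/
def GAU : Prop := ∀ M : Mod, M.Geo → Integrable (fun x => Real.exp (-‖x‖ ^ 2 / 8)) (sig M.w)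

/-- the integrals are holomorphic -/
def HI : Prop := RowP fun M _ G p => ∀ y ∈ G.Bx p,
  (∀ x ∈ SW p.W, DifferentiableAt ℂ (fun y => Ii p.z₃ p.m y x) y) ∧
  DifferentiableAt ℂ (fun y => ∫ x in SW p.W, Ii p.z₃ p.m y x ∂sig M.w) y ∧
  IntegrableOn (Ii p.z₃ p.m y) (SW p.W) (sig M.w) ∧
  ‖∫ x in SW p.W, Ii p.z₃ p.m y x ∂sig M.w‖ ≤ p.K₂ / 2 ∧
  (∀ y', IntegrableOn (fun x => fderiv ℂ (fun y => Ii p.z₃ p.m y x) y y') (SW p.W) (sig M.w) ∧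
    fderiv ℂ (fun y => ∫ x in SW p.W, Ii p.z₃ p.m y x ∂sig M.w) y y' =
      ∫ x in SW p.W, fderiv ℂ (fun y => Ii p.z₃ p.m y x) y y' ∂sig M.w) ∧
  (∀ j, DifferentiableAt ℂ (oo p.z₃ j p.m) y) ∧
  ∀ m, (∀ j, p.Z / 25 ≤ m j) → ∀ j, IntegrableOn (Io p.z₃ m y j) (SW p.W) (sig M.w)

/-- the boundary terms -/
def HB : Prop := RowP fun _ _ G p => ∀ y ∈ G.Bx p, ∀ j,
  DifferentiableAt ℂ (fun y => Tf p.J₀ p.J y.2.2.2.2 (Zb y j) (Vb y j)) y ∧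
  ‖Tf p.J₀ p.J y.2.2.2.2 (Zb y j) (Vb y j)‖ ≤ p.Z * Real.exp (-p.Z ^ 2 / 4)

/-- the flux near the cuts -/
def FLC : Prop := RowP fun M _ G p => ∀ y ∈ G.Bx p, ∀ j, Zb y j ≠ 0 ∧ 0 < (Vb y j).re ∧
  1 + y.2.2.2.1 j * lk (km (p.m j)) (Zb y j ^ 2 + Vb y j) ≠ 0 ∧ Continuous (pb y j) ∧
  (∀ θ, ‖pb y j θ‖ ^ 2 ≤ 2 * ‖Vb y j‖ ∧ Vt p.z₃ y j (p.W j, θ) 0 = Vb y j ∧
    Vt p.z₃ y j (p.W j, θ) 1 = 0 ∧ Vt p.z₃ y j (p.W j, θ) 3 = pb y j θ) ∧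
  ∀ y', ∃ F : ℝ × ℝ → ℂ, ContinuousOn F (Icc (p.W j - 1) (p.W j) ×ˢ univ) ∧
    (∀ q : ℝ × ℝ, q.1 ∈ Ioo (p.W j - 1) (p.W j) →
      F q = fl M (.inl j) (Xs p.z₃ p.m y) (Ys p.z₃ p.m y y') (vs p.z₃ p.m y) q) ∧
    ∀ θ, F (p.W j, θ) = Gf (FQ (M.Q j) θ) (av (ro y.1 j) (ro y'.1 j))
      (Oc p.m y j (Zb y j) (Vb y j)) (Zb y j) 1 (y'.2.2.1 j)
      (y'.2.1 j * (Zb y j ^ 2 - 2) + 2 * y.2.1 j * Zb y j * y'.2.2.1 j) (Vt p.z₃ y j (p.W j, θ))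

/-- the flux at infinity -/
def FLK : Prop := RowP fun M _ G p => ∀ y ∈ G.Bx p, ∀ y' l, ∀ ε > 0, ∃ R, ∀ q : ℝ × ℝ, R ≤ q.1 →
  ‖fl M (.inr l) (Xs p.z₃ p.m y) (Ys p.z₃ p.m y y') (vs p.z₃ p.m y) q‖ ≤ ε

/-- the Lagrange terms -/
def LAG : Prop := RowP fun M _ G p => ∀ y y' : G.XX p.W × Pm (Fin M.n₁),
  IntegrableOn (fun x => fd y y' x * rh0 x * (G.ad p.W).lag x (par p.m y)) (SW p.W) (sig M.w) ∧
  ∫ x in SW p.W, fd y y' x * rh0 x * (G.ad p.W).lag x (par p.m y) ∂sig M.w =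
    ∑ i, -y.1.2.2.2 i * G.AA p.W y'.1 i + ∑ j, G.ka j * y.1.2.2.1 (j, 0) * G.XI p.W y'.1 j

/-- the distance from the shrinker -/
def GD.ds {M : Mod} {k : ℕ} (G : GD M k) (p : Pt (Fin M.n₁)) (U : G.XX p.W) : ℝ :=
  P218H.tri (G.ph' p.W 0) (U - G.US p.W p.z₃) + ‖p.c‖ + 1 / p.Z

/-- the integrand is close to the Gaussian: near zone and conical ends -/
def MPN : Prop := RowP fun M _ G p => ∀ U, G.Nn p U < p.r → ∀ x ∈ M.S,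
  (‖x‖ ≤ G.ρ + 5 ∨ ∃ l, x ∈ M.En (.inr l) (Ioi (G.ρ + 4))) →
  ‖Ii p.z₃ p.m (U, bs p.c p.v) x - rh0 x‖ ≤ p.K ^ 2 * G.ds p U * Real.exp (-‖x‖ ^ 2 / 8)

/-- the same on the cylindrical ends -/
def MPC : Prop := RowP fun M _ G p => Mid p.W p.c → ∀ U, G.Nn p U < p.r → ∀ j,
  ∀ x ∈ M.En (.inl j) (Ioo (G.ρ + 4) (p.W j)),
  ‖Ii p.z₃ p.m (U, bs p.c p.v) x - rh0 x‖ ≤ p.K ^ 2 * G.ds p U * Real.exp (-‖x‖ ^ 2 / 8)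

/-- far from the tips the heavy norms are comparable -/
def MIDW : Prop := ∃ C : ℝ, ∀ (R Z : ℝ) (c : ℂ), 2 ≤ R → R + 1 ≤ Z → ‖c‖ * Z ^ 2 ≤ 1 →
  ∀ J : XE R Z, pH 0 R Z J ≤ C * pH c R Z J

/-- the observables are concentrated at their heights -/
def OBSI : Prop := RowP fun _ _ G p => ∀ U, G.Nn p U < p.r → ∀ j,
  ∀ s ∈ Icc (p.W j / 20) (p.W j / 2), ‖oo p.z₃ j (fun _ => s) (U, bs p.c p.v) -
    ∫ z in (s - 1)..(s + 1), ∫ θ in (0 : ℝ)..2 * π, oi s z (Vt p.z₃ (U, bs p.c p.v) j (z, θ) 0)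
      (Vt p.z₃ (U, bs p.c p.v) j (z, θ) 3) (Vt p.z₃ (U, bs p.c p.v) j (z, θ) 1)‖
    ≤ Real.exp (-s ^ 2 / 4) / p.W j ^ 4

end Vale.Agent.P218I
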