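import Vale.Agent.P218N.Spec
import Vale.Agent.P218T.HJ

/-! Block NL: the ambient ansatz, the equation on jets, the integrands, the formulas on the ends. -/

open MeasureTheory Set Filter Topology
open scoped ContDiff Real

noncomputable section

namespace Vale.Agent.P218N

open Vale.Agent.P218H (J1 sa)
open Vale.Agent.P218T.HJ (wt Tb gm)

/-- smooth in all variables, holomorphic in the second one -/
structure SH {E P F : Type*} [NormedAddCommGroup E] [NormedSpace ℝ E] [NormedAddCommGroup P]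
    [NormedSpace ℝ P] [NormedSpace ℂ P] [NormedAddCommGroup F] [NormedSpace ℝ F] [NormedSpace ℂ F]
    (Φ : E × P → F) (z : E × P) : Prop where
  sm : ContDiffAt ℝ ∞ Φ z
  hol : ∀ᶠ q in 𝓝 z, DifferentiableAt ℂ (fun ζ => Φ (q.1, ζ)) q.2

/-- ambient jets: `j i i' = dd i (dd i' φ)` -/
abbrev Jt := J1 3 → J1 3 → ℂ

/-- the jet of a function -/
def jt (φ : E3 → ℂ) (x : E3) : Jt := fun i i' => P218H.dd i (P218H.dd i' φ) x

/-- the jets of order `≤ 1` of `j`, the second derivatives of `j'` -/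
def mix (j j' : Jt) : Jt
  | some c, some b => j' (some c) (some b)
  | i, i' => j i i'

section jets

variable {B : Type*} [NormedAddCommGroup B] [NormedSpace ℝ B]

/-- partial derivative in the point -/
def dB (b : Fin 3) (G : E3 × ℂ × B → V3) (z : E3 × ℂ × B) : V3 :=
  fderiv ℝ G z (EuclideanSpace.single b 1, 0)

/-- partial derivative in the height -/
def dF (G : E3 × ℂ × B → V3) (z : E3 × ℂ × B) : V3 := fderiv ℝ G z (0, 1, 0)

/-- first derivatives of `x ↦ G (x, φ x, t)` -/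
def jA (G : E3 × ℂ × B → V3) (x : E3) (j : Jt) (t : B) (b : Fin 3) : V3 :=
  dB b G (x, j none none, t) + j none (some b) • dF G (x, j none none, t)

/-- second derivatives of `x ↦ G (x, φ x, t)` -/
def jA2 (G : E3 × ℂ × B → V3) (x : E3) (j : Jt) (t : B) (c b : Fin 3) : V3 :=
  jA (dB b G) x j t c + j none (some b) • jA (dF G) x j t c
    + j (some c) (some b) • dF G (x, j none none, t)

end jets

/-- `lk (exp (-m² / 4)) s = lg (s - m²)` -/
def lk (k s : ℂ) : ℂ := k ^ 2 / (k + Complex.exp (-s / 4)) ^ 2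

/-- its derivative in `s` -/
def lk' (k s : ℂ) : ℂ := k ^ 2 * Complex.exp (-s / 4) / (2 * (k + Complex.exp (-s / 4)) ^ 3)

/-- the small parameter of the observable at the height `m` -/
def km (m : ℝ) : ℂ := Complex.exp (-(m : ℂ) ^ 2 / 4)

/-- the Gaussian -/
def rh0 (x : E3) : ℂ := (Real.exp (-‖x‖ ^ 2 / 4) : ℝ)

/-- the ambient fields: `a` direction of the linear part, `lam` switch to the squared radius `VS`,
`rot` rotation zone with axes `om`, `sh` profile of the shift along `ax`, `ze` cut-off of the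
observable, `b`, `ψ` as in `P218H.Core` -/
structure AD (ι α : Type) where
  w : E3 → ℝ
  a : E3 → V3
  lam : ι → E3 → ℝ
  VS : ι → E3 → ℂ
  rS : ι → E3 → ℂ
  q : ι → E3 → ℂ
  er : ι → E3 → V3
  rot : ι → E3 → ℝ
  om : ι → Fin 3 → V3
  ax : ι → V3
  sh : ι → E3 → ℝ
  ze : ι → E3 → ℝ
  b : ι × Fin 3 → E3 → ℂ
  ψ : α → E3 → ℝ

/-- the parameters: slow coefficients `m`, multipliers `l`, shifts, sizes of the observables, `k` -/
abbrev Pi' (ι α : Type) := (ι × Fin 3 → ℂ) × (α → ℂ) × (ι → ℂ) × (ι → ℂ) × (ι → ℂ)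

namespace AD

variable {ι α : Type} [Fintype ι] [Fintype α] (D : AD ι α)

/-- the Cayley parameter -/
def ov (x : E3) (t : Pi' ι α) : V3 :=
  ∑ j, (D.rot j x : ℂ) • (t.1 (j, 1) • D.om j 1 + t.1 (j, 2) • D.om j 2)

/-- the ansatz before the rotation -/
def X0 (z : E3 × ℂ × Pi' ι α) : V3 := cx z.1 + z.2.1 • D.a z.1
  + ∑ j, (D.lam j z.1 * (Complex.sqrt (D.VS j z.1 + z.2.1 / D.q j z.1) - D.rS j z.1)) • D.er j z.1
  + ∑ j, (z.2.2.2.2.1 j * D.sh j z.1) • D.ax j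

/-- **the ansatz** -/
def XX (z : E3 × ℂ × Pi' ι α) : V3 := cay (D.ov z.1 z.2.2) (D.X0 z)

/-- the factor of the weight, `s = X · X` -/
def gw (x : E3) (t : Pi' ι α) (s : ℂ) : ℂ :=
  1 + ∑ j, t.2.2.2.1 j * (D.ze j x * lk (t.2.2.2.2 j) s)

/-- the weight -/
def Om (x : E3) (t : Pi' ι α) (s : ℂ) : ℂ := Complex.exp (-s / 4) * D.gw x t s

/-- the coefficient of `X · N` -/
def th (x : E3) (t : Pi' ι α) (s : ℂ) : ℂ :=
  1 - 4 * (∑ j, t.2.2.2.1 j * (D.ze j x * lk' (t.2.2.2.2 j) s)) / D.gw x t s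

/-- the logarithmic derivative of the weight in the point -/
def lw (x : E3) (t : Pi' ι α) (s : ℂ) (c : Fin 3) : ℂ :=
  (∑ j, t.2.2.2.1 j * ((pd (D.ze j) x c : ℝ) * lk (t.2.2.2.2 j) s)) / D.gw x t s

/-- the Lagrange terms -/
def lag (x : E3) (t : Pi' ι α) : ℂ := ∑ j, t.1 (j, 0) * D.b (j, 0) x - ∑ i, t.2.1 i * D.ψ i x

/-- **the equation** on jets -/
def E (x : E3) (j : Jt) (t : Pi' ι α) : ℂ :=
  let X := D.XX (x, j none none, t)
  let A := jA D.XX x j t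
  let F := dF D.XX (x, j none none, t)
  let N := nn A (nu D.w x)
  ee (D.th x t (dt X X)) X A (jA2 D.XX x j t) (nu D.w x) (pd (nu D.w) x) / 2
    - dt F (cr N (rr (D.lw x t (dt X X)) A (nu D.w x))) / dt F N
    + Complex.sqrt (gg A (nu D.w x)) * rh0 x / (D.Om x t (dt X X) * dt F N) * D.lag x t

/-- its linear part -/
def Ln (x : E3) (j : Jt) (t : Pi' ι α) : ℂ :=
  ∑ i, ∑ i', sa D.w i i' x • j i i' + ∑ i, t.1 i * D.b i x - ∑ i, t.2.1 i * D.ψ i x

/-- the remainder -/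
def Rm (x : E3) (j : Jt) (t : Pi' ι α) : ℂ := D.E x j t - D.Ln x j t

/-- the map defined by the height `φ` -/
def Xm (φ : E3 → ℂ) (t : Pi' ι α) (x : E3) : V3 := D.XX (x, φ x, t)

/-- the area element on jets -/
def Wj (x : E3) (j : Jt) (t : Pi' ι α) : ℂ := Complex.sqrt (gg (jA D.XX x j t) (nu D.w x))

/-- the integrand of the functional -/
def If (x : E3) (j : Jt) (t : Pi' ι α) : ℂ :=
  D.Om x t (dt (D.XX (x, j none none, t)) (D.XX (x, j none none, t))) * D.Wj x j t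

/-- the integrand of the observable of the end `l` -/
def IO (l : ι) (x : E3) (j : Jt) (t : Pi' ι α) : ℂ :=
  let s := dt (D.XX (x, j none none, t)) (D.XX (x, j none none, t))
  Complex.exp (-s / 4) * (D.ze l x * lk (t.2.2.2.2 l) s) * D.Wj x j t

/-- the fields are regular at `p`, and the ansatz moves `S` with unit normal speed -/
structure Ok (p : E3) : Prop where
  w : ContDiffAt ℝ ∞ D.w p
  a : ContDiffAt ℝ ∞ D.a p
  lam : ∀ j, ContDiffAt ℝ ∞ (D.lam j) p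
  rot : ∀ j, ContDiffAt ℝ ∞ (D.rot j) p
  sh : ∀ j, ContDiffAt ℝ ∞ (D.sh j) p
  ze : ∀ j, ContDiffAt ℝ ∞ (D.ze j) p
  cyl : ∀ j, (D.lam j =ᶠ[𝓝 p] fun _ => 0) ∨ ContDiffAt ℝ ∞ (D.VS j) p ∧ ContDiffAt ℝ ∞ (D.rS j) p ∧
    ContDiffAt ℝ ∞ (D.q j) p ∧ ContDiffAt ℝ ∞ (D.er j) p ∧ D.q j p ≠ 0 ∧
    D.VS j p ∈ Complex.slitPlane ∧ ∀ᶠ x in 𝓝 p, Complex.sqrt (D.VS j x) = D.rS j x
  eik : ∀ᶠ x in 𝓝 p, ‖gradient D.w x‖ = 1
  zero : D.w p = 0
  shr : ∀ᶠ x in 𝓝 p, D.w x = 0 → P218.H63.lap D.w x = inner ℝ x (gradient D.w x) / 2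
  unit : ∀ᶠ x in 𝓝 p, D.w x = 0 → dt (D.a x) (nu D.w x)
    + ∑ j, D.lam j x / (2 * D.rS j x * D.q j x) * dt (D.er j x) (nu D.w x) = 1
  brot : ∀ j, ∀ l ≠ 0, D.b (j, l) p =
    P218H.op (sa D.w) (fun x => D.rot j x * dt (cr (D.om j l) (cx x)) (nu D.w x)) p

end AD

/-! ### the far part of a cylindrical end -/

/-- the jet of the reference profile at the height `ζ (z)` -/
def rj (c ζ ζ₁ ζ₂ : ℂ) : Fin 6 → ℂ :=
  ![2 + c * (ζ ^ 2 - 2), 0, 0, 2 * c * ζ * ζ₁, 0, 2 * c * ζ₁ ^ 2 + 2 * c * ζ * ζ₂]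

/-- the coefficient of `X · N` on an end -/
def te (ε k s : ℂ) : ℂ := 1 - 4 * (ε * lk' k s) / (1 + ε * lk k s)

/-- **the equation on a cylindrical end**; `V` is the jet of the squared radius in `(z, θ)` -/
def Ef (ε k ζ ζ₁ ζ₂ : ℂ) (V : Fin 6 → ℂ) : ℂ :=
  vv (te ε k (ζ ^ 2 + V 0)) ζ (V 0) (V 3 / ζ₁) (V 1) ((V 5 - V 3 * ζ₂ / ζ₁) / ζ₁ ^ 2) (V 4 / ζ₁)
    (V 2)

/-- the area element of a cylindrical end -/
def Wf (ζ₁ : ℂ) (V : Fin 6 → ℂ) : ℂ :=
  ζ₁ * Complex.sqrt (V 0 + (V 3 / ζ₁) ^ 2 / 4 + V 1 ^ 2 / (4 * V 0))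

/-- the mean over the circle -/
def mn (f : ℝ → ℂ) : ℂ := ⨍ θ in (0 : ℝ)..2 * π, f θ

/-- radial part of the conormal -/
def Pc (V p : ℂ) : ℂ := p / Complex.sqrt V / Complex.sqrt (1 + (p / Complex.sqrt V) ^ 2 / 4)

/-- axial part of the conormal -/
def Qc (V p : ℂ) : ℂ := 1 / Complex.sqrt (1 + (p / Complex.sqrt V) ^ 2 / 4)

/-- **the boundary conditions** at the height `Z`; `V` boundary value, `p θ = V_z` -/
def Bc (J₀ J : ℕ) (v ε k Z V : ℂ) (p : ℝ → ℂ) : Fin 3 → ℂ :=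
  ![Complex.sqrt V * mn (fun θ => Pc V (p θ))
      + 4 * ((1 - v) * gm J₀ Z V + v * gm J Z V) / (Z * (1 + ε * lk k (Z ^ 2 + V))),
    2 * Complex.sqrt V / Z *
      mn fun θ => Real.cos θ * (Z / 2 * Pc V (p θ) - Complex.sqrt V * Qc V (p θ)),
    2 * Complex.sqrt V / Z *
      mn fun θ => Real.sin θ * (Z / 2 * Pc V (p θ) - Complex.sqrt V * Qc V (p θ))]

/-- the boundary term of the functional -/
def Tf (J₀ J : ℕ) (v Z V : ℂ) : ℂ := 2 * π * ((1 - v) * Tb J₀ Z V + v * Tb J Z V)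

/-- the derivative of the functional in the height of the cut -/
def Df (J₀ J : ℕ) (v ε k Z V : ℂ) (p : ℝ → ℂ) : ℂ :=
  2 * π * (wt Z V * (1 + ε * lk k (Z ^ 2 + V)) * Complex.sqrt V * mn (fun θ => Qc V (p θ))
    + ((1 - v) * deriv (fun z => Tb J₀ z V) Z + v * deriv (fun z => Tb J z V) Z))

end Vale.Agent.P218N
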