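import Vale.Agent.P218N.Spec2
import Vale.Agent.P218C.Frm

/-! Block NL: the boundary term of a cylindrical end, pointwise bounds. -/

open MeasureTheory Set Filter Topology Metric
open scoped ContDiff Real

set_option linter.all false

noncomputable section

namespace Vale.Agent.P218N

open Vale.Agent.P218T (FQ eT axis)
open Vale.Agent.P218T.HJ (wt Tb gm eta dta sqrt_sq sqrt_re root_le hasDerivAt_sqrt hasDerivAt_eta
  Tb_Z)

namespace Bv

theorem re_pos {r d : ℂ} (hr : 0 < (r ^ 2).re) (h0 : 0 ≤ r.re) (hd : ‖d - 1‖ ≤ 7 / 10) :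
    0 < (r * d).re := by
  have e : (r * d).re = r.re + (r * (d - 1)).re := by
    rw [← Complex.add_re]
    congr 1
    ring
  have h1 := Complex.abs_re_le_norm (r * (d - 1))
  rw [norm_mul, abs_le] at h1
  have h2 : ‖r‖ ^ 2 = r.re ^ 2 + r.im ^ 2 := by
    rw [Complex.sq_norm, Complex.normSq_apply]
    ring
  have h3 : (r ^ 2).re = r.re ^ 2 - r.im ^ 2 := by
    rw [sq, Complex.mul_re]
    ring
  have h4 : 7 / 10 * ‖r‖ < r.re := lt_of_pow_lt_pow_left₀ 2 h0 (by nlinarith [sq_nonneg r.im])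
  nlinarith [norm_nonneg r]

theorem sqrt_eq {x y : ℂ} (h : x ^ 2 = y) (hx : 0 < x.re) : Complex.sqrt y = x := by
  rcases sq_eq_sq_iff_eq_or_eq_neg.1 ((sqrt_sq y).trans h.symm) with e | e
  · exact e
  · have := sqrt_re y
    rw [e, Complex.neg_re] at this
    linarith

theorem root {w : ℂ} (h : ‖w‖ ≤ 68 / 100) : ‖Complex.sqrt (1 + w) - 1‖ ≤ 52 / 100 := by
  have hs := sqrt_sq (1 + w)
  have h1 := root_le (w := -w) (by rw [hs]; ring) (sqrt_re (1 + w))
  rw [norm_neg] at h1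
  generalize Complex.sqrt (1 + w) = s at *
  have h2 : ‖s - 1‖ * ‖s + 1‖ = ‖w‖ := by
    rw [← norm_mul]
    congr 1
    linear_combination hs
  have h3 := norm_sub_le (s + 1) (s - 1)
  rw [show s + 1 - (s - 1) = 2 by ring, Complex.norm_ofNat] at h3
  nlinarith [norm_nonneg (s - 1)]

theorem sqrt_mul {V w : ℂ} (hV : 0 < V.re) (h : ‖w‖ ≤ 68 / 100) :
    Complex.sqrt (V * (1 + w)) = Complex.sqrt V * Complex.sqrt (1 + w) :=
  sqrt_eq (by rw [mul_pow, sqrt_sq, sqrt_sq])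
    (re_pos (by rwa [sqrt_sq]) (sqrt_re V) ((root h).trans (by norm_num)))

theorem sqrt_ne {V : ℂ} (h : V ≠ 0) : Complex.sqrt V ≠ 0 := fun e =>
  h (by rw [← sqrt_sq V, e]; ring)

theorem exp_re {s : ℂ} (h : |s.im| ≤ 5) : 0 < (Complex.exp (-s / 4)).re := by
  rw [Complex.exp_re]
  refine mul_pos (Real.exp_pos _) (Real.cos_pos_of_mem_Ioo ?_)
  have : (-s / 4).im = -s.im / 4 := by simp
  rw [this]
  rw [abs_le] at h
  constructor <;> linarith [Real.pi_gt_three]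

theorem tb_curve (I : ℕ) {ζ V : ℂ → ℂ} {ζ' V' s : ℂ} (hζ : HasDerivAt ζ ζ' s)
    (hV : HasDerivAt V V' s) (z0 : ζ s ≠ 0) (sl : V s ∈ Complex.slitPlane) :
    HasDerivAt (fun s => Tb I (ζ s) (V s)) (deriv (fun z => Tb I z (V s)) (ζ s) * ζ' +
      wt (ζ s) (V s) * gm I (ζ s) (V s) / (ζ s * Complex.sqrt (V s)) * V') s := by
  have V0 := Complex.slitPlane_ne_zero sl
  have hs := sqrt_sq (V s)
  have hs0 := sqrt_ne V0
  have h0 := hζ.fun_pow 2
  have h1 := ((h0.fun_neg.div_const 4).fun_sub (hV.div_const 4)).cexp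
  have h2 := (hζ.fun_inv z0).const_mul 2
  have h3 := (hasDerivAt_sqrt sl).comp s hV
  have h4 := (hasDerivAt_eta I (Y := ζ s ^ 2 * V s / 4) (by simp [z0, V0])).comp s
    ((h0.fun_mul hV).div_const 4)
  rw [(Tb_Z I z0 V0).deriv]
  refine HasDerivAt.congr_deriv (((h1.fun_mul h2).fun_mul h3).fun_mul h4) ?_
  simp only [wt, gm, Function.comp_def]
  generalize Complex.sqrt (V s) = r at *
  generalize V s = W at *
  subst hs
  field_simp
  ring

theorem w_le {V p : ℂ} (V0 : V ≠ 0) (hp : ‖p‖ ^ 2 ≤ 2 * ‖V‖) :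
    ‖(p / Complex.sqrt V) ^ 2 / 4‖ ≤ 1 / 2 := by
  have := norm_pos_iff.2 V0
  rw [div_pow, sqrt_sq, norm_div, norm_div, norm_pow, Complex.norm_ofNat, div_div,
    div_le_iff₀ (by positivity)]
  linarith

theorem gf_eq {a b c : V3} {e : ℂ} (o : Orth (fr a b c) e) (η : V3) (Ω ζ ζ' V' : ℂ) {V p : ℂ}
    {U : Fin 6 → ℂ} (hV : 0 < V.re) (hp : ‖p‖ ^ 2 ≤ 2 * ‖V‖) (h0 : U 0 = V) (h1 : U 1 = 0)
    (h3 : U 3 = p) : Gf (fr a b c) η Ω ζ 1 ζ' V' U =
      Ω * V' / 4 * Pc V p + Ω * ζ' * Complex.sqrt V * Qc V p +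
        Ω * e * Complex.sqrt V * (dt η b * (ζ / 2 * Pc V p - Complex.sqrt V * Qc V p)) := by
  have V0 : V ≠ 0 := fun h => by simp [h] at hV
  have hw := w_le V0 hp
  have r0 := sqrt_ne V0
  have S0 : Complex.sqrt (1 + (p / Complex.sqrt V) ^ 2 / 4) ≠ 0 :=
    sqrt_ne (Complex.slitPlane_ne_zero (Complex.mem_slitPlane_of_norm_lt_one (by linarith)))
  have eW : Wf 1 U = Complex.sqrt V * Complex.sqrt (1 + (p / Complex.sqrt V) ^ 2 / 4) := by
    rw [← sqrt_mul hV (by linarith), Wf, h0, h1, h3, one_mul, div_pow _ (Complex.sqrt V), sqrt_sq]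
    congr 1
    field_simp
    ring
  have ec : cn 1 U = ![-(p * Complex.sqrt V / 2), 0, -Complex.sqrt V ^ 2] := by
    apply ext3 <;> simp only [cn, h0, h1, h3, cr0, cr1, cr2, Matrix.cons_val_zero,
      Matrix.cons_val_one, Matrix.cons_val] <;> field_simp <;> ring
  have cyc : ∀ x y z : V3, dt (cr x y) z = dt x (cr y z) := fun x y z => by
    simp only [dt, cr0, cr1, cr2]
    ring
  rw [Gf, add_dt, o.dt, cyc, o.cr, eW, ec, h0, Pc, Qc]
  generalize Complex.sqrt (1 + (p / Complex.sqrt V) ^ 2 / 4) = S at *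
  generalize Complex.sqrt V = r at *
  simp only [fr, dt, cr0, cr1, cr2, Matrix.cons_val_zero, Matrix.cons_val_one, Matrix.cons_val,
    Pi.smul_apply, Pi.add_apply, smul_eq_mul]
  field_simp
  ring

theorem dt_eT (Q : E3 ≃ₗᵢ[ℝ] E3) (η : V3) (θ : ℝ) : dt η (cx (eT Q θ)) =
    -dt η (cx (P218T.eR Q 0)) * Real.sin θ + dt η (cx (eT Q 0)) * Real.cos θ := by
  have e : eT Q θ = -Real.sin θ • P218T.eR Q 0 + Real.cos θ • eT Q 0 := by
    simp only [P218T.eR, eT, ← map_smul, ← map_add]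
    congr 1
    ext i
    fin_cases i <;> simp
  rw [e]
  simp only [dt, cx, PiLp.add_apply, PiLp.smul_apply, smul_eq_mul, Complex.ofReal_add,
    Complex.ofReal_mul, Complex.ofReal_neg]
  ring

theorem int_mn (f : ℝ → ℂ) : ∫ θ in (0 : ℝ)..2 * π, f θ = 2 * π * mn f := by
  have : ((π : ℝ) : ℂ) ≠ 0 := by exact_mod_cast Real.pi_ne_zero
  rw [mn, interval_average_eq, sub_zero, Complex.real_smul]
  push_cast
  field_simp

end Bv

open Bv

theorem bv : BV := by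
  intro Q η J₀ J ε k ζ' V' v' v ζ V s p U hv hζ hV z0 V1 g0 cp hU hB
  have sl : V s ∈ Complex.slitPlane := .inl V1
  have V0 := Complex.slitPlane_ne_zero sl
  have r0 := sqrt_ne V0
  obtain ⟨e, -, o⟩ := P218T.Frm.orth_all (a := P218T.eR Q) (b := eT Q) (c := fun _ => axis Q)
    (continuous_iff_continuousAt.2 fun θ => (P218T.Frm.hd_eR Q θ).1.continuousAt)
    (continuous_iff_continuousAt.2 fun θ => (P218T.Frm.hd_eR Q θ).2.continuousAt)
    continuous_const (P218T.Frm.on_Q Q)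
  have sw : ∀ θ, 1 + (p θ / Complex.sqrt (V s)) ^ 2 / 4 ∈ Complex.slitPlane := fun θ =>
    Complex.mem_slitPlane_of_norm_lt_one (by linarith [w_le V0 (hU θ).1])
  have cS : Continuous fun θ => Complex.sqrt (1 + (p θ / Complex.sqrt (V s)) ^ 2 / 4) :=
    continuous_iff_continuousAt.2 fun θ => (hasDerivAt_sqrt (sw θ)).continuousAt.comp
      (f := fun θ => 1 + (p θ / Complex.sqrt (V s)) ^ 2 / 4) (by fun_prop)
  have S0 := fun θ => sqrt_ne (Complex.slitPlane_ne_zero (sw θ))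
  have cP : Continuous fun θ => Pc (V s) (p θ) := (cp.div_const _).div cS S0
  have cQ : Continuous fun θ => Qc (V s) (p θ) := continuous_const.div cS S0
  have b0 := congrFun hB 0
  have b1 := congrFun hB 1
  have b2 := congrFun hB 2
  simp only [Bc, Matrix.cons_val_zero, Matrix.cons_val_one, Matrix.cons_val, Pi.zero_apply] at b0 b1 b2
  have n2 : 2 * Complex.sqrt (V s) / ζ s ≠ 0 := div_ne_zero (mul_ne_zero two_ne_zero r0) z0
  replace b1 := (mul_eq_zero.1 b1).resolve_left n2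
  replace b2 := (mul_eq_zero.1 b2).resolve_left n2
  set Ω := Complex.exp (-(ζ s ^ 2 + V s) / 4) * (1 + ε * lk k (ζ s ^ 2 + V s)) with hΩ
  have eI : ∫ θ in (0 : ℝ)..2 * π, Gf (FQ Q θ) η Ω (ζ s) 1 ζ' V' (U θ) =
      Ω * V' / 4 * (2 * π * mn fun θ => Pc (V s) (p θ)) +
        Ω * ζ' * Complex.sqrt (V s) * (2 * π * mn fun θ => Qc (V s) (p θ)) := by
    have c1 : Continuous fun θ : ℝ => (Real.sin θ : ℂ) *
        (ζ s / 2 * Pc (V s) (p θ) - Complex.sqrt (V s) * Qc (V s) (p θ)) := by fun_prop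
    have c2 : Continuous fun θ : ℝ => (Real.cos θ : ℂ) *
        (ζ s / 2 * Pc (V s) (p θ) - Complex.sqrt (V s) * Qc (V s) (p θ)) := by fun_prop
    have e1 : ∀ θ, Gf (FQ Q θ) η Ω (ζ s) 1 ζ' V' (U θ) =
        Ω * V' / 4 * Pc (V s) (p θ) + Ω * ζ' * Complex.sqrt (V s) * Qc (V s) (p θ) +
        (Ω * e * Complex.sqrt (V s) * -dt η (cx (P218T.eR Q 0)) * ((Real.sin θ : ℂ) *
          (ζ s / 2 * Pc (V s) (p θ) - Complex.sqrt (V s) * Qc (V s) (p θ))) +
        Ω * e * Complex.sqrt (V s) * dt η (cx (eT Q 0)) * ((Real.cos θ : ℂ) *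
          (ζ s / 2 * Pc (V s) (p θ) - Complex.sqrt (V s) * Qc (V s) (p θ)))) := fun θ => by
      rw [FQ, gf_eq (o θ) η Ω (ζ s) ζ' V' V1 (hU θ).1 (hU θ).2.1 (hU θ).2.2.1 (hU θ).2.2.2, dt_eT]
      ring
    simp only [e1]
    rw [intervalIntegral.integral_add (Continuous.intervalIntegrable (by fun_prop) _ _)
        (Continuous.intervalIntegrable (by fun_prop) _ _),
      intervalIntegral.integral_add (Continuous.intervalIntegrable (by fun_prop) _ _)
        (Continuous.intervalIntegrable (by fun_prop) _ _),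
      intervalIntegral.integral_add (Continuous.intervalIntegrable (by fun_prop) _ _)
        (Continuous.intervalIntegrable (by fun_prop) _ _)]
    simp only [intervalIntegral.integral_const_mul, int_mn, b1, b2, mul_zero, add_zero]
  have t0 := tb_curve J₀ hζ hV z0 sl
  have t1 := tb_curve J hζ hV z0 sl
  refine HasDerivAt.congr_deriv
    ((((hv.const_sub 1).fun_mul t0).fun_add (hv.fun_mul t1)).const_mul (2 * π : ℂ)) ?_
  have ew : Complex.exp (-(ζ s ^ 2 + V s) / 4) = wt (ζ s) (V s) := by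
    rw [wt]
    congr 1
    ring
  have eP : (mn fun θ => Pc (V s) (p θ)) = -(4 * ((1 - v s) * gm J₀ (ζ s) (V s) +
      v s * gm J (ζ s) (V s)) / (ζ s * (1 + ε * lk k (ζ s ^ 2 + V s)))) / Complex.sqrt (V s) := by
    rw [eq_div_iff r0]
    linear_combination b0
  rw [eI, hΩ, ew, eP, Df]
  field_simp
  ring

theorem cyb : CYB := by
  intro V z m ζ ζ₁ ε hV h1 hζ hε
  have V0 : V 0 ≠ 0 := fun h => by simpa [h] using hV.re
  have nV := norm_pos_iff.2 V0
  have n1 : 9 / 10 ≤ ‖ζ₁‖ := by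
    have := norm_sub_norm_le (1 : ℂ) ζ₁
    rw [norm_one, norm_sub_rev] at this
    linarith
  have z1 : ζ₁ ≠ 0 := norm_pos_iff.1 (by linarith)
  obtain ⟨w, hw, eW⟩ : ∃ w : ℂ, ‖w‖ ≤ 68 / 100 ∧
      Wf ζ₁ V = Complex.sqrt (V 0) * (ζ₁ * Complex.sqrt (1 + w)) := by
    have hw : ‖(V 3 / ζ₁) ^ 2 / (4 * V 0) + (V 1 / V 0) ^ 2 / 4‖ ≤ 68 / 100 := by
      have a1 : ‖(V 3 / ζ₁) ^ 2 / (4 * V 0)‖ ≤ 50 / 81 := by
        rw [norm_div, norm_pow, norm_div, norm_mul, Complex.norm_ofNat, div_pow, div_div,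
          div_le_iff₀ (by positivity)]
        have : 81 / 100 ≤ ‖ζ₁‖ ^ 2 := by nlinarith
        nlinarith [hV.p]
      have a2 : ‖(V 1 / V 0) ^ 2 / 4‖ ≤ 1 / 16 := by
        have : ‖V 1‖ / ‖V 0‖ ≤ 1 / 2 := by
          rw [div_le_iff₀ nV]
          linarith [hV.q]
        rw [norm_div, norm_pow, norm_div, Complex.norm_ofNat]
        nlinarith [div_nonneg (norm_nonneg (V 1)) nV.le]
      linarith [norm_add_le ((V 3 / ζ₁) ^ 2 / (4 * V 0)) ((V 1 / V 0) ^ 2 / 4)]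
    refine ⟨_, hw, ?_⟩
    rw [mul_left_comm, ← sqrt_mul hV.re hw, Wf]
    congr 2
    field_simp
    ring
  have hS := root hw
  have hd : ‖ζ₁ * Complex.sqrt (1 + w) - 1‖ ≤ 7 / 10 := by
    generalize Complex.sqrt (1 + w) = S at *
    have e : ζ₁ * S - 1 = (ζ₁ - 1) * (S - 1) + (ζ₁ - 1) + (S - 1) := by ring
    have := norm_add₃_le (a := (ζ₁ - 1) * (S - 1)) (b := ζ₁ - 1) (c := S - 1)
    rw [← e, norm_mul] at this
    nlinarith [norm_nonneg (ζ₁ - 1), norm_nonneg (S - 1)]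
  have im : |(ζ ^ 2 + V 0).im| ≤ 5 := by
    have a := (Complex.abs_im_le_norm _).trans hζ
    have e : (ζ ^ 2 + V 0).im = (ζ ^ 2 - z ^ 2).im + (V 0).im := by
      simp [← Complex.ofReal_pow]
    rw [e]
    linarith [abs_add_le (ζ ^ 2 - z ^ 2).im (V 0).im, hV.im]
  have E0 := exp_re im
  have ek : km m = (Real.exp (-m ^ 2 / 4) : ℝ) := by simp [km]
  have k0 := Real.exp_pos (-m ^ 2 / 4)
  have lo : Real.exp (-m ^ 2 / 4) ≤ ‖km m + Complex.exp (-(ζ ^ 2 + V 0) / 4)‖ := by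
    refine le_trans ?_ (Complex.re_le_norm _)
    rw [ek, Complex.add_re, Complex.ofReal_re]
    linarith
  have l1 : ‖lk (km m) (ζ ^ 2 + V 0)‖ ≤ 1 := by
    rw [lk, norm_div, norm_pow, norm_pow, div_le_one (pow_pos (k0.trans_le lo) 2)]
    refine pow_le_pow_left₀ (norm_nonneg _) (le_trans (le_of_eq ?_) lo) 2
    rw [ek, Complex.norm_real, Real.norm_of_nonneg k0.le]
  refine ⟨eW ▸ re_pos (by rw [sqrt_sq]; exact hV.re) (sqrt_re _) hd, ?_,
    norm_pos_iff.1 (k0.trans_le lo), l1, fun h => ?_, ?_, ?_⟩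
  · have a1 : ‖Complex.sqrt (V 0)‖ ≤ 3 := by
      refine (abs_le_of_sq_le_sq' ?_ (by norm_num)).2
      rw [← norm_pow, sqrt_sq]
      linarith [hV.le]
    have a2 := norm_add_le (ζ₁ * Complex.sqrt (1 + w) - 1) 1
    rw [sub_add_cancel, norm_one] at a2
    rw [eW, norm_mul]
    nlinarith [norm_nonneg (Complex.sqrt (V 0)), norm_nonneg (ζ₁ * Complex.sqrt (1 + w))]
  · have := congrArg norm (eq_neg_of_add_eq_zero_left h)
    rw [norm_one, norm_neg, norm_mul] at this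
    nlinarith [norm_nonneg ε, norm_nonneg (lk (km m) (ζ ^ 2 + V 0))]
  · have a := (Complex.abs_re_le_norm _).trans hζ
    have e : (-(ζ ^ 2 + V 0) / 4).re = -((ζ ^ 2 - z ^ 2).re + z ^ 2 + (V 0).re) / 4 := by
      simp [← Complex.ofReal_pow]
    have b := Real.add_one_le_exp (-1 / 4 : ℝ)
    have c : Real.exp (-z ^ 2 / 4 + 1 / 4) * Real.exp (-1 / 4) = Real.exp (-z ^ 2 / 4) := by
      rw [← Real.exp_add]
      congr 1
      ring
    rw [abs_le] at a
    rw [Complex.norm_exp, e]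
    refine (Real.exp_le_exp.2 (show _ ≤ -z ^ 2 / 4 + 1 / 4 by linarith [hV.re])).trans ?_
    nlinarith [Real.exp_pos (-z ^ 2 / 4 + 1 / 4)]
  · have e : Complex.exp (-((z : ℂ) ^ 2 + V 0 - m ^ 2) / 4) =
        Complex.exp (-(z ^ 2 + V 0) / 4) / km m := by
      rw [km, ← Complex.exp_sub]
      congr 1
      ring
    have k1 : km m ≠ 0 := Complex.exp_ne_zero _
    rw [P218Q.oi, P218Q.lg, e, one_add_div k1, div_pow, one_div_div, lk, Wf, div_one, one_mul]
    ring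

end Vale.Agent.P218N
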