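import Vale.Agent.P218N.Spec2

/-! Block NL: the first variation of the integrand at a point where the equation holds. -/

open Set Filter Topology
open scoped ContDiff

set_option linter.unusedSectionVars false

noncomputable section

namespace Vale.Agent.P218N

section curve

variable {𝕜 : Type*} [NontriviallyNormedField 𝕜] [NormedAlgebra 𝕜 ℂ] {r : 𝕜}

theorem hd_lk2 {k σ : 𝕜 → ℂ} {σ' : ℂ} (hk : HasDerivAt k 0 r) (hσ : HasDerivAt σ σ' r)
    (h : k r + Complex.exp (-σ r / 4) ≠ 0) :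
    HasDerivAt (fun r => lk (k r) (σ r)) (lk' (k r) (σ r) * σ') r := by
  have h1 := (hk.fun_add (hσ.fun_neg.div_const 4).cexp).fun_pow 2
  refine ((hk.fun_pow 2).fun_div h1 (pow_ne_zero 2 h)).congr_deriv ?_
  simp only [lk', Nat.add_one_sub_one, pow_one]
  generalize Complex.exp (-σ r / 4) = e at h ⊢
  field_simp
  push_cast
  ring

theorem hd_zl {z k σ : 𝕜 → ℂ} {z' σ' : ℂ} (hz : HasDerivAt z z' r) (hk : HasDerivAt k 0 r)
    (hσ : HasDerivAt σ σ' r) (h : (∀ᶠ y in 𝓝 r, z y = 0) ∨ k r + Complex.exp (-σ r / 4) ≠ 0) :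
    HasDerivAt (fun r => z r * lk (k r) (σ r))
      (z' * lk (k r) (σ r) + z r * (lk' (k r) (σ r) * σ')) r := by
  rcases h with e | h
  · rw [hz.unique ((hasDerivAt_const r (0 : ℂ)).congr_of_eventuallyEq e), e.self_of_nhds, zero_mul,
      zero_mul, add_zero]
    exact (hasDerivAt_const r (0 : ℂ)).congr_of_eventuallyEq (e.mono fun y e => by simp [e])
  · exact hz.fun_mul (hd_lk2 hk hσ h)

/-- the weight along a curve -/
theorem hd_wt {ι : Type} [Fintype ι] {ε z k : 𝕜 → ι → ℂ} {σ : 𝕜 → ℂ} {ε' z' : ι → ℂ} {σ' : ℂ}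
    (hε : ∀ l, HasDerivAt (fun r => ε r l) (ε' l) r) (hz : ∀ l, HasDerivAt (fun r => z r l) (z' l) r)
    (hk : ∀ l, HasDerivAt (fun r => k r l) 0 r) (hσ : HasDerivAt σ σ' r)
    (h : ∀ l, (∀ᶠ y in 𝓝 r, z y l = 0) ∨ k r l + Complex.exp (-σ r / 4) ≠ 0) :
    HasDerivAt (fun r => Complex.exp (-σ r / 4) * (1 + ∑ l, ε r l * (z r l * lk (k r l) (σ r))))
      (Complex.exp (-σ r / 4) * ((∑ l, ε r l * (z r l * lk' (k r l) (σ r))
          - (1 + ∑ l, ε r l * (z r l * lk (k r l) (σ r))) / 4) * σ'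
        + ∑ l, ε' l * (z r l * lk (k r l) (σ r)) + ∑ l, ε r l * (z' l * lk (k r l) (σ r)))) r := by
  have h1 := (HasDerivAt.fun_sum (u := Finset.univ) fun l _ =>
    (hε l).fun_mul (hd_zl (hz l) (hk l) hσ (h l))).const_add 1
  refine ((hσ.fun_neg.div_const 4).cexp.fun_mul h1).congr_deriv ?_
  have e : ∑ l, (ε' l * (z r l * lk (k r l) (σ r)) + ε r l * (z' l * lk (k r l) (σ r)
      + z r l * (lk' (k r l) (σ r) * σ'))) = (∑ l, ε r l * (z r l * lk' (k r l) (σ r))) * σ'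
      + ∑ l, ε' l * (z r l * lk (k r l) (σ r)) + ∑ l, ε r l * (z' l * lk (k r l) (σ r)) := by
    rw [Finset.sum_mul, ← Finset.sum_add_distrib, ← Finset.sum_add_distrib]
    exact Finset.sum_congr rfl fun l _ => by ring
  rw [e]
  ring

end curve

theorem rr_smul (a : ℂ) (l : V3) (A : Fin 3 → V3) (m : V3) : rr (a • l) A m = a • rr l A m := by
  apply ext3 <;>
  · simp only [rr, Pi.add_apply, Pi.smul_apply, smul_eq_mul]
    ring

theorem dt_cr_smul (a : ℂ) (y N v : V3) : dt y (cr N (a • v)) = a * dt y (cr N v) := by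
  simp only [dt, cr0, cr1, cr2, Pi.smul_apply, smul_eq_mul]
  ring

namespace AD

variable {ι α : Type} [Fintype ι] [Fintype α] {D : AD ι α} {x : E3} {φ φ' : E3 → ℂ}
  {t t' : Pi' ι α}

/-- the derivative of the weight in `s` -/
def qw (D : AD ι α) (x : E3) (t : Pi' ι α) (s : ℂ) : ℂ := Complex.exp (-s / 4) *
  (∑ l, t.2.2.2.1 l * (D.ze l x * lk' (t.2.2.2.2 l) s) - D.gw x t s / 4)

theorem Rw.th {s : ℂ} (h : D.Rw x t s) : D.th x t s * D.Om x t s = -4 * D.qw x t s := by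
  have := h.g
  simp only [AD.th, AD.Om, qw]
  field_simp
  ring

theorem Rw.Om_ne {s : ℂ} (h : D.Rw x t s) : D.Om x t s ≠ 0 :=
  mul_ne_zero (Complex.exp_ne_zero _) h.g

theorem Gd.cd_X (h : D.Gd x (jt φ x) t) {n : ℕ} (hφ : ContDiffAt ℝ n φ x) :
    ContDiffAt ℝ n (D.Xm φ t) x := SH.cd (φ := φ) h.rg.XX hφ

theorem Gd.pd_X (h : D.Gd x (jt φ x) t) (hφ : DifferentiableAt ℝ φ x) :
    pd (D.Xm φ t) x = jA D.XX x (jt φ x) t := SH.pd (φ := φ) h.rg.XX hφ

theorem Gd.Wj (h : D.Gd x (jt φ x) t) (hφ : DifferentiableAt ℝ φ x) :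
    D.Wj x (jt φ x) t = wX (D.Xm φ t) (nu D.w) x := by
  rw [wX, h.pd_X hφ, AD.Wj]

theorem Gd.cd_Om (h : D.Gd x (jt φ x) t) {n : ℕ} (hφ : ContDiffAt ℝ n φ x) :
    ContDiffAt ℝ n (fun y => D.Om y t (dt (D.Xm φ t y) (D.Xm φ t y))) x := by
  have hX : SH D.XX (x, φ x, t) := h.rg.XX
  have := Rg.Om (z := (x, φ x, t)) (g := id) (u := fun q : E3 × ℂ × Pi' ι α => q.2.2)
    (s := fun q => dt (D.XX q) (D.XX q)) h.rg h.rw contDiffAt_id SH.snd.p2 (hX.dt hX)
  exact (this.ev n).self_of_nhds.comp x (contDiffAt_id.prodMk (hφ.prodMk contDiffAt_const))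

theorem Gd.pd_Om (h : D.Gd x (jt φ x) t) (hφ : ContDiffAt ℝ (1 : ℕ) φ x) (c : Fin 3) :
    pd (fun y => D.Om y t (dt (D.Xm φ t y) (D.Xm φ t y))) x c =
      2 * D.qw x t (dt (D.Xm φ t x) (D.Xm φ t x)) * dt (D.Xm φ t x) (pd (D.Xm φ t) x c)
      + (D.Om x t (dt (D.Xm φ t x) (D.Xm φ t x)) • D.lw x t (dt (D.Xm φ t x) (D.Xm φ t x))) c := by
  refine pd_eq ((h.cd_Om hφ).differentiableAt (by simp)) ?_
  have hX := hd_pd ((h.cd_X hφ).differentiableAt (by simp)) c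
  have := hd_wt (r := (0 : ℝ)) (ε := fun _ => t.2.2.2.1) (k := fun _ => t.2.2.2.2)
    (z := fun r l => (D.ze l (x + r • EuclideanSpace.single c 1) : ℝ)) (ε' := 0)
    (fun l => hasDerivAt_const _ _)
    (fun l => (hd_pd ((h.rg.ze l).differentiableAt (by simp)) c).ofReal_comp)
    (fun l => hasDerivAt_const _ _) (hd_dt hX hX)
    (fun l => (h.rw.k l).imp (fun e => by
      have c : Tendsto (fun r : ℝ => x + r • EuclideanSpace.single c 1) (𝓝 0) (𝓝 x) :=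
        Continuous.tendsto' (by fun_prop) _ _ (by simp)
      exact (c.eventually e).mono fun y e => by simp [e])
      fun e => by simp only [zero_smul, add_zero]; exact e)
  refine this.congr_deriv ?_
  have g := h.rw.g
  change D.gw x t (dt (D.Xm φ t x) (D.Xm φ t x)) ≠ 0 at g
  simp only [zero_smul, add_zero, Pi.zero_apply, zero_mul, Finset.sum_const_zero, Pi.smul_apply,
    smul_eq_mul, qw, AD.Om, AD.lw, dt_comm (pd (D.Xm φ t) x c)]
  rw [← AD.gw]
  field_simp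
  ring

/-- the equation on the jet of a function -/
theorem Gd.E_eq (h : D.Gd x (jt φ x) t) (hφ : ContDiffAt ℝ 2 φ x) : D.E x (jt φ x) t =
    eX (D.th x t (dt (D.Xm φ t x) (D.Xm φ t x))) (D.Xm φ t) (nu D.w) x / 2
      - dt (dF D.XX (x, φ x, t)) (cr (nn (pd (D.Xm φ t) x) (nu D.w x))
        (rr (D.lw x t (dt (D.Xm φ t x) (D.Xm φ t x))) (pd (D.Xm φ t) x) (nu D.w x)))
          / D.fn x (jt φ x) t
      + wX (D.Xm φ t) (nu D.w) x * rh0 x /
        (D.Om x t (dt (D.Xm φ t x) (D.Xm φ t x)) * D.fn x (jt φ x) t) * D.lag x t := by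
  have e : pd (pd (D.Xm φ t)) x = jA2 D.XX x (jt φ x) t := SH.pd2 (φ := φ) h.rg.XX hφ
  rw [eX, wX, e, h.pd_X (hφ.differentiableAt (by norm_num))]
  rfl

theorem lw_zero (hz : ∀ l, pd (D.ze l) x = 0) (s : ℂ) : D.lw x t s = 0 := by
  funext c
  simp [AD.lw, hz]

/-- the equation in the far zones -/
theorem Gd.E_far (h : D.Gd x (jt φ x) t) (hφ : ContDiffAt ℝ 2 φ x) (hz : ∀ l, pd (D.ze l) x = 0)
    (hl : D.lag x t = 0) : D.E x (jt φ x) t =
      eX (D.th x t (dt (D.Xm φ t x) (D.Xm φ t x))) (D.Xm φ t) (nu D.w) x / 2 := by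
  rw [h.E_eq hφ, lw_zero hz, hl, ← zero_smul ℂ (0 : V3), rr_smul, dt_cr_smul]
  simp

/-- the ansatz does not depend on the parameters outside the zones of rotation and shift -/
theorem Rg.dT_zero {a : ℂ} (h : D.Rg x a t) (e : ∀ l, D.rot l x = 0 ∧ D.sh l x = 0) :
    dT t' D.XX (x, a, t) = 0 := by
  have := h.XX.hd (t' := t') (s := 0) (hasDerivAt_const (0 : ℂ) a)
    (g := fun s : ℂ => t + s • t') (by simpa using ((hasDerivAt_id (0 : ℂ)).smul_const t').const_add t)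
    rfl (by simp)
  have c : (fun s : ℂ => D.XX (x, a, t + s • t')) = fun _ => D.XX (x, a, 0) := by
    funext s
    simp only [AD.XX, ov_zero x _ fun l => .inl (e l).1, cay_zero, AD.X0, (e _).2,
      Complex.ofReal_zero, mul_zero]
  rw [c] at this
  simpa using this.unique (hasDerivAt_const _ _)

end AD

theorem elp : ELP := by
  intro ι α _ _ D x φ φ' t t' j g s h hφ hφ' h0 ej eg hj hg hE hc
  have h1 : ContDiffAt ℝ (1 : ℕ) φ x := hφ.of_le (by norm_num)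
  have d1 := h1.differentiableAt (by simp)
  have hS : SH D.XX (x, φ x, t) := h.rg.XX
  have hX : ContDiffAt ℝ 2 (D.Xm φ t) x := h.cd_X (n := 2) hφ
  have hm : ContDiffAt ℝ 1 (nu D.w) x := (cd_nu h.rg.w).of_le (by exact_mod_cast le_top)
  have eA := h.pd_X d1
  have hG : gg (pd (D.Xm φ t) x) (nu D.w x) ∈ Complex.slitPlane := eA ▸ h.sl
  have hΩ := h.cd_Om (n := 1) h1
  refine ⟨⟨hX, hS.cd_yv (n := 1) h1 hφ', cd_om hX hm hΩ hG⟩, ?_⟩
  have key := el hX hm hΩ hG (h.pd_Om h1) h.rw.th (yv D.XX φ φ' t t' x)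
  have cX : HasDerivAt (fun s => D.XX (x, j s none none, g s)) (yv D.XX φ φ' t t' x) s :=
    hS.hd (hj none) hg (ej none) eg
  have cA := hS.hd_jA h1 (hφ'.differentiableAt one_ne_zero) (hj none) (fun b => hj (some b)) hg ej eg
  have e0 : D.XX (x, j s none none, g s) = D.Xm φ t x := by rw [ej, eg]; rfl
  have e1 : jA D.XX x (j s) (g s) = pd (D.Xm φ t) x := by
    rw [eA, eg]
    funext b
    simp only [jA, ej]
  have cW := hd_area cA (hasDerivAt_const s (nu D.w x)) (e1 ▸ hG)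
  have g4 := hg.hasFDerivAt.snd.snd.snd
  have cΩ := hd_wt (r := s) (ε := fun s => (g s).2.2.2.1) (k := fun s => (g s).2.2.2.2)
    (z := fun _ l => (D.ze l x : ℝ)) (z' := 0) (ε' := t'.2.2.2.1)
    (fun l => by simpa using hasDerivAt_pi.1 g4.fst.hasDerivAt l) (fun l => hasDerivAt_const _ _)
    (fun l => by simpa [h0] using hasDerivAt_pi.1 g4.snd.hasDerivAt l) (hd_dt cX cX)
    (fun l => (h.rw.k l).imp (fun e => .of_forall fun _ => by simp [e.self_of_nhds])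
      fun e => by rw [e0, eg]; exact e)
  refine (cΩ.fun_mul cW).congr_deriv ?_
  have W0 : wX (D.Xm φ t) (nu D.w) x ≠ 0 := sqrt_ne (Complex.slitPlane_ne_zero hG)
  have k2 : 2 * D.qw x t (dt (D.Xm φ t x) (D.Xm φ t x)) * dt (D.Xm φ t x) (yv D.XX φ φ' t t' x) *
      wX (D.Xm φ t) (nu D.w) x + dt (yv D.XX φ φ' t t' x)
        (kk (pd (D.vn φ t) x) (pd (D.Xm φ t) x) (nu D.w x)) = φ' x * rh0 x * D.lag x t := by
    refine key.trans ?_
    rw [rr_smul, dt_cr_smul]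
    rcases hc with ⟨f, e⟩ | ⟨hz, hl⟩
    · have O := h.rw.Om_ne
      have ef : D.fn x (jt φ x) t = dt (dF D.XX (x, φ x, t)) (nn (pd (D.Xm φ t) x) (nu D.w x)) := by
        rw [eA]; rfl
      rw [h.E_eq hφ] at hE
      rw [yv, AD.Rg.dT_zero (a := φ x) h.rg e, add_zero, smul_dt, smul_dt, ← ef]
      change D.Om x t (dt (D.Xm φ t x) (D.Xm φ t x)) ≠ 0 at O
      change -(D.Om x t (dt (D.Xm φ t x) (D.Xm φ t x)) *
        eX (D.th x t (dt (D.Xm φ t x) (D.Xm φ t x))) _ _ _ * _) / _ + _ = _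
      field_simp at hE ⊢
      linear_combination (-φ' x) * hE
    · rw [h.E_far hφ hz hl, div_eq_zero_iff, or_iff_left two_ne_zero] at hE
      change -(_ * eX (D.th x t (dt (D.Xm φ t x) (D.Xm φ t x))) _ _ _ * _) / _ + _ = _
      rw [hE, AD.lw_zero hz, hl, ← zero_smul ℂ (0 : V3), rr_smul, dt_cr_smul]
      simp
  have k3 : ∑ l, t'.2.2.2.1 l * D.IO l x (jt φ x) t =
      Complex.exp (-dt (D.Xm φ t x) (D.Xm φ t x) / 4) * (∑ l, t'.2.2.2.1 l *
        (D.ze l x * lk (t.2.2.2.2 l) (dt (D.Xm φ t x) (D.Xm φ t x)))) * wX (D.Xm φ t) (nu D.w) x := by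
    rw [Finset.mul_sum, Finset.sum_mul]
    refine Finset.sum_congr rfl fun l _ => ?_
    rw [AD.IO, h.Wj d1]
    change _ * (Complex.exp (-dt (D.Xm φ t x) (D.Xm φ t x) / 4) *
      (_ * lk _ (dt (D.Xm φ t x) (D.Xm φ t x))) * _) = _
    ring
  have z : nn (pd (D.Xm φ t) x) 0 = 0 := by simp [nn]
  rw [k3, ← k2, e0, e1, eg, z, add_zero, AD.vn, om, smul_dt, ← wX]
  simp only [AD.qw, AD.Om, AD.gw, Pi.zero_apply, zero_mul, mul_zero, Finset.sum_const_zero,
    dt_comm (yv D.XX φ φ' t t' x) (D.Xm φ t x)]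
  ring

end Vale.Agent.P218N
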