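import Vale.Agent.P218N.PrfA
import Vale.Agent.P218I.Cd

/-! Block NL, row PRF: the profile of a solution on a cylindrical end. -/

set_option linter.all false

open Set Filter Topology MeasureTheory
open scoped Real

noncomputable section

namespace Vale.Agent.P218N

open Vale.Agent.P218W (co contOn_co)
open Vale.Agent.P218M (rh ly)
open Vale.Agent.P218Q (Circ oi lg vb Prof DF)

namespace Prf

namespace Wp

variable {z q x s L a b n₀ n₁ n₂ n₃ n₄ n₅ o₃ o₅ : ℝ}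
  (w : Wp z q x s L a b n₀ n₁ n₂ n₃ n₄ n₅ o₃ o₅)
include w

theorem a6 : a ^ 2 * (z ^ 3 * q) ≤ 6 := by nlinarith only [w.a5, w.s6]

theorem eq {A : ℝ} (A0 : 0 ≤ A) (hA : A ≤ 1 + q * L) :
    (a * b) ^ 2 * (1 + A) + a * b * (a * b ^ 2) ≤ 12 / z ^ 3 + 180 / q * L := by
  have q1 := w.q1; have L0 := w.L0; have b1 := w.b1; have a0 := w.a0
  have q0 : 0 < q := by linarith
  have qz : 100 * q ≤ z := by nlinarith only [w.q2, q1]
  have z0 : 0 < z := by linarith
  have y0 : 0 < z ^ 2 * L := by positivity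
  have qL : q * L ≤ q := mul_le_of_le_one_right q0.le w.L1
  have e1 := mul_le_mul_of_nonneg_left (show 1 + A ≤ 2 + q by linarith) (sq_nonneg b)
  have e2 : b ≤ 1 + 6 * (z ^ 2 * L) := by nlinarith only [w.b2, b1]
  have e3 : b ^ 2 * b + b ^ 2 * (1 + A) ≤ 2 * q + 30 * (z ^ 3 * L) := by
    rw [w.b2] at e1 ⊢
    linarith [mul_le_mul_of_nonneg_left w.b3 y0.le,
      mul_le_mul_of_nonneg_left (show 18 + 6 * q ≤ 12 * z by linarith) y0.le]
  calc _ = a ^ 2 * (b ^ 2 * b + b ^ 2 * (1 + A)) := by ring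
    _ ≤ 6 / (z ^ 3 * q) * (2 * q + 30 * (z ^ 3 * L)) := by
      gcongr; exact (le_div_iff₀ (by positivity)).2 w.a6
    _ = _ := by field_simp; ring

theorem jb : (a * b) ^ 2 ≤ 18 * s / (z * q) := by
  have q0 : 0 < q := by linarith [w.q1]
  have z0 : 0 < z := w.q2 ▸ pow_pos q0 2
  have b1 := w.b1
  have : a ^ 2 * b ^ 2 * (z * q) ≤ a ^ 2 * (3 * z) ^ 2 * (z * q) := by gcongr; exact w.b3
  rw [le_div_iff₀ (by positivity)]
  linarith [w.a5]

theorem ob (h : z ^ 2 * L ≤ 5) : (a * b) ^ 2 * z ^ 3 ≤ 2 := by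
  have q0 : 0 < q := by linarith [w.q1]
  have z0 : 0 < z := w.q2 ▸ pow_pos q0 2
  have : a ^ 2 * z ^ 3 * (b ^ 2 * 100) ≤ a ^ 2 * z ^ 3 * (31 * q) := by
    gcongr _ * ?_
    linarith [w.b2, mul_le_mul (show b ^ 2 ≤ 31 by linarith [w.b2]) w.q1 (by norm_num) (by norm_num)]
  linarith [w.a6]

end Wp

theorem oi_cont {X : Type} [TopologicalSpace X] {S : Set X} (m : ℝ) {f : X → ℝ} {V p q : X → ℂ}
    (cf : ContinuousOn f S) (cV : ContinuousOn V S) (cp : ContinuousOn p S) (cq : ContinuousOn q S)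
    (h : ∀ y ∈ S, 0 < (V y).re ∧ ‖V y‖ ≤ 8 ∧ ‖p y‖ ^ 2 ≤ 2 * ‖V y‖ ∧ ‖q y‖ ≤ ‖V y‖ / 2) :
    ContinuousOn (fun y => oi m (f y) (V y) (p y) (q y)) S := by
  have cf' : ContinuousOn (fun y => (f y : ℂ)) S := Complex.continuous_ofReal.comp_continuousOn cf
  have v0 : ∀ y ∈ S, 0 < ‖V y‖ := fun y hy => (h y hy).1.trans_le (Complex.re_le_norm _)
  simp only [oi, lg]
  refine ((continuousOn_const.div (by fun_prop) fun y hy => pow_ne_zero 2
    (P218Q.Jet.oi_bd m (f y) (p := 0) (q := 0) (h y hy).2.1 (by simp) (by simp)).1).mul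
    (by fun_prop)).mul (Complex.continuousOn_sqrt.comp ((by fun_prop : ContinuousOn _ S).add
      ((cq.pow 2).div (by fun_prop) fun y hy => mul_ne_zero (by norm_num)
        (norm_pos_iff.1 (v0 y hy)))) fun y hy => P218Q.Jet.slit (h y hy).1 ?_)
  obtain ⟨-, -, a, b⟩ := h y hy
  have v := v0 y hy
  have : ‖q y ^ 2 / (4 * V y)‖ ≤ ‖V y‖ / 16 := by
    rw [norm_div, norm_pow, norm_mul, Complex.norm_ofNat, div_le_iff₀ (by positivity)]
    nlinarith [norm_nonneg (q y)]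
  rw [add_assoc, add_sub_cancel_left]
  refine (norm_add_le _ _).trans_lt ?_
  rw [norm_div, norm_pow, Complex.norm_ofNat]
  linarith

theorem exp_le {m s : ℝ} (m0 : 0 ≤ m) (s0 : 0 ≤ s) :
    Real.exp (-|s ^ 2 - m ^ 2| / 4) ≤ 1 / (1 + (m / 6 * (s - m)) ^ 2) := by
  rw [neg_div, Real.exp_neg, one_div]
  refine inv_anti₀ (by positivity) (le_trans ?_ (Real.quadratic_le_exp_of_nonneg (by positivity)))
  have : (s - m) ^ 2 * m ^ 2 ≤ (s - m) ^ 2 * (s + m) ^ 2 := by gcongr; linarith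
  rw [div_pow, sq_abs]
  nlinarith [abs_nonneg (s ^ 2 - m ^ 2), mul_nonneg (sq_nonneg (s - m)) (sq_nonneg m)]

theorem cont_k (m : ℝ) : Continuous fun s : ℝ => 1 / (1 + (m / 6 * (s - m)) ^ 2) :=
  continuous_const.div (by fun_prop) fun s => by positivity

theorem int_le {m : ℝ} (m0 : 0 < m) :
    ∫ s in (m - 1)..(m + 1), 1 / (1 + (m / 6 * (s - m)) ^ 2) ≤ 20 / m := by
  rw [intervalIntegral.integral_eq_sub_of_hasDerivAt
    (f := fun s => 6 / m * Real.arctan (m / 6 * (s - m))) (fun s _ =>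
      (((((hasDerivAt_id' s).sub_const m).const_mul (m / 6)).arctan).const_mul (6 / m)).congr_deriv
        (by field_simp)) ((cont_k m).intervalIntegrable _ _), ← mul_sub, div_mul_eq_mul_div]
  gcongr
  linarith [Real.arctan_lt_pi_div_two (m / 6 * (m + 1 - m)),
    Real.neg_pi_div_two_lt_arctan (m / 6 * (m - 1 - m)), Real.pi_lt_d2]

namespace Dt

variable {R Z z : ℝ} {c : ℂ} {u V : Fin 6 → ℝ × ℝ → ℂ} (h : Dt R Z c u V)
include h

theorem cj (hz : z ∈ Icc R Z) (θ : ℝ) : Cj fun i => V i (z, θ) := by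
  obtain ⟨k, -, -, e⟩ := h.circ hz
  have w := wp h.cyl h.R4 hz
  have d := h.cyl.dsc z hz
  have x0 := w.x0
  have n6 := w.s6
  have xn := w.xs
  rw [Real.sq_sqrt (norm_nonneg _)] at n6 xn
  have r := (abs_le.1 ((Complex.abs_re_le_norm _).trans (e θ))).1
  have i := (Complex.abs_im_le_norm _).trans (e θ)
  rw [Complex.sub_re] at r
  rw [Complex.sub_im] at i
  have i3 : |(rh c z).im| ≤ 3 := by
    rw [Complex.sq_norm, Complex.normSq_apply] at d
    exact abs_le_of_sq_le_sq' (by nlinarith [sq_nonneg ((rh c z).re - 3)]) (by norm_num) |> abs_le.2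
  obtain ⟨s, s0, s1, s2, s3⟩ := P218Q.Jet.base k
  have a := k.sm
  have v := (P218Q.Jet.nrm (k.bV θ)).1
  have p := (P218Q.Jet.nrm (k.bp θ)).2
  have q := k.bq θ
  rw [s1] at p
  rw [s2] at v q
  have a1 := mul_le_mul_of_nonneg_right a s0.le
  have a2 := mul_le_mul_of_nonneg_right a (sq_nonneg s)
  refine ⟨by linarith, by linarith [(P218Q.Jet.nrm (e θ)).2], ?_, ?_, by linarith [sq_nonneg s]⟩
  · linarith [abs_sub_abs_le_abs_sub (V 0 (z, θ)).im (rh c z).im]
  · linarith [pow_le_pow_left₀ (norm_nonneg _) (show ‖V 3 (z, θ)‖ ≤ 101 / 100 * s by linarith) 2,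
      sq_nonneg s]

theorem v7 (hz : z ∈ Icc R Z) : ‖co (V 0) 0 z‖ ≤ 7 := by
  have w := wp h.cyl h.R4 hz
  have n6 := w.s6
  have xn := w.xs
  rw [Real.sq_sqrt (norm_nonneg _)] at n6 xn
  linarith [(P218Q.Jet.nrm (h.circ hz).2.1).2]

/-- the observable and the observable of the mean profile -/
theorem obs {C m : ℝ} (C0 : 0 ≤ C) (hC : ∀ (m s : ℝ) V p q a b c V0 p0 a0 a1 a2,
      Circ V p q a b c V0 p0 a0 a1 a2 → ‖V0‖ ≤ 7 →
      ‖P218Q.av (fun θ => oi m s (V θ) (p θ) (q θ)) - oi m s V0 p0 0‖ ≤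
        C * a1 ^ 2 * Real.exp (-m ^ 2 / 4) * Real.exp (-|s ^ 2 - m ^ 2| / 4))
    (hR : R = Z / 300) (hm : m ∈ Icc (Z / 20) (Z / 2)) :
    ‖(∫ s in (m - 1)..(m + 1), ∫ θ in (0 : ℝ)..2 * π, oi m s (V 0 (s, θ)) (V 3 (s, θ)) (V 1 (s, θ)))
      - P218Q.om (co (V 0) 0) (co (V 3) 0) m‖ ≤ 10 ^ 8 * C * Real.exp (-m ^ 2 / 4) / Z ^ 4 := by
  have Z4 := h.R4
  have Z0 : 0 < Z := by linarith
  have m0 : 0 < m := by linarith [hm.1]
  have sub : uIcc (m - 1) (m + 1) ⊆ Icc R Z :=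
    uIcc_subset_Icc ⟨by linarith [hm.1], by linarith [hm.2]⟩ ⟨by linarith [hm.1], by linarith [hm.2]⟩
  have c1 := contOn_co (oi_cont m continuousOn_fst (h.cV 0) (h.cV 3) (h.cV 1) fun y hy =>
    let k := h.cj hy.1 y.2; ⟨k.re, k.le, k.p, k.q⟩) 0
  have c2 := oi_cont m (continuousOn_id' _) (contOn_co (h.cV 0) 0) (contOn_co (h.cV 3) 0)
    (continuousOn_const (c := 0)) fun z hz => ⟨(h.circ hz).1.re, by linarith [h.v7 hz],
      by linarith [(h.circ hz).1.p1, norm_nonneg (co (V 0) 0 z)], by simp; positivity⟩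
  have e1 : ∀ s, ∫ θ in (0 : ℝ)..2 * π, oi m s (V 0 (s, θ)) (V 3 (s, θ)) (V 1 (s, θ)) =
      2 * π * co (fun y => oi m y.1 (V 0 y) (V 3 y) (V 1 y)) 0 s := fun s => by
    have : (π : ℂ) ≠ 0 := Complex.ofReal_ne_zero.2 Real.pi_ne_zero
    simp only [co, P218W.c1, neg_zero, P218W.ex_zero, one_mul]
    field_simp
  have e2 : P218Q.om (co (V 0) 0) (co (V 3) 0) m =
      ∫ s in (m - 1)..(m + 1), 2 * π * oi m s (co (V 0) 0 s) (co (V 3) 0 s) 0 := by
    simp [P218Q.om, oi]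
  simp only [e1, e2]
  rw [← intervalIntegral.integral_sub (((c1.mono sub).intervalIntegrable).const_mul _)
    (((c2.mono sub).intervalIntegrable).const_mul _)]
  refine (intervalIntegral.norm_integral_le_of_norm_le (by linarith)
    (g := fun s => 250000 * C * Real.exp (-m ^ 2 / 4) / Z ^ 3 * (1 / (1 + (m / 6 * (s - m)) ^ 2)))
    (.of_forall fun s hs => ?_) (((cont_k m).intervalIntegrable _ _).const_mul _)).trans ?_
  · have hz : s ∈ Icc R Z := sub (by rw [uIcc_of_le (by linarith)]; exact Ioc_subset_Icc_self hs)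
    have s1 : Z / 25 ≤ s := by linarith [hs.1, hm.1]
    have s2 : s ≤ 3 / 5 * Z := by linarith [hs.2, hm.2]
    have s0 : 0 < s := by linarith
    have l : s ^ 2 * ly Z s ≤ 5 := by
      have := Real.add_one_le_exp ((Z ^ 2 - s ^ 2) / 8)
      rw [ly, ← neg_sub, neg_div, Real.exp_neg, ← div_eq_mul_inv, div_le_iff₀ (Real.exp_pos _)]
      nlinarith [pow_le_pow_left₀ s0.le s2 2]
    have a : (aa c s * bb Z s) ^ 2 ≤ 31250 / Z ^ 3 := by
      rw [le_div_iff₀ (by positivity)]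
      linarith [(wp h.cyl h.R4 hz).ob l, mul_le_mul_of_nonneg_left
        (pow_le_pow_left₀ (by positivity) s1 3) (sq_nonneg (aa c s * bb Z s))]
    rw [← mul_sub, norm_mul, ← av_co]
    refine (mul_le_mul (b := 8) (by simp [abs_of_pos Real.pi_pos]; linarith [Real.pi_le_four])
      ((hC m s _ _ _ _ _ _ _ _ _ _ _ (h.circ hz).1 (h.v7 hz)).trans (mul_le_mul (mul_le_mul_of_nonneg_right
        (mul_le_mul_of_nonneg_left a C0) (Real.exp_pos _).le) (exp_le m0.le s0.le)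
          (Real.exp_pos _).le (by positivity))) (norm_nonneg _) (by norm_num)).trans_eq (by ring)
  · rw [intervalIntegral.integral_const_mul]
    refine (mul_le_mul_of_nonneg_left ((int_le m0).trans (show 20 / m ≤ 400 / Z by
      rw [div_le_div_iff₀ m0 Z0]; linarith [hm.1])) (by positivity)).trans_eq ?_
    field_simp
    ring

end Dt

end Prf

open Prf in
/-- **row PRF** -/
theorem prf : PRF := by
  obtain ⟨C₁, h₁⟩ := P218Q.je
  obtain ⟨C₂, -, h₂⟩ := P218Q.jo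
  obtain ⟨C₃, h₃⟩ := P218Q.jb 18
  refine ⟨1 / 100, by norm_num, fun K => ⟨|K| + |C₃| + 10 ^ 8 * (|C₁| + |C₂|),
    fun J₀ J h0 hJ => ?_⟩⟩
  have p₀ := abs_nonneg K; have p₁ := abs_nonneg C₁; have p₂ := abs_nonneg C₂
  have p₃ := abs_nonneg C₃; have l₃ := le_abs_self C₃
  have J13 : (10 : ℝ) ^ 13 ≤ J := by exact_mod_cast h0.trans hJ
  filter_upwards [h₃ J₀ J (by omega) hJ, eventually_ge_atTop (3 * 10 ^ 6)]
    with Z jb Z6 c hc u V k ju cu xu u0 hV
  have h : Dt (Z / 300) Z c u V := ⟨P218I.cyl_of_dsc' hc (by linarith) (by linarith) (by linarith)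
    (by nlinarith), by linarith, ju, cu, xu, hV⟩
  have Z0 : 0 < Z := by linarith
  have mZ : Z ∈ Icc (Z / 300) Z := ⟨by linarith, le_rfl⟩
  refine ⟨fun y hy => h.cj hy y.2, fun v hv hb => ?_⟩
  have top : co (V 0) 0 Z = vb Z c := by
    rw [P218W.co_congr (G := fun _ => vb Z c) (fun θ => by rw [hV, u0, add_zero]; rfl) 0,
      P218W.co_z fun _ => vb Z c, if_pos rfl]
  obtain ⟨b1, b2⟩ := jb c hc v (Prf.aa c Z * Prf.bb Z Z) (fun θ => V 3 (Z, θ)) hv (h.ad 3 Z mZ).1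
    (by rw [av_co, ← top]; exact (h.circ mZ).1.p1)
    (by rw [av_co, ← top]; exact (h.circ mZ).1.bp) (wp h.cyl h.R4 mZ).jb
    (by simpa [Bc, Pc, mn, P218Q.av] using hb)
  rw [av_co] at b1
  have d := h.mj.d 0
  rw [interior_Icc] at d
  refine ⟨fun v1 => ?_, fun he O hO => ⟨co (V 0) 0, co (V 3) 0, co (V 5) 0,
    contOn_co (h.cV 0) 0, contOn_co (h.cV 3) 0, fun s hs => (d s hs).1, fun s hs => (d s hs).2,
    fun s hs => ?_, top, b1.trans (by gcongr; linarith), fun m hm => ?_⟩⟩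
  · have := b2 v1
    subst v1
    simp only [DF, Df, Qc, mn, P218Q.av, Complex.ofReal_one, sub_self, zero_mul, one_mul, add_zero,
      zero_add, mul_one] at this ⊢
    refine this.trans ?_
    gcongr <;> linarith
  · have hs' := Ioo_subset_Icc_self hs
    obtain ⟨k, -, a, -⟩ := h.circ hs'
    have w := wp h.cyl h.R4 hs'
    have s0 : 0 < s := by linarith [hs.1]
    have q0 : 0 < √s := Real.sqrt_pos.2 s0
    have q1 : 180 / √s ≤ 3600 / √Z := by
      rw [div_le_div_iff₀ q0 (Real.sqrt_pos.2 Z0)]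
      linarith [(Real.sqrt_le_left (y := 20 * √s) (by positivity)).2
        (show Z ≤ _ by rw [mul_pow, w.q2]; linarith [hs.1])]
    have L0 := w.L0
    have a0 := w.a0
    have b1 := w.b1
    refine (h₁ s _ _ _ _ _ _ _ _ _ _ _ k fun θ => ?_).trans ((mul_le_mul (le_abs_self _)
      ((w.eq (norm_nonneg _) a).trans (add_le_add_right (mul_le_mul_of_nonneg_right q1 L0.le) _))
      (by positivity) p₁).trans ?_)
    · have := he (s, θ) hs
      simp only [Ef, te, vv, vD, zero_mul, mul_zero, zero_div, sub_zero, div_one, one_pow,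
        one_mul] at this
      linear_combination this
    · rw [mul_add, ← mul_assoc, ← mul_div_assoc, ← mul_div_assoc]
      refine add_le_add ?_ (mul_le_mul_of_nonneg_right ?_ L0.le) <;> gcongr <;> linarith
  · refine (norm_sub_le_norm_sub_add_norm_sub _ _ _).trans ((add_le_add (hO m hm)
      (h.obs p₂ (fun m s V p q a b c V0 p0 a0 a1 a2 k l => (h₂ m s V p q a b c V0 p0 a0 a1 a2 k
        l).trans (by gcongr; exact le_abs_self _)) rfl hm)).trans ?_)
    rw [← add_div, ← add_mul]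
    gcongr ?_ * _ / _
    linarith [le_abs_self K]

end Vale.Agent.P218N
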