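import Vale.Agent.P218N.Sh

/-! Block NL: regularity of the ansatz and of the equation, quasilinearity, first variation on
jets. -/

open Set Filter Topology
open scoped ContDiff

set_option linter.unusedSectionVars false

noncomputable section

namespace Vale.Agent.P218N

open Vale.Agent.P218H (J1 sa)

theorem cd_cx {n : WithTop ℕ∞} {x : E3} : ContDiffAt ℝ n cx x :=
  contDiffAt_pi.2 fun i => Complex.ofRealCLM.contDiff.contDiffAt.comp x
    (EuclideanSpace.proj i : E3 →L[ℝ] ℝ).contDiff.contDiffAt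

theorem cd_grad {w : E3 → ℝ} {x : E3} (h : ContDiffAt ℝ ∞ w x) : ContDiffAt ℝ ∞ (gradient w) x :=
  (InnerProductSpace.toDual ℝ E3).symm.contDiff.contDiffAt.comp x (h.fderiv_right (by simp))

theorem cd_nu {w : E3 → ℝ} {x : E3} (h : ContDiffAt ℝ ∞ w x) : ContDiffAt ℝ ∞ (nu w) x :=
  cd_cx.comp x (cd_grad h)

theorem cd_rh0 {x : E3} : ContDiffAt ℝ ∞ rh0 x :=
  Complex.ofRealCLM.contDiff.contDiffAt.comp x
    (((contDiff_norm_sq ℝ).neg.div_const 4).exp.contDiffAt)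

theorem hd_lk {k s : ℂ} (h : k + Complex.exp (-s / 4) ≠ 0) : HasDerivAt (lk k) (lk' k s) s := by
  have h1 := (((hasDerivAt_id s).neg.div_const 4).cexp.const_add k).fun_pow 2
  refine ((hasDerivAt_const s (k ^ 2)).fun_div h1 (pow_ne_zero 2 h)).congr_deriv ?_
  simp only [lk', id, Pi.neg_apply, Nat.add_one_sub_one, pow_one] at h ⊢
  generalize Complex.exp (-s / 4) = e at h ⊢
  field_simp
  push_cast
  ring

section

variable {E P : Type*} [NormedAddCommGroup E] [NormedSpace ℝ E] [NormedAddCommGroup P]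
  [NormedSpace ℝ P] [NormedSpace ℂ P] [IsScalarTower ℝ ℂ P] {z : E × P} {k s : E × P → ℂ}

theorem SH.lk (h : SH k z) (h' : SH s z) (n : k z + Complex.exp (-s z / 4) ≠ 0) :
    SH (fun q => lk (k q) (s q)) z :=
  (h.pow 2).div ((h.add (h'.neg.div (.const 4) (by norm_num)).exp).pow 2) (pow_ne_zero 2 n)

theorem SH.lk' (h : SH k z) (h' : SH s z) (n : k z + Complex.exp (-s z / 4) ≠ 0) :
    SH (fun q => lk' (k q) (s q)) z :=
  have e := (h'.neg.div (.const 4) (by norm_num)).exp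
  ((h.pow 2).mul e).div ((SH.const 2).mul ((h.add e).pow 3))
    (mul_ne_zero two_ne_zero (pow_ne_zero 3 n))

variable {B : Type*} [NormedAddCommGroup B] [NormedSpace ℝ B] [NormedSpace ℂ B]
  [IsScalarTower ℝ ℂ B] {G : E3 × ℂ × B → V3} {g : E → E3} {j : E × P → Jt} {t : E × P → B}

theorem SH.jA (h : SH G (g z.1, j z none none, t z)) (hg : ContDiffAt ℝ ∞ g z.1) (hj : SH j z)
    (ht : SH t z) : SH (fun q => jA G (g q.1) (j q) (t q)) z :=
  have c := ((hj.ap none).ap none).prodMk ht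
  .pi fun b => ((h.dB b).comp hg c).add (((hj.ap none).ap (some b)).smul (h.dF.comp hg c))

theorem SH.jA2 (h : SH G (g z.1, j z none none, t z)) (hg : ContDiffAt ℝ ∞ g z.1) (hj : SH j z)
    (ht : SH t z) : SH (fun q => jA2 G (g q.1) (j q) (t q)) z :=
  .pi fun c => .pi fun b => ((((h.dB b).jA hg hj ht).ap c).add
    (((hj.ap none).ap (some b)).smul ((h.dF.jA hg hj ht).ap c))).add
    (((hj.ap (some c)).ap (some b)).smul (h.dF.comp hg (((hj.ap none).ap none).prodMk ht)))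

theorem SH.mix {j' : E × P → Jt} (h : SH j z) (h' : SH j' z) : SH (fun q => mix (j q) (j' q)) z :=
  .pi fun i => .pi fun i' => by
    rcases i with _ | c <;> rcases i' with _ | b
    exacts [(h.ap _).ap _, (h.ap _).ap _, (h.ap _).ap _, (h'.ap _).ap _]

end

section

variable {B : Type*} [NormedAddCommGroup B] [NormedSpace ℝ B] [NormedSpace ℂ B]
  [IsScalarTower ℝ ℂ B] {G : E3 × ℂ × B → V3} {z : E3 × ℂ × B} {φ φ' : E3 → ℂ} {x : E3} {t t' : B}

theorem SH.comm (h : SH G z) (u v : E3 × ℂ × B) :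
    _root_.fderiv ℝ (fun q => _root_.fderiv ℝ G q u) z v =
      _root_.fderiv ℝ (fun q => _root_.fderiv ℝ G q v) z u := by
  have c : ContDiffAt ℝ 2 G z := by exact_mod_cast (h.ev 2).self_of_nhds
  have d := (c.fderiv_right (m := 1) (by norm_num)).differentiableAt one_ne_zero
  rw [fderiv_clm_apply d (differentiableAt_const _), fderiv_clm_apply d (differentiableAt_const _)]
  simpa using (c.isSymmSndFDerivAt (by simp)).eq v u

/-- the derivative in the direction of the parameters -/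
def dT (t' : B) (G : E3 × ℂ × B → V3) (z : E3 × ℂ × B) : V3 := fderiv ℝ G z (0, 0, t')

theorem SH.dT (h : SH G z) (t' : B) : SH (dT t' G) z := h.fderiv _

/-- the variation field -/
def yv (G : E3 × ℂ × B → V3) (φ φ' : E3 → ℂ) (t t' : B) (x : E3) : V3 :=
  φ' x • dF G (x, φ x, t) + dT t' G (x, φ x, t)

theorem SH.hd {a a' : ℂ} (h : SH G (x, a, t)) {f : ℂ → ℂ} {g : ℂ → B} {s : ℂ}
    (hf : HasDerivAt f a' s) (hg : HasDerivAt g t' s) (e : f s = a) (e' : g s = t) :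
    HasDerivAt (fun s => G (x, f s, g s)) (a' • P218N.dF G (x, a, t) + P218N.dT t' G (x, a, t)) s := by
  subst e e'
  refine (h.at_.hasFDerivAt.comp_hasDerivAt s (hf.prodMk hg)).congr_deriv ?_
  rw [← SH.part (h.sm.differentiableAt (by simp)) h.at_, P218N.dF, P218N.dT, ← h.lin.self_of_nhds,
    ← map_add]
  simp

theorem SH.cd_yv (h : SH G (x, φ x, t)) {n : ℕ} (hφ : ContDiffAt ℝ n φ x)
    (hφ' : ContDiffAt ℝ n φ' x) : ContDiffAt ℝ n (yv G φ φ' t t') x :=
  (contDiffWithinAt_univ.1 (cd_smul hφ'.contDiffWithinAt (h.dF.cd hφ).contDiffWithinAt)).add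
    ((h.dT t').cd hφ)

theorem SH.pd_yv (h : SH G (x, φ x, t)) (hφ : ContDiffAt ℝ (1 : ℕ) φ x)
    (hφ' : DifferentiableAt ℝ φ' x) (b : Fin 3) :
    P218N.pd (yv G φ φ' t t') x b = yv (P218N.dB b G) φ φ' t t' x
      + P218N.pd φ' x b • P218N.dF G (x, φ x, t)
      + P218N.pd φ x b • yv (P218N.dF G) φ φ' t t' x := by
  have d := hφ.differentiableAt (by simp)
  have a1 := (h.dF.cd hφ).differentiableAt (by simp)
  have a2 := ((h.dT t').cd hφ).differentiableAt (by simp)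
  refine pd_eq ((hφ'.smul a1).add a2) ?_
  have := (hd_smul (hd_pd hφ' b) (hd_pd a1 b)).fun_add (hd_pd a2 b)
  simp only [zero_smul, add_zero, h.dF.pd d, (h.dT t').pd d] at this
  refine this.congr_deriv ?_
  have e1 : P218N.dB b (P218N.dF G) (x, φ x, t) = P218N.dF (P218N.dB b G) (x, φ x, t) := h.comm _ _
  have e2 : P218N.dB b (P218N.dT t' G) (x, φ x, t) = P218N.dT t' (P218N.dB b G) (x, φ x, t) :=
    h.comm _ _
  have e3 : P218N.dF (P218N.dT t' G) (x, φ x, t) = P218N.dT t' (P218N.dF G) (x, φ x, t) :=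
    h.comm _ _
  change _ • _ + φ' x • (P218N.dB b _ (x, φ x, t) + P218N.pd φ x b • P218N.dF _ (x, φ x, t)) +
    (P218N.dB b _ (x, φ x, t) + P218N.pd φ x b • P218N.dF _ (x, φ x, t)) = _
  rw [e1, e2, e3, yv, yv]
  module

/-- **the first derivatives along a curve of jets** -/
theorem SH.hd_jA (h : SH G (x, φ x, t)) (hφ : ContDiffAt ℝ (1 : ℕ) φ x)
    (hφ' : DifferentiableAt ℝ φ' x) {j : ℂ → Jt} {g : ℂ → B} {s : ℂ}
    (h0 : HasDerivAt (fun s => j s none none) (φ' x) s)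
    (h1 : ∀ b, HasDerivAt (fun s => j s none (some b)) (P218N.pd φ' x b) s)
    (hg : HasDerivAt g t' s) (e : ∀ i, j s none i = jt φ x none i) (e' : g s = t) :
    HasDerivAt (fun s => P218N.jA G x (j s) (g s)) (P218N.pd (yv G φ φ' t t') x) s := by
  refine hasDerivAt_pi.2 fun b => ?_
  have := ((h.dB b).hd h0 hg (e none) e').fun_add (hd_smul (h1 b) (h.dF.hd h0 hg (e none) e'))
  refine this.congr_deriv ?_
  rw [h.pd_yv hφ hφ', e none, e (some b), e', add_assoc (yv _ _ _ _ _ _)]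
  rfl

end

/-- the second order part of `ee` -/
def e2l (A : Fin 3 → V3) (m F : V3) (j : Jt) : ℂ :=
  bb A (fun c b => j (some c) (some b) • F) m 0 / gg A m

theorem e2l_lin (A : Fin 3 → V3) (m F : V3) (a a' : ℂ) (j j' : Jt) :
    e2l A m F (a • j + a' • j') = a * e2l A m F j + a' * e2l A m F j' := by
  have e : dn A (fun c b => (a • j + a' • j') (some c) (some b) • F) m 0 =
      a • dn A (fun c b => j (some c) (some b) • F) m 0 +
        a' • dn A (fun c b => j' (some c) (some b) • F) m 0 := by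
    funext c
    have z : nn A 0 = 0 := by simp [nn]
    simp only [dn, Pi.add_apply, Pi.smul_apply, Pi.zero_apply, z, add_zero, kk_comm A, ← smul_kk,
      ← kk_add]
    congr 1
    funext b
    simp [add_smul, mul_smul]
  rw [e2l, e2l, e2l, bb, bb, bb, e, kk_add, smul_kk, smul_kk, dt_add, dt_smul, dt_smul]
  ring

theorem ee_add (θ : ℂ) (X : V3) (A : Fin 3 → V3) (A₂ : Fin 3 → Fin 3 → V3) (m : V3)
    (m₁ : Fin 3 → V3) (F : V3) (j : Jt) :
    ee θ X A (fun c b => A₂ c b + j (some c) (some b) • F) m m₁ =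
      ee θ X A A₂ m m₁ + 2 * e2l A m F j := by
  have : bb A (fun c b => A₂ c b + j (some c) (some b) • F) m m₁ =
      bb A A₂ m m₁ + bb A (fun c b => j (some c) (some b) • F) m 0 := by
    have e : dn A (fun c b => A₂ c b + j (some c) (some b) • F) m m₁ =
        dn A A₂ m m₁ + dn A (fun c b => j (some c) (some b) • F) m 0 := by
      funext c
      have z : nn A 0 = 0 := by simp [nn]
      simp only [dn, Pi.add_apply, Pi.zero_apply, z, add_zero, kk_comm A]
      rw [show (fun b => A₂ c b + j (some c) (some b) • F) =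
        A₂ c + fun b => j (some c) (some b) • F from rfl, kk_add]
      abel
    rw [bb, bb, bb, e, kk_add, dt_add]
    ring
  rw [ee, ee, this, e2l]
  ring

theorem mix_self (j : Jt) : mix j j = j := by
  funext i i'
  rcases i with _ | c <;> rcases i' with _ | b <;> rfl

namespace AD

variable {ι α : Type} [Fintype ι] [Fintype α] (D : AD ι α)

/-- the coefficient of the second derivatives in the remainder -/
def Aq (x : E3) (j : Jt) (t : Pi' ι α) (j' : Jt) : ℂ :=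
  e2l (jA D.XX x j t) (nu D.w x) (dF D.XX (x, j none none, t)) j'
    - ∑ c, ∑ b, sa D.w (some c) (some b) x • j' (some c) (some b)

theorem Aq_lin (x : E3) (j : Jt) (t : Pi' ι α) (a a' : ℂ) (j' j'' : Jt) :
    D.Aq x j t (a • j' + a' • j'') = a * D.Aq x j t j' + a' * D.Aq x j t j'' := by
  simp only [Aq, e2l_lin, Fin.sum_univ_three, Pi.add_apply, Pi.smul_apply, smul_eq_mul,
    Complex.real_smul]
  ring

/-- **quasilinearity** -/
theorem Rm_mix (x : E3) (j j' : Jt) (t : Pi' ι α) :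
    D.Rm x (mix j j') t = D.Rm x (mix j 0) t + D.Aq x j t j' := by
  have e : jA2 D.XX x (mix j j') t = fun c b => jA2 D.XX x (mix j 0) t c b +
      j' (some c) (some b) • dF D.XX (x, j none none, t) := by
    funext c b
    simp only [jA2, jA, mix, Pi.zero_apply, zero_smul, add_zero]
  simp only [Rm, E, Ln, Aq, e, ee_add, Fintype.sum_option, mix, Pi.zero_apply, smul_zero,
    Finset.sum_const_zero, add_zero, Finset.sum_add_distrib,
    show ∀ j', jA D.XX x (mix j j') t = jA D.XX x j t from fun _ => rfl]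
  ring

/-- the ansatz is regular at `(x, φ, t)` -/
structure Rg (x : E3) (φ : ℂ) (t : Pi' ι α) : Prop where
  w : ContDiffAt ℝ ∞ D.w x
  a : ContDiffAt ℝ ∞ D.a x
  lam : ∀ j, ContDiffAt ℝ ∞ (D.lam j) x
  rot : ∀ j, ContDiffAt ℝ ∞ (D.rot j) x
  sh : ∀ j, ContDiffAt ℝ ∞ (D.sh j) x
  ze : ∀ j, ContDiffAt ℝ ∞ (D.ze j) x
  cyl : ∀ j, (D.lam j =ᶠ[𝓝 x] fun _ => 0) ∨ ContDiffAt ℝ ∞ (D.VS j) x ∧ ContDiffAt ℝ ∞ (D.rS j) x ∧
    ContDiffAt ℝ ∞ (D.q j) x ∧ ContDiffAt ℝ ∞ (D.er j) x ∧ D.q j x ≠ 0 ∧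
    D.VS j x + φ / D.q j x ∈ Complex.slitPlane
  cay : 4 + dt (D.ov x t) (D.ov x t) ≠ 0

/-- the denominators of the weight do not vanish -/
structure Rw (x : E3) (t : Pi' ι α) (s : ℂ) : Prop where
  k : ∀ l, (D.ze l =ᶠ[𝓝 x] fun _ => 0) ∨ t.2.2.2.2 l + Complex.exp (-s / 4) ≠ 0
  g : D.gw x t s ≠ 0

variable {D} {x p : E3} {φ : ℂ} {t : Pi' ι α}

theorem Rg.ov (h : D.Rg x φ t) : SH (fun z : E3 × ℂ × Pi' ι α => D.ov z.1 z.2.2) (x, φ, t) :=
  .sum _ fun j => (SH.real (h.rot j)).smul (((SH.snd.p2.p1.ap _).smul (.const _)).add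
    ((SH.snd.p2.p1.ap _).smul (.const _)))

theorem Rg.X0 (h : D.Rg x φ t) : SH D.X0 (x, φ, t) := by
  refine (((SH.fst cd_cx).add (SH.snd.p1.smul (.fst h.a))).add (.sum _ fun j => ?_)).add
    (.sum _ fun j => ((SH.snd.p2.p2.p2.p1.ap j).mul (.real (h.sh j))).smul (.const _))
  rcases h.cyl j with e | ⟨a, b, c, d, e, f⟩
  · exact (SH.const 0).congr (((continuousAt_fst (p := (x, φ, t))).eventually
      (show ∀ᶠ y in 𝓝 x, D.lam j y = 0 from e)).mono fun q k => by simp [k])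
  · exact ((SH.real (h.lam j)).mul ((((SH.fst a).add (SH.snd.p1.div (.fst c) e)).sqrt f).sub
      (.fst b))).smul (.fst d)

theorem Rg.XX (h : D.Rg x φ t) : SH D.XX (x, φ, t) := h.ov.cay h.X0 h.cay

theorem ov_zero (x : E3) (t : Pi' ι α) (h : ∀ j, D.rot j x = 0 ∨ t.1 = 0) : D.ov x t = 0 :=
  Finset.sum_eq_zero fun j _ => by rcases h j with e | e <;> simp [e]

theorem Ok.rg (h : D.Ok p) (ht : t.1 = 0) : D.Rg p 0 t :=
  ⟨h.w, h.a, h.lam, h.rot, h.sh, h.ze, fun j => (h.cyl j).imp_right fun k =>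
    ⟨k.1, k.2.1, k.2.2.1, k.2.2.2.1, k.2.2.2.2.1, by simpa using k.2.2.2.2.2.1⟩,
    by simp [ov_zero p t fun _ => .inr ht, dt]⟩

section

variable {E' P : Type*} [NormedAddCommGroup E'] [NormedSpace ℝ E'] [NormedAddCommGroup P]
  [NormedSpace ℝ P] [NormedSpace ℂ P] [IsScalarTower ℝ ℂ P] {z : E' × P} {g : E' → E3}
  {j : E' × P → Jt} {u : E' × P → Pi' ι α} {s : E' × P → ℂ}

theorem Rg.sX (h : D.Rg (g z.1) (j z none none) (u z)) (hg : ContDiffAt ℝ ∞ g z.1) (hj : SH j z)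
    (hu : SH u z) : SH (fun q => D.XX (g q.1, j q none none, u q)) z :=
  h.XX.comp hg (((hj.ap none).ap none).prodMk hu)

theorem zl {f : E3 → ℝ} {F : E' × P → ℂ} {A : Prop} (hf : ContDiffAt ℝ ∞ f (g z.1))
    (hg : ContDiffAt ℝ ∞ g z.1) (k : (f =ᶠ[𝓝 (g z.1)] fun _ => 0) ∨ A) (hF : A → SH F z) :
    SH (fun q => (f (g q.1) : ℂ) * F q) z := by
  rcases k with e | n
  · exact (SH.const 0).congr (((hg.continuousAt.comp continuousAt_fst).eventually
      (show ∀ᶠ y in 𝓝 (g z.1), f y = 0 from e)).mono fun q k => by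
        simp [show f (g q.1) = 0 from k])
  · exact (SH.real (hf.comp _ hg)).mul (hF n)

theorem Rg.gw (h : D.Rg (g z.1) φ (u z)) (k : D.Rw (g z.1) (u z) (s z))
    (hg : ContDiffAt ℝ ∞ g z.1) (hu : SH u z) (hs : SH s z) :
    SH (fun q => D.gw (g q.1) (u q) (s q)) z :=
  (SH.const 1).add (.sum _ fun l => (hu.p2.p2.p2.p1.ap l).mul
    (zl (h.ze l) hg (k.k l) ((hu.p2.p2.p2.p2.ap l).lk hs)))

theorem Rg.Om (h : D.Rg (g z.1) φ (u z)) (k : D.Rw (g z.1) (u z) (s z))
    (hg : ContDiffAt ℝ ∞ g z.1) (hu : SH u z) (hs : SH s z) :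
    SH (fun q => D.Om (g q.1) (u q) (s q)) z :=
  (hs.neg.div (.const 4) (by norm_num)).exp.mul (h.gw k hg hu hs)

theorem Rg.th (h : D.Rg (g z.1) φ (u z)) (k : D.Rw (g z.1) (u z) (s z))
    (hg : ContDiffAt ℝ ∞ g z.1) (hu : SH u z) (hs : SH s z) :
    SH (fun q => D.th (g q.1) (u q) (s q)) z :=
  (SH.const 1).sub (((SH.const 4).mul (.sum _ fun l => (hu.p2.p2.p2.p1.ap l).mul
    (zl (h.ze l) hg (k.k l) ((hu.p2.p2.p2.p2.ap l).lk' hs)))).div
      (h.gw k hg hu hs) k.g)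

theorem Rg.lw (h : D.Rg (g z.1) φ (u z)) (k : D.Rw (g z.1) (u z) (s z))
    (hg : ContDiffAt ℝ ∞ g z.1) (hu : SH u z) (hs : SH s z) :
    SH (fun q => D.lw (g q.1) (u q) (s q)) z :=
  .pi fun c => (SH.sum _ fun l => (hu.p2.p2.p2.p1.ap l).mul
    (zl (f := fun x => pd (D.ze l) x c) (contDiffAt_pi.1 (cd_pd (h.ze l) (k := ∞) (by simp)) c) hg
      ((k.k l).imp_left fun e => (pd_congr' e).mono fun y e => by simp [e, pd_const])
      ((hu.p2.p2.p2.p2.ap l).lk hs))).div (h.gw k hg hu hs) k.g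

theorem Rg.Wj (h : D.Rg (g z.1) (j z none none) (u z)) (hg : ContDiffAt ℝ ∞ g z.1) (hj : SH j z)
    (hu : SH u z) (n : gg (jA D.XX (g z.1) (j z) (u z)) (nu D.w (g z.1)) ∈ Complex.slitPlane) :
    SH (fun q => D.Wj (g q.1) (j q) (u q)) z :=
  ((h.XX.jA hg hj hu).gg (.fst ((cd_nu h.w).comp _ hg))).sqrt n

end

end AD

end Vale.Agent.P218N
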