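import Vale.Agent.P218N.Spec2

/-! Block NL: the jets in the core equation. -/

open Set Filter Topology Metric MeasureTheory
open scoped ContDiff

noncomputable section

namespace Vale.Agent.P218N

open Vale.Agent.P218H (J1 HH Core EndD C1a C2a f1 f2 dd_ev dd2_clm cm op kit' cmf
  dd_chain f1_dd f2_dd f2_cd st_one st_zero avg cm_one)
open Vale.Agent.P272.K.LIN (Hol)
open ContinuousLinearMap

namespace JcAux

theorem jt_congr {f g : E3 → ℂ} {x : E3} (h : f =ᶠ[𝓝 x] g) : jt f x = jt g x :=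
  funext fun i => funext fun j => (dd_ev (dd_ev h j) i).eq_of_nhds

theorem jt_add {f g : E3 → ℂ} {x : E3} (hf : ContDiffAt ℝ 2 f x) (hg : ContDiffAt ℝ 2 g x) :
    jt (fun y => f y + g y) x = jt f x + jt g x := funext fun i => funext fun j =>
  (dd2_clm (fst ℝ ℂ ℂ + snd ℝ ℂ ℂ) (hf.prodMk hg) i j).trans (congrArg₂ (· + ·)
    (dd2_clm (fst ℝ ℂ ℂ) (hf.prodMk hg) i j).symm (dd2_clm (snd ℝ ℂ ℂ) (hf.prodMk hg) i j).symm)

theorem jt_cm {χ : E3 → ℝ} (hχ : ContDiff ℝ ∞ χ) (i j : J1 3) : ∃ e : J1 3 → E3 → ℝ,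
    (∀ l, ContDiff ℝ ∞ (e l)) ∧ ∀ (f : E3 → ℂ) x, ContDiffAt ℝ 2 f x →
      jt (fun y => χ y • f y) x i j - χ x • jt f x i j = ∑ l, e l x • P218H.dd l f x := by
  obtain ⟨e, h1, -, h2⟩ := cmf 3 (fun i' j' _ => if i' = i then if j' = j then 1 else 0 else 0) χ
    (fun _ _ => contDiff_const) hχ
  refine ⟨e, h1, fun f x hf => ?_⟩
  rw [← h2 f x hf]
  simp [cm, op, jt]

section rep
variable {a : ℝ} {K : Set E3} {X : Type} [NormedAddCommGroup X] [NormedSpace ℂ X]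
  {Φ Ψ : X → E3 → ℂ}

/-- the family is given on `K` by a bounded operator with values in the Hölder space -/
def Rp (a : ℝ) (K : Set E3) (Φ : X → E3 → ℂ) : Prop :=
  ∃ P : X →L[ℂ] HH a K, ∀ x (y : K), P x y = Φ x y

theorem Rp.add (h : Rp a K Φ) (h' : Rp a K Ψ) : Rp a K fun x y => Φ x y + Ψ x y :=
  let ⟨P, h⟩ := h
  let ⟨Q, h'⟩ := h'
  ⟨P + Q, fun x y => congrArg₂ (· + ·) (h x y) (h' x y)⟩

theorem Rp.sum {ι : Type} [Fintype ι] {F : ι → X → E3 → ℂ} (h : ∀ i, Rp a K (F i)) :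
    Rp a K fun x y => ∑ i, F i x y := by
  choose P hP using h
  refine ⟨∑ i, P i, fun x y => ?_⟩
  rw [_root_.sum_apply, Hol.sum_apply]
  exact Finset.sum_congr rfl fun i _ => hP i x y

theorem Rp.cut (h : Rp a K Φ) {χ : E3 → ℝ} (g : HH a K) (hg : ∀ y : K, g y = χ y) :
    Rp a K fun x y => χ y • Φ x y :=
  let ⟨P, h⟩ := h
  ⟨LinearMap.mkContinuous ⟨⟨fun x => g * P x, fun x y => by rw [map_add, mul_add]⟩, fun c x =>
    Hol.ext fun y => by simp [mul_left_comm]⟩ (‖g‖ * ‖P‖) fun x => (norm_mul_le g (P x)).trans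
      (P218H.le_op P (norm_nonneg g) x), fun x y => by
    show g y * P x y = _
    rw [h, hg]
    rfl⟩

theorem Rp.congr (h : Rp a K Φ) (e : ∀ x y, Φ x y = Ψ x y) : Rp a K Ψ :=
  let ⟨P, h⟩ := h
  ⟨P, fun x y => (h x y).trans (e x y)⟩

end rep

variable {k : ℕ} {M : Type} [Fintype M] {c : Core 3 k M} {a : ℝ}

/-- the jets in the core equation, for two functions -/
def jf (c : Core 3 k M) (f g : E3 → ℂ) (p : E3) : Jt :=
  mix (jt (fun y => c.cc y • f y + c.ce y • g y) p)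
    (jt f p + jt (fun y => c.ce y • g y) p - c.ce p • jt g p)

theorem ex_T (h : c.Ok0) (a0 : 0 < a) (a1 : a ≤ 1) :
    ∃ T : C2a 3 a × C2a 3 0 →L[ℂ] (J1 3 × J1 3 → HH a c.K),
      ∀ z (y : c.K) i i', T z (i, i') y = jf c (f2 z.1) (f2 z.2) y i i' := by
  obtain ⟨-, -, ⟨rs, hrs⟩, ⟨dn, hdn⟩, hg, -⟩ := kit' 3 k M c h a a0 a1
  have A : ∀ i j, Rp a c.K fun (z : C2a 3 a × C2a 3 0) y => jt (f2 z.1) y i j := fun i j =>
    ⟨rs ∘L proj (φ := fun _ => HH a E3) j ∘L proj (φ := fun _ => J1 3 → HH a E3) i ∘L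
      (C2a 3 a).subtypeL ∘L fst ℂ _ _, fun z y =>
      (hrs (z.1.1 i j) y).trans (congrFun (f2_dd z.1 i j) y)⟩
  have B : ∀ i, Rp a c.K fun (z : C2a 3 a × C2a 3 0) y => P218H.dd i (f2 z.2) y := fun i =>
    ⟨rs ∘L proj i ∘L (C1a 3 a).subtypeL ∘L dn ∘L snd ℂ _ _, fun z y =>
      (hrs _ y).trans ((congrFun (f1_dd (dn z.2) i) y).trans (by rw [hdn]))⟩
  have S : ∀ (e : J1 3 → E3 → ℝ) (F : J1 3 → C2a 3 a × C2a 3 0 → E3 → ℂ),
      (∀ l, ContDiff ℝ ∞ (e l)) → (∀ l, Rp a c.K (F l)) →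
      Rp a c.K fun z y => ∑ l, e l y • F l z y := fun e F he hF => .sum fun l =>
    let ⟨g, hg⟩ := hg (fun y => (e l y : ℂ)) (Complex.ofRealCLM.contDiff.comp ((he l).of_le (by simp)))
    (hF l).cut g hg
  have two : ∀ {χ : E3 → ℝ}, ContDiff ℝ ∞ χ → ContDiff ℝ 2 χ := fun h => h.of_le P218H.two_le
  have L : ∀ j, Rp a c.K fun (z : C2a 3 a × C2a 3 0) y =>
      P218H.dd j (fun y => c.cc y • f2 z.1 y + c.ce y • f2 z.2 y) y := fun j => by
    obtain ⟨e, he, k1⟩ := dd_chain h.scc contDiff_id j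
    obtain ⟨e', he', k2⟩ := dd_chain h.sce contDiff_id j
    refine ((S e _ he (A none)).add (S e' _ he' B)).congr fun z y => ?_
    refine ((congrFun₂ (jt_add ((two h.scc).smul (f2_cd z.1)).contDiffAt
      ((two h.sce).smul (f2_cd z.2)).contDiffAt) none j).trans (congrArg₂ (· + ·)
      (k1 _ y ((f2_cd z.1).differentiable two_ne_zero y))
      (k2 _ y ((f2_cd z.2).differentiable two_ne_zero y)))).symm
  have H : ∀ q : J1 3 × J1 3, Rp a c.K fun (z : C2a 3 a × C2a 3 0) y =>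
      jf c (f2 z.1) (f2 z.2) y q.1 q.2 := by
    rintro ⟨_ | i, _ | j⟩
    exacts [L none, L (some j), L (some i), by
      obtain ⟨e, he, k1⟩ := jt_cm h.sce (some i) (some j)
      exact ((A (some i) (some j)).add (S e _ he B)).congr fun z y =>
        (congrArg (_ + ·) (k1 _ y (f2_cd z.2).contDiffAt).symm).trans (add_sub_assoc _ _ _).symm]
  choose P hP using H
  exact ⟨pi P, fun z y i i' => hP (i, i') z y⟩

omit [Fintype M] in
theorem lo_ev (h : c.Ok0) {v : E3 → ℂ} (hv : ∀ x, |c.ta x| < c.de → v x = v (c.pr x)) {y : E3}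
    (hy : y ∈ c.S) (h1 : c.r₀ < ‖y‖) (h2 : ‖y‖ < c.r + 6) : v =ᶠ[𝓝 y] c.lo v := by
  have t := h.tube
  have e1 : ∀ᶠ x in 𝓝 y, ‖c.pr x‖ ∈ Ioo c.r₀ (c.r + 6) :=
    t.spr.continuous.norm.continuousAt.eventually (Ioo_mem_nhds (by simpa [t.pr_self hy])
      (by simpa [t.pr_self hy]))
  have e2 : ∀ᶠ x in 𝓝 y, |c.ta x| < c.de / 4 :=
    t.sta.continuous.abs.continuousAt.eventually (Iio_mem_nhds (by
      simpa [(t.mem y).1 hy] using t.pos))
  filter_upwards [e1, e2] with x e1 e2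
  rw [Core.lo, st_one (sub_nonneg.2 h.one_le) (by linarith [e1.1]),
    st_zero (by linarith [h.one_le, h.r_le]) e1.2.le, h.ker.eh1 _ e2.le,
    ← hv x (by linarith [t.pos])]
  simp

omit [Fintype M] in
theorem jf_lo (h : c.Ok0) (f : E3 → ℂ) {v : E3 → ℂ} (hv : ∀ x, |c.ta x| < c.de → v x = v (c.pr x))
    {y : E3} (hy : y ∈ c.S) (h2 : ‖y‖ < c.r + 6) : jf c f (c.lo v) y = jf c f v y := by
  have e : (fun x => c.ce x • c.lo v x) =ᶠ[𝓝 y] (fun x => c.ce x • v x) ∧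
      c.ce y • jt (c.lo v) y = c.ce y • jt v y := by
    rcases le_or_gt ‖y‖ c.r₀ with h1 | h1
    · have e := (h.ce0 y hy h1).1
      exact ⟨e.mono fun x hx => by simp [hx], by simp [e.self_of_nhds]⟩
    · have e := lo_ev h hv hy h1 h2
      exact ⟨e.mono fun x hx => by simp [← hx], by rw [← jt_congr e]⟩
  rw [jf, jf, e.2, jt_congr e.1, jt_congr (f := fun x => c.cc x • f x + c.ce x • c.lo v x)
    (e.1.mono fun x hx => congrArg (c.cc x • f x + ·) hx)]

omit [Fintype M] in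
theorem cd_ce (h : c.Ok0) {g : E3 → ℂ} {y : E3} (hy : y ∈ c.S)
    (hg : ‖y‖ ≤ c.r₀ ∨ ContDiffAt ℝ 2 g y) : ContDiffAt ℝ 2 (fun x => c.ce x • g x) y := by
  rcases hg with h1 | h1
  · exact (contDiffAt_const (c := 0)).congr_of_eventuallyEq
      ((h.ce0 y hy h1).1.mono fun x hx => by simp [hx])
  · exact (h.sce.contDiffAt.of_le P218H.two_le).smul h1

omit [Fintype M] in
theorem glue (h : c.Ok0) {f g : E3 → ℂ} {y : E3} (hy : y ∈ c.S)
    (h1 : ContDiffAt ℝ 2 (fun x => c.cc x • f x) y) (h2 : ContDiffAt ℝ 2 (fun x => c.ce x • g x) y)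
    {ι α : Type} [Fintype ι] [Fintype α] (A : AD ι α)
    (t : Pi' ι α) (j : Jt) (e : j = jt (fun x => c.cc x • f x + c.ce x • g x) y) :
    c.cc y * A.Rm y (mix j (jt f y + jt (fun x => c.ce x • g x) y - c.ce y • jt g y)) t
      + c.ce y * (A.Rm y (mix j (jt g y + jt (fun x => c.cc x • f x) y - c.cc y • jt f y)) t
        - c.cc y * A.Rm y (mix j 0) t) = A.Rm y j t := by
  rw [jt_add h1 h2] at e
  have k : (c.cc y : ℂ) + c.ce y - c.cc y * c.ce y = 1 ∧
      (c.cc y : ℂ) • (jt f y + jt (fun x => c.ce x • g x) y - c.ce y • jt g y)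
        + (c.ce y : ℂ) • (jt g y + jt (fun x => c.cc x • f x) y - c.cc y • jt f y) = j := by
    rcases h.cce y hy with k | k
    · rw [e, jt_congr (f := fun x => c.cc x • f x) (g := f) (k.mono fun x hx => by simp [hx]),
        k.self_of_nhds]
      exact ⟨by simp, by simp [Complex.coe_smul]⟩
    · rw [e, jt_congr (f := fun x => c.ce x • g x) (g := g) (k.mono fun x hx => by simp [hx]),
        k.self_of_nhds]
      exact ⟨by simp, by simp [Complex.coe_smul, add_comm]⟩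
  have k2 := A.Rm_mix y j j t
  have k3 := A.Aq_lin y j t (c.cc y) (c.ce y)
    (jt f y + jt (fun x => c.ce x • g x) y - c.ce y • jt g y)
    (jt g y + jt (fun x => c.cc x • f x) y - c.cc y • jt f y)
  rw [mix_self] at k2
  rw [k.2] at k3
  rw [k2, A.Rm_mix y j (jt f y + _ - _), A.Rm_mix y j (jt g y + _ - _), k3]
  linear_combination A.Rm y (mix j 0) t * k.1

/-- the equation on the surface which follows from the core equation -/
theorem core_eq (h : c.Ok0) {β s : ℝ} {b : J1 3 → J1 3 → E3 → ℝ} {D : EndD 3 M β} {x : D.XX a k}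
    {F : E3 → ℂ} (hF : Continuous F) (hb : c.AmbOf b)
    (e : ∀ y, F y = s • f2 x.1 y - op b (f2 x.1) y + c.ext (D.low c s x) y) {p : E3}
    (hp : p ∈ c.S) (h5 : ‖p‖ ≤ c.r + 3) :
    op c.a (c.wf c.et (f2 x.1)) p + cm c.a c.ce (D.ev x.2.1) p
      + (∑ i, x.2.2.1 i * c.b i p - ∑ i, x.2.2.2 i * c.ψ i p) = - avg c.et c.pr c.nu F p := by
  have r1 := h.one_le
  have r2 := h.r_le
  have v2 := f2_cd x.1
  have w (η : ℝ → ℝ) : c.wf η (f2 x.1) =ᶠ[𝓝 p] avg η c.pr c.nu (f2 x.1) :=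
    (P218H.st_ev_zero (c := c.r + 7) (by linarith) (by linarith)).mono fun y hy => by
      simp [Core.wf, hy]
  have c1 := v2.continuous
  have c2 := P218H.Mp.op_cont hb.sm v2
  have c3 : Continuous (c.ext (D.low c s x)) := by
    have : c.ext (D.low c s x) = fun y => F y - s • f2 x.1 y + op b (f2 x.1) y :=
      funext fun y => by rw [e]; ring
    rw [this]
    exact (hF.sub (c1.const_smul s)).add c2
  have i := fun {g : E3 → ℂ} (hg : Continuous g) => P218H.Mp.avg_int h hg p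
  have e' : avg c.et c.pr c.nu F p = s • avg c.et c.pr c.nu (f2 x.1) p
      - avg c.et c.pr c.nu (op b (f2 x.1)) p + avg c.et c.pr c.nu (c.ext (D.low c s x)) p := by
    simp only [avg, e, smul_add, smul_sub, smul_comm _ s]
    exact (integral_add (((i c1).smul s).sub (i c2)) (i c3)).trans
      (congrArg (· + _) ((integral_sub ((i c1).smul s) (i c2)).trans
        (congrArg (· - _) (integral_smul s fun t => c.et t • f2 x.1 _))))
  rw [e', (P218H.ext' 3 k M c h).2.1 _ p hp (by linarith), hb.comm _ v2 p hp (by linarith),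
    EndD.low, (w _).eq_of_nhds, (w _).eq_of_nhds, P218H.op_congr (w _),
    show c.ka p = 0 from st_zero (by linarith) h5]
  simp only [Complex.real_smul]
  push_cast
  ring

end JcAux

open JcAux

theorem jc' : JC := fun k M _ c h a β a0 a1 => by
  obtain ⟨T, hT⟩ := ex_T h a0 a1
  obtain ⟨⟨W, hW⟩, -⟩ := kit' 3 k M c h a a0 a1
  obtain ⟨C', C0, hC⟩ := P218H.loc P218H.mul 3 k M c h
  refine ⟨‖T‖ * (‖W‖ + 2 * C'), by positivity, fun D hv h2 ⟨C, h3⟩ => ?_⟩
  have hb := fun v A A0 (k : ∀ y ∈ c.S, c.r₀ - 1 ≤ ‖y‖ → ‖y‖ ≤ c.r + 7 → ‖jt (D.ev v) y‖ ≤ A) =>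
    (hC _ (h2 v)).2.2.2.2 A A0 fun y hy k1 k2 i j => (norm_le_pi_norm (jt (D.ev v) y i) j).trans
      ((norm_le_pi_norm _ i).trans (k y hy k1 k2))
  obtain ⟨L, -, hL⟩ := P218H.ex_L2 (α := 0) (fun v => c.lo (D.ev v))
    (fun v w => funext fun x => by simp [Core.lo])
    (fun a v => funext fun x => by simp [Core.lo, mul_left_comm]) (C := C' * |C|) (by positivity)
    fun v => mul_assoc C' _ _ ▸ hb v _ (by positivity) fun y hy k1 k2 => (h3 v y hy k1 k2).trans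
      (mul_le_mul_of_nonneg_right (le_abs_self C) (norm_nonneg _))
  refine ⟨T ∘L (W ∘L fst ℂ _ _).prod (L ∘L fst ℂ _ _ ∘L snd ℂ _ _), fun x y hy i i' =>
    (hT _ y i i').trans (congrFun₂ ((congrArg₂ (jf c · · y) (hW _) (hL _)).trans
      (jf_lo h _ (hv x.2.1) y.2.1 hy)) i i'), fun x A k1 k2 => (T.le_opNorm _).trans ?_⟩
  have k0 := (norm_nonneg _).trans k1
  rw [mul_assoc]
  refine mul_le_mul_of_nonneg_left (max_le ?_ ?_) (norm_nonneg _)
  · exact (W.le_opNorm x.1).trans (mul_le_mul (le_add_of_nonneg_right (by positivity)) k1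
      (norm_nonneg _) (by positivity))
  · refine (P218H.norm_le_b2 (F := L x.2.1) (hL _ ▸ hb _ A k0 k2)).trans ?_
    nlinarith [mul_nonneg W.opNorm_nonneg k0]

theorem sng : SNG := fun k ι _ c h a β s b D A x t F a0 hb ea eb eψ e1 e2 k1 k2 y hy h5 h6 k3 => by
  have P := core_eq h ((P218H.hm_hol F).cont a0) hb k1 hy h5
  rw [show (F : E3 → ℂ) = _ from funext k2, (P218H.ext' 3 k _ c h).2.1 _ y hy (by linarith)] at P
  have d1 : ContDiffAt ℝ 2 (fun p => c.cc p • c.wf c.et (f2 x.1) p) y :=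
    ((h.scc.of_le P218H.two_le).smul ((contDiff_const.sub ((P218H.st_smooth _).of_le
      P218H.two_le)).smul ((P218H.avg_row 3 k _ c h c.et h.ker.set.continuous h.ker.et0).1 _
        (f2_cd x.1)))).contDiffAt
  have d2 := cd_ce h hy h6
  have G : c.cc y * A.Rm y (jc D c x y) t + c.ce y * (A.Rm y (jn D c x y) t
      - c.cc y * A.Rm y (mix (jt (D.uu c x) y) 0) t) = A.Rm y (jt (D.uu c x) y) t :=
    glue h hy d1 d2 A t _ rfl
  have E : A.E y (jt (D.uu c x) y) t = A.Rm y (jt (D.uu c x) y) t + (op c.a (D.uu c x) y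
      + (∑ i, x.2.2.1 i * c.b i y - ∑ i, x.2.2.2 i * c.ψ i y)) := by
    rw [AD.Rm, AD.Ln, ea, eb, eψ, e1, e2, add_sub_assoc]
    exact (sub_add_cancel _ _).symm
  have O : op c.a (D.uu c x) y = cm c.a c.cc (c.wf c.et (f2 x.1)) y
      + c.cc y * op c.a (c.wf c.et (f2 x.1)) y + cm c.a c.ce (D.ev x.2.1) y
      + c.ce y * op c.a (D.ev x.2.1) y := by
    rw [show op c.a (D.uu c x) y = _ from P218H.op_add d1 d2]
    simp only [cm, Complex.real_smul]
    ring
  have Z : (1 - c.cc y) * (cm c.a c.ce (D.ev x.2.1) y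
      + (∑ i, x.2.2.1 i * c.b i y - ∑ i, x.2.2.2 i * c.ψ i y))
      + (1 - c.ce y) * cm c.a c.cc (c.wf c.et (f2 x.1)) y = 0 := by
    rcases h.cce y hy with k | k
    · simp [cm_one k, k.self_of_nhds]
    · by_cases h8 : c.cc y = 1
      · simp [k.self_of_nhds, h8]
      · have e4 (i) : c.b i y = 0 := by_contra fun hb => h8 ((h.bb i).2 y hy hb)
        have e5 (i) : c.ψ i y = 0 :=
          (h.psi i).2 y (le_of_not_ge fun h7 => h8 (h.ce0 y hy h7).2.self_of_nhds)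
        simp [cm_one k, k.self_of_nhds, e4, e5]
  simp only [Complex.real_smul] at k3
  rw [E, O]
  linear_combination Z - G + c.cc y * P + k3

end Vale.Agent.P218N
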