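import Vale.Agent.P218N.Spec3
import Vale.Agent.P218L.OknA
import Vale.Agent.P218C.Bd
import Vale.Agent.P218C.Jet
import Vale.Agent.P218I.Xiv

/-! Block NL, row EVJ: the jets of the end functions and of the glued function. -/

open MeasureTheory Set Filter Topology
open scoped ContDiff Real

noncomputable section

namespace Vale.Agent.P218I

open Vale.Agent.P218T Vale.Agent.P218L GD Okn
open Vale.Agent.P218H (J1 dd ee dd_dd h2_wf avg_row nrm4)
open Vale.Agent.P218N (jt)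
open Vale.Agent.P218W (W jet omK)
open Vale.Agent.P218B (J2 d2 norm_d2_le)

namespace Evj

theorem clm_le {V : Type} [NormedAddCommGroup V] [NormedSpace ℝ V] (L : E3 →L[ℝ] V) {a : ℝ}
    (h : ∀ i, ‖L (ee i)‖ ≤ a) : ‖L‖ ≤ 3 * a := by
  have a0 := (norm_nonneg _).trans (h 0)
  refine L.opNorm_le_bound (by positivity) fun v => ?_
  rw [P218H.AmbL.clm_sum]
  refine (norm_sum_le_of_le _ (n := fun _ => ‖v‖ * a) fun i _ => ?_).trans_eq (by simp; ring)
  rw [norm_smul]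
  exact mul_le_mul (PiLp.norm_apply_le v i) (h i) (norm_nonneg _) (norm_nonneg _)

/-- bounds for the derivatives from bounds for the partial derivatives -/
theorem j2_of_jt {f : E3 → ℂ} {x : E3} {a : ℝ} (h : ContDiffAt ℝ 2 f x)
    (k : ∀ i j, ‖dd i (dd j f) x‖ ≤ a) : J2 f x a (3 * a) (3 * (3 * a)) :=
  ⟨h, k none none, clm_le _ fun i => k none (some i),
    clm_le _ fun i => clm_le _ fun j => dd_dd h i j ▸ k (some i) (some j)⟩

theorem jt_le {f : E3 → ℂ} {x : E3} {a : ℝ} (h : J2 f x a a a) : ‖jt f x‖ ≤ a :=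
  (pi_norm_le_iff_of_nonneg h.a0).2 fun i => (pi_norm_le_iff_of_nonneg h.a0).2 fun j => dd_le h i j

variable {M : Mod} {k : ℕ} {G : GD M k} {Z : Fin M.n₁ → ℝ} {e : M.I} {p : ℝ × ℝ}

theorem zn_le (U : G.XX Z) : zn U ≤ ‖U‖ := by
  obtain ⟨h1, h2, h3, h4⟩ := nrm4 U
  refine norm_prod_le_iff.2 ⟨norm_prod_le_iff.2 ⟨h1, norm_prod_le_iff.2
    ⟨(pi_norm_le_iff_of_nonneg (norm_nonneg U)).2 fun j =>
      (pi_norm_le_iff_of_nonneg (norm_nonneg U)).2 fun i => ?_,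
      norm_prod_le_iff.2 ⟨(norm_snd_le U.2.1).trans h2, h3⟩⟩⟩, h4⟩
  exact (W.norm_res _ (by unfold P218W.cl; fun_prop) (cl_cl _ _) _).trans ((norm_le_pi_norm
    (U.2.1.1 j).1 i).trans ((norm_le_pi_norm U.2.1.1 j).trans ((norm_fst_le U.2.1).trans h2)))

theorem mem_int (h : G.z₀ < p.1) (h' : ∀ j, e = .inl j → p.1 < Z j) :
    p.1 ∈ interior (sE G.toLD Z e) := by
  cases e with
  | inl j => simpa [sE] using ⟨h, h' j rfl⟩
  | inr l => simpa [sE] using h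

theorem cd_q (g : M.Geo) (hp : M.R < p.1) : ContDiffAt ℝ 2 (fun y => (q M e y : ℂ)) p :=
  Complex.ofRealCLM.contDiff.contDiffAt.comp p ((g.cd_qn e hp).of_le (by norm_cast))

theorem jx_le (o : G.Ok) (U : G.XX Z) (hp : p.1 ∈ Icc G.z₀ (G.ρ + 9)) (i : Fin 6) :
    ‖LD.jx U.2.1 e i p‖ ≤ (G.ρ + 9) * zn U := by
  have y1 : 1 ≤ p.1 := by linarith [o.ld.lo, o.ld.geo.one.1, hp.1]
  have y2 := y1.trans hp.2
  cases e with
  | inl j => exact (Xiv.j0_le U hp i).trans (le_mul_of_one_le_left (norm_nonneg _) y2)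
  | inr l =>
    have a1 : |omK i p.1| ≤ p.1 := by
      rw [abs_of_pos (P218W.omK_pos G.hz i hp.1)]
      fin_cases i
      exacts [le_rfl, le_rfl, le_rfl, y1, y1, (inv_le_one_of_one_le₀ y1).trans y1]
    have a2 : ‖(U.2.1.2 l).1 i.castSucc p‖ ≤ zn U :=
      ((W.apply_le _ _).trans (half_le_self (norm_nonneg _))).trans
        ((norm_le_pi_norm (U.2.1.2 l).1 _).trans ((norm_le_pi_norm U.2.1.2 l).trans
          ((nrm4 (G.coo Z U)).2.2.1.trans (norm_fst_le (G.coo Z U, U.2.2.2)))))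
    show ‖(omK i p.1 : ℂ) * _‖ ≤ _
    rw [norm_mul, Complex.norm_real]
    exact mul_le_mul (a1.trans hp.2) a2 (norm_nonneg _) (by linarith)

/-- the end function in the compact zone -/
theorem j2_we (o : G.Ok) : ∃ C : ℝ, 0 ≤ C ∧ ∀ Z : Fin M.n₁ → ℝ, (∀ j, G.ρ + 12 ≤ Z j) →
    ∀ U : G.XX Z, ∀ x ∈ M.S, ‖x‖ ≤ G.ρ + 9 → G.ρ - 1 ≤ ‖x‖ →
      J2 (we U) x (C * zn U) (C * zn U) (C * zn U) := by
  have g := o.ld.geo
  have z1 := o.ld.lo
  have z2 := o.ld.hi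
  have z3 := g.one.1
  obtain ⟨K', hK', hj⟩ := g.lift_j2 (V := ℂ)
  choose K hK hq using g.ub_qn
  obtain ⟨K₀, K1, hK₀⟩ : ∃ K₀, 1 ≤ K₀ ∧ ∀ e, K e ≤ K₀ := ⟨max 1 ‖K‖, le_max_left _ _, fun e =>
    le_max_of_le_right ((le_abs_self _).trans (norm_le_pi_norm K e))⟩
  obtain ⟨B, hB, B1⟩ : ∃ B, G.ρ + 9 = B ∧ 1 ≤ B := ⟨_, rfl, by linarith⟩
  refine ⟨K' * (12 * B * (K₀ * B)), by positivity, fun Z hZ U x hx h1 h2 => ?_⟩
  obtain ⟨e, y, y1, y2, rfl⟩ := g.far (c := G.z₀) (by linarith) hx (by linarith)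
  have hy : M.R < y.1 := by linarith
  have hi : y.1 ∈ interior (sE G.toLD Z e) := mem_int y1 fun j _ => by linarith [hZ j]
  have a1 := ((hq e y hy).mono (hK₀ e) (hK₀ e) (hK₀ e)).smul (j2_of_jet (jx_cd U.2.1 e hi)
    fun i => by rw [jet_eq (jx_jet U.2.1 e) hi]; exact jx_le o U ⟨y1.le, y2.trans h1⟩ i)
  simp only [Complex.real_smul, hB] at a1
  have a2 := (hj _ _ _ _ _ _ (per_q g U.2.1 e) hy a1).congr (ev_ev g U.2.1 e hy)
  have b0 : 0 ≤ K₀ * (B * zn U) := by have : 0 ≤ zn U := norm_nonneg _; positivity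
  have b1 := mul_le_mul_of_nonneg_right B1 b0
  have b2 := mul_le_mul_of_nonneg_right (show y.1 ≤ B by linarith) b0
  rw [show K' * (12 * B * (K₀ * B)) * zn U = K' * (12 * (B * (K₀ * (B * zn U)))) by ring]
  refine a2.mono ?_ ?_ ?_
  · exact le_trans (by linarith) (le_mul_of_one_le_left (by positivity) hK')
  · exact mul_le_mul_of_nonneg_left (by linarith) (by linarith)
  · exact mul_le_mul_of_nonneg_left (by linarith) (by linarith)

end Evj

open Evj in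
/-- **EVJ** -/
theorem evj : EVJ := fun M g => ⟨0, fun k G _ o => by
  obtain ⟨C, C0, hC⟩ := j2_we o
  obtain ⟨-, D, D0, hD⟩ := (h2_wf avg_row o.cor.toOk0 (α := α₀) (by norm_num) (by norm_num)).1
  have cpt := isCompact_closedBall (0 : E3) (G.ρ + 9)
  obtain ⟨A, A1, hA⟩ := j2_cpt cpt fun x _ => (o.cor.scc.of_le (by norm_cast)).contDiffAt
  obtain ⟨B, B1, hB⟩ := j2_cpt cpt fun x _ => (o.cor.sce.of_le (by norm_cast)).contDiffAt
  refine ⟨18 * A * D + 4 * B * C + C, by positivity, fun Z hZ => ⟨fun v x hx =>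
    Finset.sum_congr (rfl (a := Finset.univ)) fun e _ => (g.lift_pr (per_q g v e) hx).symm,
      fun U => ⟨zn_le U, fun e p h1 h2 => ?_, (hD U.1).1, fun x hx h1 => ?_⟩⟩⟩
  · have hi := mem_int h1 h2
    have hp : M.R < p.1 := by linarith [o.ld.lo]
    have c := (cd_q (e := e) g hp).mul (jx_cd U.2.1 e hi)
    have ev := ev_ev g U.2.1 e hp
    refine ⟨jx_per _ _ _ _, jx_cd _ e hi, jet_eq (jx_jet _ e) hi, ev,
      (g.lift_cd (per_q g _ e) hp (by norm_cast) c).congr_of_eventuallyEq ev, fun i i' => ?_⟩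
    refine (P218H.dd_ev (P218H.dd_ev ev i') i).eq_of_nhds.trans
      ((g.lift_jet (per_q g _ e) hp c i i').trans ?_)
    simp only [jet_mul (cd_q g hp) (jx_cd U.2.1 e hi), jet_eq (jx_jet _ e) hi]
  have z0 : 0 ≤ zn U := norm_nonneg _
  have m := mem_closedBall_zero_iff.2 h1
  have a1 := (hA x m).smul (j2_of_jt (a := D * zn U) (hD U.1).1.contDiffAt fun i j =>
    (((hD U.1).2 i j).sup x).trans (mul_le_mul_of_nonneg_left (Xiv.v_le U) D0))
  have b1 : 0 ≤ A * (D * zn U) := by positivity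
  have b2 : 0 ≤ B * (C * zn U) := by positivity
  have b3 : 0 ≤ C * zn U := by positivity
  have a2 : J2 (fun y => G.cor.ce y • we U y) x (4 * (B * (C * zn U))) (4 * (B * (C * zn U)))
      (4 * (B * (C * zn U))) := by
    rcases le_total (G.ρ - 1) ‖x‖ with h2 | h2
    · exact ((hB x m).smul (hC Z hZ U x hx h1 h2)).mono (by linarith) (by linarith) (by linarith)
    · exact (J2.zero ((o.cor.ce0 x hx (show ‖x‖ ≤ G.ρ by linarith)).1.mono fun y hy => by
        simp only [hy, zero_smul])).mono (by linarith) (by linarith) (by linarith)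
  have a3 := a1.add a2
  refine ⟨a3.cd, jt_le (a3.mono ?_ ?_ ?_), fun h2 => ⟨(hC Z hZ U x hx h1 h2).cd,
    jt_le ((hC Z hZ U x hx h1 h2).mono ?_ ?_ ?_)⟩⟩ <;> linarith⟩

end Vale.Agent.P218I
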