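import Vale.Agent.P218N.Spec3
import Vale.Agent.P218N.Bv
import Vale.Agent.P218I.Bt
import Vale.Agent.P218I.AsmA

/-! Block NL: the flux near the cuts and at infinity, the Lagrange terms. -/

open MeasureTheory Set Filter Topology
open scoped ContDiff Real

noncomputable section

namespace Vale.Agent.P218I

open Vale.Agent.P218T Vale.Agent.P218L GD
open Vale.Agent.P218N (V3 sig km lk rh0 Wf av Gf fl cn cyb dt cr fr cx rj)
open Vale.Agent.P218W (W jet XE co c1)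
open Vale.Agent.P218T.HJ (sqrt_sq)

namespace Fl

/-- the angular derivative vanishes at the cut -/
theorem j1_top {R Z : ℝ} (h : R < Z) (J : XE R Z) (θ : ℝ) : J.1 1 (Z, θ) = 0 := by
  have e : ∀ k, co (J.1 1) k Z = 0 := fun k => by
    rw [(XE.mj h J).t1 k Z ⟨h.le, le_rfl⟩]
    simp [co, c1, J.2.2.1]
  have := (J.1 1).le_norm.hasSum (z := Z) trivial θ
  simp only [e, zero_mul] at this
  exact this.unique hasSum_zero

theorem slit {A : ℂ} (h : 0 < (Complex.sqrt A).re) : A ∈ Complex.slitPlane := by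
  rw [← sqrt_sq A, Complex.mem_slitPlane_iff, sq, Complex.mul_re, Complex.mul_im]
  rcases eq_or_ne (Complex.sqrt A).im 0 with k | k
  · exact .inl (by simp [k, h.ne'])
  · exact .inr (by rw [mul_comm (Complex.sqrt A).im, ← two_mul]; positivity)

theorem cont_Gf {X : Type*} [TopologicalSpace X] {a b c : X → V3} (η : V3) {Ω ζ V' : X → ℂ}
    (ζ' : ℂ) {V : X → Fin 6 → ℂ} (ha : Continuous a) (hb : Continuous b) (hc : Continuous c)
    (hΩ : Continuous Ω) (hζ : Continuous ζ) (hV' : Continuous V') (hV : Continuous V)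
    (h0 : ∀ x, 0 < (V x 0).re) (h1 : ∀ x, 0 < (Wf 1 (V x)).re) :
    Continuous fun x => Gf (fr (a x) (b x) (c x)) η (Ω x) (ζ x) 1 ζ' (V' x) (V x) := by
  have n0 : ∀ x, V x 0 ≠ 0 := fun x e => by simpa [e] using h0 x
  have hr : Continuous fun x => Complex.sqrt (V x 0) :=
    Complex.continuousOn_sqrt.comp_continuous (by fun_prop) fun x => .inl (h0 x)
  have hi : Continuous fun x => (2 * Complex.sqrt (V x 0))⁻¹ := (continuous_const.mul hr).inv₀
    fun x => mul_ne_zero two_ne_zero (P218N.Bv.sqrt_ne (n0 x))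
  have hW : Continuous fun x => (Wf 1 (V x))⁻¹ := (continuous_const.mul
    (Complex.continuousOn_sqrt.comp_continuous (by fun_prop (disch := simpa using n0))
      fun x => slit (by simpa only [Wf, one_mul] using h1 x))).inv₀
    fun x e => by simpa [show Wf 1 (V x) = 0 from e] using h1 x
  simp only [Gf, dt, cr, fr, cn, div_eq_mul_inv, Pi.add_apply, Pi.smul_apply, smul_eq_mul,
    Matrix.cons_val_zero, Matrix.cons_val_one, Matrix.cons_val]
  fun_prop

variable {M : Mod} {k : ℕ} {G : GD M k} {Z : Fin M.n₁ → ℝ}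

/-- the jet of the squared radius at the cut -/
theorem Vt_top {z₃ : ℝ} (y : G.XX Z × Pm (Fin M.n₁)) (j : Fin M.n₁) (h0 : G.z₀ < Z j)
    (h1 : G.ρ + 7 ≤ 2 * z₃) (h2 : 0 < z₃) (h3 : 2 * z₃ < Z j) (θ : ℝ) :
    Vt z₃ y j (Z j, θ) 0 = Vb y j ∧ Vt z₃ y j (Z j, θ) 1 = 0 ∧ Vt z₃ y j (Z j, θ) 3 = pb y j θ := by
  have e := zt_top (Z := Z j) (z := Z j) (by linarith) (y.2.2.1 j)
  simp [Vt, Vj, bt_zero G j _ h1 h2 h3, e, rj, Vb, Zb, pb, j1_top h0, (y.1.2.1.1 j).2.2.1]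

theorem small {z s A : ℝ} {u u₃ j κ g : ℂ} (z0 : 0 < z) (s0 : 0 < s) (h0 : ‖u‖ ≤ z / 4)
    (h1 : ‖κ * u‖ ≤ z / 4) (h3 : ‖u₃‖ ≤ 1) (hg : s ^ 2 / 4 ≤ g.re) (hj : ‖j‖ ≤ z * A) :
    ‖Complex.exp (-(z ^ 2 + u ^ 2) / 4) * j * u₃ * z * (s * (1 - κ * (u / z))) ^ 2 /
      Complex.sqrt g‖ ≤ 32 * s * A * ((z ^ 2 / 8) ^ 1 * Real.exp (-(z ^ 2 / 8))) := by
  have A0 : 0 ≤ A := nonneg_of_mul_nonneg_right ((norm_nonneg _).trans hj) z0
  have a : ‖Complex.exp (-(z ^ 2 + u ^ 2) / 4)‖ ≤ Real.exp (-(z ^ 2 / 8)) := by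
    have e : (-((z : ℂ) ^ 2 + u ^ 2) / 4).re = -(z ^ 2 + (u ^ 2).re) / 4 := by
      simp [← Complex.ofReal_pow]
    have := (abs_le.1 (Complex.abs_re_le_norm (u ^ 2))).1
    rw [norm_pow] at this
    rw [Complex.norm_exp, e, Real.exp_le_exp]
    nlinarith [pow_le_pow_left₀ (norm_nonneg u) h0 2]
  have b : ‖1 - κ * (u / z)‖ ≤ 5 / 4 := by
    have : ‖κ * (u / z)‖ ≤ 1 / 4 := by
      rw [← mul_div_assoc, norm_div, Complex.norm_real, Real.norm_of_nonneg z0.le, div_le_iff₀ z0]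
      linarith
    linarith [norm_sub_le 1 (κ * (u / z)), norm_one (α := ℂ)]
  have c : s / 2 ≤ ‖Complex.sqrt g‖ := by
    refine (pow_le_pow_iff_left₀ (by positivity) (norm_nonneg _) two_ne_zero).1 ?_
    rw [← norm_pow, sqrt_sq]
    linarith [Complex.re_le_norm g]
  simp only [norm_div, norm_mul, norm_pow, Complex.norm_real, Real.norm_of_nonneg z0.le,
    Real.norm_of_nonneg s0.le]
  calc _ ≤ Real.exp (-(z ^ 2 / 8)) * (z * A) * 1 * z * (s * (5 / 4)) ^ 2 / (s / 2) := by gcongr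
    _ = 25 * s * A * ((z ^ 2 / 8) ^ 1 * Real.exp (-(z ^ 2 / 8))) := by field_simp; ring
    _ ≤ _ := by gcongr; norm_num

end Fl

open Fl

theorem flc (stc : STC) (smc : SMC) : FLC := by
  refine (Row.and stc smc).mono fun M k G o h => ?_
  filter_upwards [h.2, ev_W fun q => |G.ρ| + 12 + 2 * |q.z₃|, ev_cs (ev₀_z fun _ _ => |G.ρ| + 9)]
    with p sm hW hz y hy j
  have r1 := le_abs_self G.ρ
  have r0 := abs_nonneg G.ρ
  have z1 := le_abs_self p.z₃
  have hi := o.ld.hi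
  have z0 := G.hz
  have W1 := fun j => (hW j).1
  have st := h.1 p.W p.z₃ (fun j => by linarith [W1 j]) (by linarith) p.m y j
  have Wj := W1 j
  have top := Vt_top (z₃ := p.z₃) y j (by linarith) (by linarith) (by linarith) (by linarith)
  have sub : Icc (p.W j - 1) (p.W j) ⊆ Icc G.z₀ (p.W j) := Icc_subset_Icc_left (by linarith)
  have key : ∀ q : ℝ × ℝ, q.1 ∈ Icc (p.W j - 1) (p.W j) → P218N.Cj (Vt p.z₃ y j q) ∧
      ‖(q.1 + y.2.2.1 j) ^ 2 - q.1 ^ 2‖ ≤ 1 := fun q hq => by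
    have s := sm y hy j q (sub hq)
    have := s.z2
    rw [zt, cut_one (by linarith [hq.1]), Complex.ofReal_one, mul_one] at this
    exact ⟨s.cj, this⟩
  have cy := fun q hq => cyb _ _ (p.m j) _ 1 _ (key q hq).1 (by norm_num) (key q hq).2
    (sm y hy j q (sub hq)).ep
  have w : ∀ θ : ℝ, (p.W j, θ).1 ∈ Icc (p.W j - 1) (p.W j) := fun _ => ⟨by simp, le_rfl⟩
  refine ⟨fun e => ?_, (top 0).1 ▸ (key _ (w 0)).1.re, (top 0).1 ▸ (cy _ (w 0)).2.2.2.2.1,
    continuous_const.add ((W.cont _).comp (by fun_prop)), fun θ =>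
      ⟨(top θ).1 ▸ (top θ).2.2 ▸ (key _ (w θ)).1.p, top θ⟩, fun y' => ⟨fun q =>
    Gf (FQ (M.Q j) q.2) (av (ro y.1 j) (ro y'.1 j))
      (Oc p.m y j (q.1 + y.2.2.1 j) (Vt p.z₃ y j q 0)) (q.1 + y.2.2.1 j) 1 (y'.2.2.1 j)
      ((y'.1.2.1.1 j).1 0 q + (y'.2.1 j * ((q.1 + y.2.2.1 j) ^ 2 - 2) +
        2 * y.2.1 j * (q.1 + y.2.2.1 j) * y'.2.2.1 j)) (Vt p.z₃ y j q), ?_, fun q hq => ?_,
      fun θ => ?_⟩⟩
  · have := (key _ (w 0)).2
    rw [show ((p.W j, (0 : ℝ)).1 : ℂ) + y.2.2.1 j = 0 from e] at this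
    simp only [ne_eq, OfNat.ofNat_ne_zero, not_false_eq_true, zero_pow, zero_sub, norm_neg,
      norm_pow, Complex.norm_real, Real.norm_eq_abs, sq_abs] at this
    nlinarith [abs_nonneg p.z₃]
  · have hV : Continuous fun q : Icc (p.W j - 1) (p.W j) ×ˢ (univ : Set ℝ) => Vt p.z₃ y j q :=
      continuous_pi fun i => ((st.1 i).mono (prod_mono sub subset_rfl)).domRestrict
    have n := fun q : Icc (p.W j - 1) (p.W j) ×ˢ (univ : Set ℝ) => (cy q q.2.1).2.2.1
    refine continuousOn_iff_continuous_domRestrict.2 (cont_Gf _ _ ?_ ?_ continuous_const ?_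
      (by fun_prop) (by fun_prop) hV (fun q => (key q q.2.1).1.re) fun q => (cy q q.2.1).1)
    · unfold cx eR
      fun_prop
    · unfold cx eT
      fun_prop
    · unfold Oc lk
      fun_prop (disch := exact fun q => pow_ne_zero 2 (n q))
  · have e := zt_top hq.1 (y.2.2.1 j)
    rw [((st.2 q (by linarith [hq.1]) hq.2 (sm y hy j q (sub (Ioo_subset_Icc_self hq)))
      ).2.2.2.2.2.2.2.2 y'), Vd, e.1, e.2.1, cut_one (a := p.W j - 2) (by linarith [hq.1]),
      cut_one (a := G.ρ + 6) (by linarith [hq.1])]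
    simp
  · simp only [(top θ).1, (y'.1.2.1.1 j).2.2.1, zero_add]
    rfl

theorem flk (stk : STK) (smk : SMK) : FLK := by
  refine (Row.and stk smk).mono fun M k G o ⟨h, r₀, r0, sm⟩ => ?_
  filter_upwards [ev_W fun _ => G.ρ + 12, ev_cs (ev₀_z fun _ _ => G.ρ + 9),
    ev_cs (ev₀_r (f := fun _ => r₀) (.of_forall fun _ => r0))] with p hW hz hr y hy y' l ε ε0
  have t := (((Real.tendsto_pow_mul_exp_neg_atTop_nhds_zero 1).comp
    ((tendsto_pow_atTop (α := ℝ) two_ne_zero).atTop_div_const (show (0 : ℝ) < 8 by norm_num))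
      ).const_mul (32 * spd (M.γ l) * ‖y'.1.2.1.2 l‖)).eventually (ge_mem_nhds (by simpa using ε0))
  obtain ⟨R, hR⟩ := eventually_atTop.1 (t.and (eventually_gt_atTop (G.ρ + 4)))
  refine ⟨R, fun q hq => ?_⟩
  obtain ⟨a, b⟩ := hR _ hq
  have z1 : G.z₀ ≤ q.1 := by linarith [o.ld.hi]
  have z0 := G.hz.trans_le z1
  have s := sm p.W y.1 l q ((((le_Nn y.1).2.2.1 l).trans_lt hy.1).trans_le hr.2) z1
  rw [(h p.W p.z₃ (fun j => (hW j).1) hz p.m y l q b s).2.2.2.2.2 y']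
  refine (small z0 (o.ld.geo.spd_pos l) s.u0 s.ku s.u3 s.lo ?_).trans a
  rw [show LD.jx y'.1.2.1 (.inr l) 0 q = q.1 * (y'.1.2.1.2 l).1 0 q from rfl, norm_mul,
    Complex.norm_real, Real.norm_of_nonneg z0.le]
  exact mul_le_mul_of_nonneg_left ((W.apply_le _ _).trans ((half_le_self (norm_nonneg _)).trans
    (norm_le_pi_norm (y'.1.2.1.2 l).1 0))) z0.le

theorem lag' (adn : ADN) (jth : JTH) (xiv : XIV) (kap : KAP) : LAG := by
  refine ((Row.and adn jth).and xiv).mono fun M k G o ⟨⟨h1, h2⟩, C, h3⟩ => ?_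
  filter_upwards [o.lin, ev_W fun _ => G.ρ + 12, ev_cs (ev₀_z fun _ _ => G.ρ + 9)]
    with p lin hW hz y y'
  have g := o.ld.geo
  have lo := o.ld.lo
  have hi := o.ld.hi
  have z0 := G.hz
  have W1 := fun j => (hW j).1
  obtain ⟨T, s, -⟩ := lin.ex
  obtain ⟨-, x1, x2⟩ := h3 p.W (fun j => by linarith [W1 j]) y'.1
  have : IsFiniteMeasureOnCompacts (ga M.w) := o.cor.fin
  obtain ⟨-, _, -, c⟩ := (P218H.h2_wf P218H.avg_row o.cor.toOk0 (α := α₀) (by norm_num)
    (by norm_num)).1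
  have i2 : ∀ i, Integrable (fun x => wc y'.1 x * G.ψ i x) (ga M.w) := fun i =>
    ((c y'.1.1).1.continuous.mul (Complex.continuous_ofReal.comp (o.cor.psi i).1.continuous)
      ).integrable_of_hasCompactSupport
      ((o.ld.coer.sm i).2.comp_left (g := Complex.ofReal) rfl).mul_left
  have e2 : ∀ i x, uu y'.1 x * G.ψ i x = wc y'.1 x * G.ψ i x := fun i x => by
    rcases le_total (G.ρ - 1) ‖x‖ with a | a
    · simp [o.ld.supp i x a]
    · simp [uu, LD.core, P218H.st_zero (c := G.ρ + 1) (x := x) (by linarith) (by linarith),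
        P218H.st_zero (c := G.ρ + 3) (x := x) (by linarith) (by linarith)]
  let H : E3 → ℂ := fun x => ∑ j, y.1.2.2.1 (j, 0) * (uu y'.1 x * G.b (j, 0) x) -
    ∑ i, y.1.2.2.2 i * (wc y'.1 x * G.ψ i x)
  have j1 := integrable_finsetSum Finset.univ fun j _ => (x2 j).const_mul (y.1.2.2.1 (j, 0))
  have j2 := integrable_finsetSum Finset.univ fun i _ => (i2 i).const_mul (y.1.2.2.2 i)
  have m : Measurable fun x : E3 => ENNReal.ofReal (Real.exp (-‖x‖ ^ 2 / 4)) := by fun_prop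
  have m' : ∀ᵐ x ∂sig M.w, ENNReal.ofReal (Real.exp (-‖x‖ ^ 2 / 4)) < ⊤ := by simp
  have S : ∀ᵐ x ∂sig M.w, (G.ad p.W).lag x (par p.m y) = 0 ∨ x ∈ SW p.W ∧ fd y y' x = uu y'.1 x := by
    filter_upwards [ae_restrict_mem (isClosed_eq o.cor.tube.sta.continuous continuous_const
      ).measurableSet] with x hx
    have hx : x ∈ M.S := (o.cor.tube.mem x).2 hx
    rcases lt_or_ge (G.ρ + 2) ‖x‖ with a | a
    · exact .inl (((h1 p.W p.z₃ W1 hz).2 x hx).2.2.1 a p.m y).2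
    have b : x ∈ SW p.W := ⟨hx, fun b => by
      obtain ⟨j, q, hq, rfl⟩ := mem_iUnion.1 b
      have := W1 j
      have := mem_Ici.1 hq.1
      linarith [((g.cht (.inl j)).rad q (by linarith)).1]⟩
    exact .inr ⟨b, ((((h2 p.W p.z₃ W1 hz x b).1 y y').2.2 (by linarith)).2).eq_of_nhds⟩
  have E : (fun x => fd y y' x * rh0 x * (G.ad p.W).lag x (par p.m y)) =ᵐ[sig M.w]
      fun x => (ENNReal.ofReal (Real.exp (-‖x‖ ^ 2 / 4))).toReal • H x := S.mono fun x hx => by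
    have e : H x = uu y'.1 x * (G.ad p.W).lag x (par p.m y) := by
      simp only [H, ← e2, P218N.AD.lag, mul_sub, Finset.mul_sum, mul_left_comm]
      rfl
    beta_reduce
    rw [e, ENNReal.toReal_ofReal (Real.exp_pos _).le, Complex.real_smul]
    rcases hx with a | a
    · simp only [a, mul_zero]
    · simp only [a.2, rh0]
      ring
  refine ⟨(((integrable_withDensity_iff_integrable_smul' m m').1 (j1.sub j2)).congr
    E.symm).integrableOn, ?_⟩
  rw [setIntegral_eq_integral_of_ae_compl_eq_zero (S.mono fun x hx a => by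
      simp [hx.resolve_right fun b => a b.1]), integral_congr_ae E,
    ← integral_withDensity_eq_integral_toReal_smul m m']
  refine (integral_sub j1 j2).trans ?_
  rw [integral_finsetSum _ fun j _ => (x2 j).const_mul _,
    integral_finsetSum _ fun i _ => (i2 i).const_mul _, sub_eq_neg_add, ← Finset.sum_neg_distrib]
  congr 1 <;> refine Finset.sum_congr rfl fun i _ => ?_
  · rw [integral_const_mul, (AA_apply s y'.1).2, neg_mul]
  · have : G.ka i ≠ 0 := fun e => by simpa [e] using (kap M k _ o.ld i).2.1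
    rw [integral_const_mul, x1]
    field_simp

theorem lag (adn : ADN) (jth : JTH) (xiv : XIV) (kap : KAP) (_ : SLOW) : LAG :=
  lag' adn jth xiv kap

end Vale.Agent.P218I
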