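import Vale.Agent.P218N.Spec2
import Vale.Agent.P218C.Meas
import Vale.Agent.P218C.Cov

/-! Block NL: integration by parts on the surface below the cuts. -/

open MeasureTheory Set Filter Topology
open scoped ContDiff Real

noncomputable section

namespace Vale.Agent.P218N

open Vale.Agent.P218T (Mod Per jv per_z)

namespace Fva

/-- the transition from `0` below `a` to `1` above `b` -/
def ct (a b z : ℝ) : ℝ := Real.smoothTransition ((z - a) / (b - a))

section ct

variable {a b z : ℝ}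

theorem ct_cd {n : ℕ∞} (a b : ℝ) : ContDiff ℝ n (ct a b) :=
  Real.smoothTransition.contDiff.comp ((contDiff_id.sub contDiff_const).div_const _)

theorem ct_zero (h : a < b) (hz : z ≤ a) : ct a b z = 0 :=
  Real.smoothTransition.zero_of_nonpos
    (div_nonpos_of_nonpos_of_nonneg (sub_nonpos.2 hz) (sub_pos.2 h).le)

theorem ct_one (h : a < b) (hz : b ≤ z) : ct a b z = 1 :=
  Real.smoothTransition.one_of_one_le ((one_le_div (sub_pos.2 h)).2 (by linarith))

theorem ct_mono (h : a < b) : Monotone (ct a b) := fun _ _ k =>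
  Real.smoothTransition.monotone (div_le_div_of_nonneg_right (by linarith) (sub_pos.2 h).le)

theorem ct_norm (a b z : ℝ) : ‖(ct a b z : ℂ)‖ ≤ 1 := by
  rw [Complex.norm_real, ct, Real.norm_of_nonneg (Real.smoothTransition.nonneg _)]
  exact Real.smoothTransition.le_one _

theorem ct_der (a b z : ℝ) : HasDerivAt (ct a b) (deriv (ct a b) z) z :=
  ((ct_cd (n := 1) a b).differentiable (by simp) z).hasDerivAt

theorem ct_cont (a b : ℝ) : Continuous (deriv (ct a b)) :=
  (ct_cd (n := 1) a b).continuous_deriv le_rfl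

theorem ct_int (h : a < b) : ∫ z in a..b, deriv (ct a b) z = 1 := by
  rw [intervalIntegral.integral_eq_sub_of_hasDerivAt (fun z _ => ct_der a b z)
    ((ct_cont a b).intervalIntegrable _ _), ct_one h le_rfl, ct_zero h le_rfl, sub_zero]

theorem avg (h : a < b) {φ : ℝ → ℂ} {ε : ℝ} (hφ : ∀ z ∈ Icc a b, ‖φ z‖ ≤ ε) :
    ‖∫ z in a..b, deriv (ct a b) z • φ z‖ ≤ ε := by
  have := intervalIntegral.norm_integral_le_of_norm_le (μ := volume) h.le
    (f := fun z => deriv (ct a b) z • φ z) (g := fun z => deriv (ct a b) z * ε)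
    (ae_of_all _ fun z hz => by
      rw [norm_smul, Real.norm_of_nonneg (ct_mono h).deriv_nonneg]
      exact mul_le_mul_of_nonneg_left (hφ z ⟨hz.1.le, hz.2⟩) (ct_mono h).deriv_nonneg)
    (((ct_cont a b).mul continuous_const).intervalIntegrable _ _)
  rwa [intervalIntegral.integral_mul_const, ct_int h, one_mul] at this

theorem avg' (h : a < b) {φ : ℝ → ℂ} {L : ℂ} {ε : ℝ} (hc : ContinuousOn φ (Icc a b))
    (hφ : ∀ z ∈ Icc a b, ‖φ z - L‖ ≤ ε) : ‖(∫ z in a..b, deriv (ct a b) z • φ z) - L‖ ≤ ε := by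
  have := avg h hφ
  simp only [smul_sub] at this
  rwa [intervalIntegral.integral_sub
    (((ct_cont a b).continuousOn.fun_smul hc).intervalIntegrable_of_Icc h.le)
    (((ct_cont a b).fun_smul continuous_const).intervalIntegrable _ _),
    intervalIntegral.integral_smul_const, ct_int h, one_smul] at this

end ct

/-- the cut-off function -/
def ch (M : Mod) (a b : M.I → ℝ) (x : E3) : ℂ :=
  1 - ∑ e, M.lift e (fun y => (ct (a e) (b e) y.1 : ℂ)) x

variable {M : Mod} {a b : M.I → ℝ} {e : M.I} {y : ℝ × ℝ} {p : E3}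

theorem ch_norm (x : E3) : ‖ch M a b x‖ ≤ 1 + Fintype.card M.I := by
  refine (norm_sub_le _ _).trans (add_le_add norm_one.le ((norm_sum_le _ _).trans ?_))
  refine (Finset.sum_le_card_nsmul _ _ 1 fun e _ => ?_).trans (by simp)
  exact Mod.lift_mem (s := {u : ℂ | ‖u‖ ≤ 1}) (by simp) (fun y _ => ct_norm _ _ _) x

variable (g : M.Geo) (hab : ∀ e, M.R + 1 ≤ a e ∧ a e < b e)
include g

theorem ch_ev (hy : M.R < y.1) : ch M a b =ᶠ[𝓝 (M.P e y)]
    fun x => 1 - M.lift e (fun y => (ct (a e) (b e) y.1 : ℂ)) x := by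
  have : ∀ᶠ x in 𝓝 (M.P e y), ∀ e', e' ≠ e →
      M.lift e' (fun y => (ct (a e') (b e') y.1 : ℂ)) x = 0 := eventually_all.2 fun e' => by
    by_cases h : e' = e
    · exact .of_forall fun _ k => absurd h k
    · exact (g.lift_other h hy).mono fun _ k _ => k
  filter_upwards [this] with x hx
  rw [ch, Finset.sum_eq_single e (fun e' _ k => hx e' k) (by simp)]

theorem ch_P (hy : M.R < y.1) :
    (fun q => ch M a b (M.P e q)) =ᶠ[𝓝 y] fun q => 1 - (ct (a e) (b e) q.1 : ℂ) := by
  filter_upwards [(g.cdP e hy).continuousAt.eventually (ch_ev g (a := a) (b := b) hy),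
    g.lift_P_ev (e := e) (per_z fun z => (ct (a e) (b e) z : ℂ)) hy] with q h1 h2
  rw [h1, h2]

include hab

omit g in
theorem sub_a (e : M.I) : Ici (a e) ⊆ Ioi M.R := fun z hz => by
  have := (hab e).1
  simp only [mem_Ici, mem_Ioi] at hz ⊢
  linarith

omit g in
theorem vanish (e : M.I) (y : ℝ × ℝ) (_ : M.R < y.1) (h : y.1 ∉ Ici (a e)) :
    (ct (a e) (b e) y.1 : ℂ) = 0 := by
  rw [ct_zero (hab e).2 (not_le.1 h).le, Complex.ofReal_zero]

theorem ch_cd (hp : p ∈ M.S) : ContDiffAt ℝ 1 (ch M a b) p :=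
  contDiffAt_const.sub (ContDiffAt.sum fun e _ => g.lift_cd_tube
    (per_z fun z => (ct (a e) (b e) z : ℂ)) isClosed_Ici (sub_a hab e) (vanish hab e)
    (by norm_cast) (fun y _ => (Complex.ofRealCLM.contDiff.comp
      ((ct_cd (n := 1) _ _).comp contDiff_fst)).contDiffAt) (g.w_lt hp))

theorem ch_zero (hy : b e < y.1) : ch M a b =ᶠ[𝓝 (M.P e y)] fun _ => 0 := by
  have h : M.R < y.1 := sub_a hab e ((hab e).2.trans hy).le
  filter_upwards [ch_ev g (a := a) (b := b) h, g.P_nhds (e := e) h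
    (continuousAt_fst.fst.eventually (lt_mem_nhds (a := b e) (b := (y, (0 : ℝ)).1.1) hy))]
  rintro _ h1 ⟨q, hq, rfl⟩
  rw [h1, g.lift_Ph (per_z fun z => (ct (a e) (b e) z : ℂ)) hq.2, ct_one (hab e).2 (le_of_lt hq.1)]
  simp

theorem ch_one (hp : p ∈ M.S) (h : ∀ e, p ∉ M.En e (Ici (a e))) :
    ch M a b =ᶠ[𝓝 p] fun _ => 1 := by
  filter_upwards [eventually_all.2 fun e => g.lift_ev_zero' isClosed_Ici (sub_a hab e)
    (vanish hab e) hp (h e)] with x hx
  rw [ch, Finset.sum_eq_zero fun e _ => hx e, sub_zero]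

theorem pd_ch (hp : p ∈ M.S) (h : ∀ e, p ∉ M.En e (Icc (a e) (b e))) : pd (ch M a b) p = 0 := by
  by_cases k : ∀ e, p ∉ M.En e (Ici (a e))
  · rw [pd_congr (ch_one g hab hp k), pd_const]
  · obtain ⟨e, y, hy, rfl⟩ := by simpa only [not_forall, not_not] using k
    rw [pd_congr (ch_zero g hab (not_le.1 fun j => h e (Mod.P_mem_En ⟨hy.1, j⟩))), pd_const]

/-- the error term in a chart -/
theorem chart (hy : M.R < y.1) {X Y v : E3 → V3} (hX : DifferentiableAt ℝ X (M.P e y)) :
    M.JS e y • dt (v (M.P e y)) (kk (pd X (M.P e y))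
      (fun c => pd (ch M a b) (M.P e y) c • Y (M.P e y)) (nu M.w (M.P e y))) =
      -(deriv (ct (a e) (b e)) y.1 • fl M e X Y v y) := by
  have d := (ch_cd g hab (g.mem e y hy)).differentiableAt one_ne_zero
  have h := ((P218T.cov _ _ _ _ g.shr g.smw _ _ (g.pc e hy)).2.2.2.2.1 X
    (fun x => ch M a b x • Y (M.P e y)) hX (d.smul_const _)).2.2
  have k : ∀ u i, fderiv ℝ (fun q => (ch M a b (M.P e q) • Y (M.P e y)) i) y u =
      -(u.1 * deriv (ct (a e) (b e)) y.1 * Y (M.P e y) i) := fun u i => by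
    have h1 := ((((ct_der (a e) (b e) y.1).ofReal_comp.const_sub 1).mul_const
      (Y (M.P e y) i)).hasFDerivAt.comp y hasFDerivAt_fst).congr_of_eventuallyEq
      (f₁ := fun q => (ch M a b (M.P e q) • Y (M.P e y)) i)
      ((ch_P g (a := a) (b := b) (e := e) hy).mono fun q hq => by
        simp only [Pi.smul_apply, smul_eq_mul, Function.comp_apply] at hq ⊢
        rw [hq])
    rw [h1.fderiv]
    simp [mul_assoc]
  have k1 : jv (fun q => ch M a b (M.P e q) • Y (M.P e y)) y 1 = 0 := funext fun i =>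
    (k _ i).trans (by simp)
  have k3 : jv (fun q => ch M a b (M.P e q) • Y (M.P e y)) y 3 =
      -((deriv (ct (a e) (b e)) y.1 : ℝ) : ℂ) • Y (M.P e y) :=
    funext fun i => (k _ i).trans (by simp)
  rw [k1, k3, pd_smul d (differentiableAt_const _), pd_const, smul_zero, zero_add] at h
  rw [Complex.real_smul, Complex.real_smul, Mod.JS, Mod.Js, Complex.ofReal_mul, mul_assoc,
    ← dt_smul, ← h, fl]
  simp only [dt, cr0, cr1, cr2, Pi.sub_apply, Pi.smul_apply, Pi.zero_apply, smul_eq_mul]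
  ring

variable {Z : Fin M.n₁ → ℝ}

omit hab in
theorem meas_SW (hZ : ∀ j, M.R + 2 ≤ Z j) : MeasurableSet (SW M Z) :=
  g.isClosed_S.measurableSet.diff (.iUnion fun j => g.meas_En measurableSet_Ici fun z hz => by
    have := hZ j
    simp only [mem_Ici, mem_Ioi] at hz ⊢
    linarith)

omit hab in
theorem mem_SW (hZ : ∀ j, M.R + 2 ≤ Z j) (hy : M.R < y.1) :
    M.P e y ∈ SW M Z ↔ ∀ j, e = .inl j → y.1 < Z j := by
  have s : ∀ j, Ici (Z j) ⊆ Ioi M.R := fun j z hz => by
    have := hZ j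
    simp only [mem_Ici, mem_Ioi] at hz ⊢
    linarith
  refine ⟨fun h j k => not_le.1 fun i => h.2 (mem_iUnion.2 ⟨j, k ▸ Mod.P_mem_En i⟩),
    fun h => ⟨g.mem e y hy, fun k => ?_⟩⟩
  obtain ⟨j, k⟩ := mem_iUnion.1 k
  by_cases i : .inl j = e
  · subst i
    exact (h j rfl).not_ge ((g.mem_En (s j) hy).1 k)
  · exact g.notMem_En i (s j) hy k

/-- integration by parts with a cut-off function -/
theorem cut (sib : SIBP) (hZ : ∀ j, M.R + 2 ≤ Z j) (hb : ∀ j, b (.inl j) < Z j) {X Y v : E3 → V3}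
    (hr : ∀ x ∈ SW M Z, ContDiffAt ℝ 2 X x ∧ ContDiffAt ℝ 1 Y x ∧ ContDiffAt ℝ 1 v x)
    {I : E3 → ℂ} (hI : I = fun x => dt (v x) (kk (pd X x) (pd Y x) (nu M.w x))
      - dt (Y x) (kk (pd v x) (pd X x) (nu M.w x)))
    (hi : IntegrableOn (fun x => ch M a b x * I x) (SW M Z) (sig M.w)) :
    ∫ x in SW M Z, ch M a b x * I x ∂sig M.w = ∑ e, ∫ z in a e..b e,
      deriv (ct (a e) (b e)) z • ∫ θ in (0 : ℝ)..2 * π, fl M e X Y v (z, θ) := by
  have mS := meas_SW g hZ
  have en : ∀ e c, M.R < c → M.En e (Icc c (b e)) ⊆ SW M Z := by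
    rintro e c hc _ ⟨y, hy, rfl⟩
    exact (mem_SW g hZ (hc.trans_le hy.1.1)).2 fun j k => hy.1.2.trans_lt (k ▸ hb j)
  have aR : ∀ e, M.R < a e := fun e => sub_a hab e self_mem_Ici
  have sI : ∀ e, Icc (a e) (b e) ⊆ Ioi M.R := fun e => Icc_subset_Ici_self.trans (sub_a hab e)
  have z0 : ∀ x, ch M a b =ᶠ[𝓝 x] (fun _ => 0) →
      (fun x => ch M a b x • Y x) =ᶠ[𝓝 x] fun _ => 0 := fun x h =>
    h.mono fun x' k => by simp only [k, zero_smul]
  obtain ⟨i1, i2, h⟩ := (sib _ _ _ _ g.shr g.smw).2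
    (M.S ∩ Metric.closedBall 0 (M.R + 1) ∪ ⋃ e, M.En e (Icc (M.R + 1 / 2) (b e))) X
    (fun x => ch M a b x • Y x) v
    (((isCompact_closedBall _ _).inter_left g.isClosed_S).union (isCompact_iUnion fun e =>
      g.isCompact_En isCompact_Icc fun z hz => lt_of_lt_of_le (by linarith) hz.1))
    (fun x hx k => by
      rw [mem_union, not_or] at k
      have k1 : M.R + 1 < ‖x‖ := not_le.1 fun j => k.1 ⟨hx, mem_closedBall_zero_iff.2 j⟩
      obtain ⟨e, y, h1, -, rfl⟩ := g.far (c := M.R + 1 / 2) (by linarith) hx (by linarith)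
      exact z0 _ (ch_zero g hab (not_le.1 fun j =>
        k.2 (mem_iUnion.2 ⟨e, Mod.P_mem_En ⟨h1.le, j⟩⟩))))
    (fun x hx => by
      have k : x ∈ SW M Z := by
        rcases hx.2 with k | k
        · refine ⟨hx.1, fun j => ?_⟩
          obtain ⟨j, i⟩ := mem_iUnion.1 j
          have := hZ j
          obtain ⟨z, h1, h2, -⟩ := g.norm_En (t := Ici (Z j))
            (fun z hz => (by linarith : M.R < Z j).trans_le hz) i
          linarith [mem_closedBall_zero_iff.1 k.2, mem_Ici.1 h1]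
        · obtain ⟨e, i⟩ := mem_iUnion.1 k
          exact en e _ (by linarith) i
      exact ⟨(hr x k).1, (ch_cd g hab hx.1).smul (hr x k).2.1, (hr x k).2.2⟩)
  set D : E3 → ℂ := fun x => dt (v x) (kk (pd X x) (fun c => pd (ch M a b) x c • Y x) (nu M.w x))
  have hM : ContDiff ℝ 0 (nu M.w) := contDiff_pi.2 fun i => Complex.ofRealCLM.contDiff.comp
    ((EuclideanSpace.proj (𝕜 := ℝ) i).contDiff.comp (g.tb.snu.of_le (by simp)))
  have cD : ∀ x ∈ SW M Z, ContinuousAt D x := fun x hx => (contDiffWithinAt_univ.1 (cd_dt (n := 0)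
    ((hr x hx).2.2.of_le zero_le_one).contDiffWithinAt (cd_kk
      (cd_pd (hr x hx).1 (by norm_num)).contDiffWithinAt (contDiffAt_pi.2 fun c =>
        (contDiffAt_pi.1 (cd_pd (ch_cd g hab hx.1) (by norm_num)) c).smul
        ((hr x hx).2.1.of_le zero_le_one)).contDiffWithinAt
      hM.contDiffAt.contDiffWithinAt))).continuousAt
  have iD := fun e => g.int_Icc (e := e) (f := D) (aR e) (hab e).2.le fun y hy =>
    (ContinuousAt.comp (cD _ (en e _ (aR e) (Mod.P_mem_En hy.1)))
      (g.cdP e (sI e hy.1)).continuousAt).continuousWithinAt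
  have D0 : ∀ x ∈ SW M Z \ ⋃ e, M.En e (Icc (a e) (b e)), D x = 0 := fun x hx => by
    have : (fun c => pd (ch M a b) x c • Y x) = 0 := by
      rw [pd_ch g hab hx.1.1 fun e k => hx.2 (mem_iUnion.2 ⟨e, k⟩)]
      funext c
      simp
    simp only [D, this, kk_zero']
    simp [dt]
  have e1 : ∫ x in SW M Z, D x ∂sig M.w = -∑ e, ∫ z in a e..b e,
      deriv (ct (a e) (b e)) z • ∫ θ in (0 : ℝ)..2 * π, fl M e X Y v (z, θ) := by
    rw [setIntegral_eq_of_subset_of_forall_sdiff_eq_zero mS (iUnion_subset fun e => en e _ (aR e))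
      D0, integral_iUnion_fintype (fun e => g.meas_En measurableSet_Icc (sI e))
      (fun e e' k => disjoint_left.2 (by
        rintro _ i ⟨y, hy, rfl⟩
        exact g.notMem_En k (sI e) (sI e' hy.1) i)) fun e => (iD e).1, ← Finset.sum_neg_distrib]
    refine Finset.sum_congr rfl fun e _ => ?_
    rw [(iD e).2, ← intervalIntegral.integral_neg]
    refine intervalIntegral.integral_congr fun z hz => ?_
    rw [uIcc_of_le (hab e).2.le] at hz
    simp only [← intervalIntegral.integral_smul, ← intervalIntegral.integral_neg]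
    exact intervalIntegral.integral_congr fun θ _ => chart g hab (y := (z, θ)) (sI e hz)
      ((hr _ (en e _ (aR e) (Mod.P_mem_En hz))).1.differentiableAt (by norm_num))
  rw [← sub_eq_zero, ← integral_sub i1 i2, ← setIntegral_eq_integral_of_ae_compl_eq_zero
    (s := SW M Z), setIntegral_congr_fun (g := fun x => ch M a b x * I x + D x) mS,
    integral_add hi
      ((integrableOn_finite_iUnion.2 fun e => (iD e).1).of_forall_sdiff_eq_zero mS D0), e1] at h
  · exact add_neg_eq_zero.1 h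
  · intro x hx
    simp only [D, hI]
    rw [pd_smul ((ch_cd g hab hx.1).differentiableAt one_ne_zero)
      ((hr x hx).2.1.differentiableAt one_ne_zero), kk_comm, kk_add, smul_kk, dt_add, dt_smul,
      smul_dt, kk_comm (pd Y x), kk_comm _ (pd X x)]
    ring
  · filter_upwards [ae_restrict_mem (μ := μHE[2])
      (isClosed_eq g.smw.continuous continuous_const).measurableSet] with x hx k
    obtain ⟨j, y, hy, rfl⟩ := mem_iUnion.1 (not_not.1 fun i => k ⟨(g.shr.mem_iff x).2 hx, i⟩)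
    have := z0 _ (ch_zero g hab ((hb j).trans_le hy.1))
    rw [pd_congr this, pd_const, kk_zero', show ch M a b _ • Y _ = 0 from this.self_of_nhds]
    simp [dt]

end Fva

open Fva in
theorem fva (sib : SIBP) : FVA := by
  intro M g Z hZ
  have mS := meas_SW g hZ
  refine ⟨mS, fun X Y v G hr hi hG hl => ?_⟩
  set I : E3 → ℂ := fun x => dt (v x) (kk (pd X x) (pd Y x) (nu M.w x))
    - dt (Y x) (kk (pd v x) (pd X x) (nu M.w x)) with hI
  let a : ℕ → M.I → ℝ := fun n => Sum.elim (fun j => Z j - 2 / (n + 3)) fun _ => M.R + 1 + n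
  let b : ℕ → M.I → ℝ := fun n => Sum.elim (fun j => Z j - 1 / (n + 3)) fun _ => M.R + 2 + n
  have q : ∀ n : ℕ, 0 < 1 / ((n : ℝ) + 3) ∧ 1 / ((n : ℝ) + 3) < 2 / (n + 3) ∧
      2 / ((n : ℝ) + 3) < 1 := fun n => ⟨by positivity, by gcongr; norm_num,
    (div_lt_one (by positivity)).2 (by linarith [n.cast_nonneg (α := ℝ)])⟩
  have q0 : ∀ δ > 0, ∀ᶠ n : ℕ in atTop, 2 / ((n : ℝ) + 3) < δ := fun δ h =>
    (tendsto_const_nhds.div_atTop (tendsto_atTop_add_const_right _ _
      tendsto_natCast_atTop_atTop)).eventually (gt_mem_nhds h)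
  have q1 : ∀ c : ℝ, ∀ᶠ n : ℕ in atTop, c < M.R + 1 + n := fun c =>
    (tendsto_atTop_add_const_left _ _ tendsto_natCast_atTop_atTop).eventually (eventually_gt_atTop c)
  have hab : ∀ n e, M.R + 1 ≤ a n e ∧ a n e < b n e := by
    rintro n (j | l) <;> simp only [a, b, Sum.elim_inl, Sum.elim_inr]
    · exact ⟨by linarith [hZ j, (q n).2.2], by linarith [(q n).2.1]⟩
    · exact ⟨by linarith [n.cast_nonneg (α := ℝ)], by linarith⟩
  have hm : ∀ n, AEStronglyMeasurable (fun x => ch M (a n) (b n) x * I x)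
      ((sig M.w).restrict (SW M Z)) := fun n => (ContinuousOn.aestronglyMeasurable
    (fun x hx => (ch_cd g (hab n) hx.1).continuousAt.continuousWithinAt) mS).mul hi.1
  have hn : ∀ n, ∀ᵐ x ∂(sig M.w).restrict (SW M Z),
      ‖ch M (a n) (b n) x * I x‖ ≤ (1 + Fintype.card M.I) * ‖I x‖ := fun n =>
    ae_of_all _ fun x => (norm_mul_le _ _).trans (by gcongr; exact ch_norm x)
  have hL := tendsto_integral_of_dominated_convergence (f := I) _ hm (hi.norm.const_mul _) hn
    ((ae_restrict_mem mS).mono fun x hx => tendsto_const_nhds.congr' (by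
      have : ∀ e, ∀ᶠ n in atTop, x ∉ M.En e (Ici (a n e)) := fun e => by
        by_cases k : x ∈ M.En e (Ioi M.R)
        · obtain ⟨y, hy, rfl⟩ := k
          have : ∀ᶠ n in atTop, y.1 < a n e := by
            rcases e with j | l
            · exact (q0 _ (sub_pos.2 ((mem_SW g hZ hy.1).1 hx j rfl))).mono fun n h => by
                simp only [a, Sum.elim_inl]
                linarith
            · exact q1 _
          exact this.mono fun n h i => h.not_ge ((g.mem_En (sub_a (hab n) e) hy.1).1 i)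
        · exact .of_forall fun n i => k (Mod.En_mono (sub_a (hab n) e) i)
      filter_upwards [eventually_all.2 this] with n h
      rw [(ch_one g (hab n) hx.1 h).self_of_nhds, one_mul]))
  simp only [fun n => cut g (hab n) sib hZ (fun j => sub_lt_self _ (q n).1) hr hI
    ((hi.norm.const_mul _).mono' (hm n) (hn n))] at hL
  refine tendsto_nhds_unique hL ?_
  have e : ∑ j, ∫ θ in (0 : ℝ)..2 * π, G j (Z j, θ) =
      ∑ e : M.I, Sum.elim (fun j => ∫ θ in (0 : ℝ)..2 * π, G j (Z j, θ)) (fun _ => 0) e := by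
    simp
  rw [e]
  refine tendsto_finsetSum _ fun e _ => Metric.tendsto_nhds.2 fun ε hε => ?_
  rcases e with j | l
  · have c : ContinuousOn (fun z => ∫ θ in (0 : ℝ)..2 * π, G j (z, θ)) (Icc (Z j - 1) (Z j)) :=
      continuousOn_iff_continuous_domRestrict.2
        (intervalIntegral.continuous_parametric_intervalIntegral_of_continuous'
          (f := fun (z : Icc (Z j - 1) (Z j)) θ => G j (z, θ))
          ((hG j).1.comp_continuous (by fun_prop) fun x => ⟨x.1.2, trivial⟩) _ _)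
    obtain ⟨δ, h0, hδ⟩ := Metric.continuousWithinAt_iff.1 (c _ ⟨by linarith, le_rfl⟩) _
      (half_pos hε)
    filter_upwards [q0 δ h0] with n h
    have s : ∀ z ∈ Icc (a n (.inl j)) (b n (.inl j)), z ∈ Ioo (Z j - 1) (Z j) ∧ Z j - z < δ :=
      fun z hz => by
        simp only [a, b, Sum.elim_inl, mem_Icc] at hz
        exact ⟨⟨by linarith [(q n).2.2], by linarith [(q n).1]⟩, by linarith⟩
    rw [intervalIntegral.integral_congr (g := fun z => deriv (ct (a n (.inl j)) (b n (.inl j))) z •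
      ∫ θ in (0 : ℝ)..2 * π, G j (z, θ)) fun z hz => by
        rw [uIcc_of_le (hab n _).2.le] at hz
        simp only [fun θ => (hG j).2 (z, θ) (s z hz).1], dist_eq_norm]
    refine (avg' (hab n _).2 (c.mono fun z hz => Ioo_subset_Icc_self (s z hz).1)
      fun z hz => ?_).trans_lt (half_lt_self hε)
    rw [← dist_eq_norm]
    exact (hδ (Ioo_subset_Icc_self (s z hz).1) (by
      rw [dist_comm, Real.dist_eq, abs_of_pos (sub_pos.2 (s z hz).1.2)]
      exact (s z hz).2)).le
  · obtain ⟨R, hR⟩ := hl l (ε / 2 / (2 * π)) (by positivity)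
    filter_upwards [q1 R] with n h
    rw [Sum.elim_inr, dist_zero_right]
    refine (avg (hab n _).2 fun z hz => ?_).trans_lt (half_lt_self hε)
    refine (intervalIntegral.norm_integral_le_of_norm_le_const fun θ _ =>
      hR (z, θ) (h.le.trans hz.1)).trans_eq ?_
    rw [sub_zero, abs_of_pos Real.two_pi_pos, div_mul_cancel₀ _ Real.two_pi_pos.ne']

end Vale.Agent.P218N
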