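import Vale.Agent.P218N.Lin0
import Vale.Agent.P218I.Ev

/-! Block NL: where the profile of the shift vanishes the shifts are not seen; the integrands. -/

open Set Filter Topology
open scoped ContDiff

set_option linter.unusedSectionVars false

noncomputable section

namespace Vale.Agent.P218N

section

variable {B : Type*} [NormedAddCommGroup B] [NormedSpace ℝ B] {G G' : E3 × ℂ × B → V3}
  {z z' : E3 × ℂ × B} {x : E3} {j : Jt} {t t' : B}

/-- `G` near `z` is a translate of `G'` near `z'` -/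
def Tl (G G' : E3 × ℂ × B → V3) (z z' : E3 × ℂ × B) : Prop :=
  G =ᶠ[𝓝 z] fun q => G' (q + (z' - z))

theorem Tl.eq (h : Tl G G' z z') : G z = G' z' := h.eq_of_nhds.trans (by simp)

theorem Tl.fd (h : Tl G G' z z') (u : E3 × ℂ × B) :
    Tl (fun q => fderiv ℝ G q u) (fun q => fderiv ℝ G' q u) z z' :=
  (EventuallyEq.fderiv (𝕜 := ℝ) h).mono fun q e => by
    simp only [e, fderiv_comp_add_right]

theorem Tl.jA (h : Tl G G' (x, j none none, t) (x, j none none, t')) :
    jA G x j t = jA G' x j t' := funext fun b => by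
  simp only [P218N.jA, dB, dF, (h.fd _).eq]

theorem Tl.jA2 (h : Tl G G' (x, j none none, t) (x, j none none, t')) :
    jA2 G x j t = jA2 G' x j t' := funext fun c => funext fun b => by
  rw [P218N.jA2, P218N.jA2, Tl.jA (G := dB b G) (h.fd _), Tl.jA (G := dF G) (h.fd _),
    show dF G _ = dF G' _ from (h.fd _).eq]
  rfl

end

variable {ι α : Type} [Fintype ι] [Fintype α]

/-- the parameters without the shifts -/
def Pi'.z (t : Pi' ι α) : Pi' ι α := (t.1, t.2.1, 0, t.2.2.2)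

/-- the parameters without the shifts and the observables -/
def Pi'.o (t : Pi' ι α) : Pi' ι α := (t.1, t.2.1, 0)

namespace AD

/-- the fields without the shift -/
def z (D : AD ι α) : AD ι α := { D with sh := 0 }

variable {D : AD ι α} {x : E3} {φ : ℂ} {j : Jt} {t t' : Pi' ι α}

theorem tl (h : ∀ j, D.sh j =ᶠ[𝓝 x] fun _ => 0) (e : t'.1 = t.1) :
    Tl D.XX D.z.XX (x, φ, t) (x, φ, t') :=
  ((continuousAt_fst (p := (x, φ, t))).eventually
    (eventually_all.2 h : ∀ᶠ y in 𝓝 x, ∀ j, D.sh j y = 0)).mono fun q k => by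
      simp [XX, X0, ov, z, e, k]

section

variable (h : ∀ j, D.sh j =ᶠ[𝓝 x] fun _ => 0)
include h

theorem XX_z : D.XX (x, φ, t) = D.z.XX (x, φ, t.z) := (tl (t := t) (t' := t.z) h rfl).eq

theorem dF_z : dF D.XX (x, φ, t) = dF D.z.XX (x, φ, t.z) := ((tl (t := t) (t' := t.z) h rfl).fd _).eq

theorem jA_z : jA D.XX x j t = jA D.z.XX x j t.z := (tl (t := t) (t' := t.z) h rfl).jA

theorem E_z : D.E x j t = D.z.E x j t.z := by
  simp only [E, XX_z h, dF_z h, jA_z h, (tl (t := t) (t' := t.z) h rfl).jA2]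
  rfl

theorem Rm_z : D.Rm x j t = D.z.Rm x j t.z := by
  rw [Rm, E_z h]
  rfl

theorem If_z : D.If x j t = D.z.If x j t.z := by
  simp only [If, Wj, XX_z h, jA_z h]
  rfl

theorem IO_z (l : ι) : D.IO l x j t = D.z.IO l x j t.z := by
  simp only [IO, Wj, XX_z h, jA_z h]
  rfl

theorem fn_z : D.fn x j t = D.z.fn x j t.z := by
  simp only [fn, dF_z h, jA_z h]
  rfl

theorem Gd_z : D.Gd x j t ↔ D.z.Gd x j t.z :=
  ⟨fun ⟨a, b, c⟩ => ⟨⟨a.w, a.a, a.lam, a.rot, fun _ => contDiffAt_const, a.ze, a.cyl, a.cay⟩,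
    by rw [XX_z h] at b; exact ⟨b.k, b.g⟩, by rw [jA_z h] at c; exact c⟩,
  fun ⟨a, b, c⟩ => ⟨⟨a.w, a.a, a.lam, a.rot,
    fun j => contDiffAt_const.congr_of_eventuallyEq (h j), a.ze, a.cyl, a.cay⟩,
    by rw [XX_z h]; exact ⟨b.k, b.g⟩, by rw [jA_z h]; exact c⟩⟩

/-- when the observables are switched off their heights are not seen -/
theorem Rm_o (e : t.2.2.2.1 = 0) : D.Rm x j t = D.z.Rm x j t.o := by
  have a : L0.Tr t := fun l => .inl (congrFun e l)
  have b : L0.Tr t.o := fun l => .inl rfl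
  have c := tl (φ := j none none) (t := t) (t' := t.o) h rfl
  rw [Rm, Rm, a.E, b.E, c.eq, c.jA, c.jA2, show dF D.XX _ = dF D.z.XX _ from (c.fd _).eq]
  rfl

theorem If_o (e : t.2.2.2.1 = 0) : D.If x j t = D.z.If x j t.o := by
  have a : L0.Tr t := fun l => .inl (congrFun e l)
  have b : L0.Tr t.o := fun l => .inl rfl
  have c := tl (φ := j none none) (t := t) (t' := t.o) h rfl
  rw [If, If, Om, Om, a.gw, b.gw, Wj, Wj, c.eq, c.jA]
  rfl

end

theorem Nr.z (h : D.Nr x) : D.z.Nr x :=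
  have o := h.ok
  ⟨⟨o.w, o.a, o.lam, o.rot, fun _ => contDiffAt_const, o.ze, o.cyl, o.eik, o.zero, o.shr, o.unit,
    o.brot⟩, h.int, fun _ => .rfl, h.b, h.ψ⟩

section

variable {E' P : Type*} [NormedAddCommGroup E'] [NormedSpace ℝ E'] [NormedAddCommGroup P]
  [NormedSpace ℝ P] [NormedSpace ℂ P] [IsScalarTower ℝ ℂ P] {y : E' × P} {g : E' → E3}
  {j : E' × P → Jt} {u : E' × P → Pi' ι α}

theorem Gd.sIf (h : D.Gd (g y.1) (j y) (u y)) (hg : ContDiffAt ℝ ∞ g y.1) (hj : SH j y)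
    (hu : SH u y) : SH (fun q => D.If (g q.1) (j q) (u q)) y :=
  (h.rg.Om h.rw hg hu ((h.rg.sX hg hj hu).dt (h.rg.sX hg hj hu))).mul (h.rg.Wj hg hj hu h.sl)

theorem Gd.sIO (h : D.Gd (g y.1) (j y) (u y)) (hg : ContDiffAt ℝ ∞ g y.1) (hj : SH j y)
    (hu : SH u y) (l : ι) : SH (fun q => D.IO l (g q.1) (j q) (u q)) y :=
  have s := (h.rg.sX hg hj hu).dt (h.rg.sX hg hj hu)
  ((s.neg.div (.const 4) (by norm_num)).exp.mul (zl (h.rg.ze l) hg (h.rw.k l)
    ((hu.p2.p2.p2.p2.ap l).lk s))).mul (h.rg.Wj hg hj hu h.sl)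

end

/-- the integrands are holomorphic in the jet of order one and in the parameters -/
theorem Gd.diff (h : D.Gd x j t) :
    DifferentiableAt ℂ (fun q : (P218H.J1 3 → ℂ) × Pi' ι α => D.If x (fun _ => q.1) q.2)
      (j none, t) ∧ ∀ l,
    DifferentiableAt ℂ (fun q : (P218H.J1 3 → ℂ) × Pi' ι α => D.IO l x (fun _ => q.1) q.2)
      (j none, t) :=
  have k : D.Gd x (fun _ => j none) t := ⟨h.rg, h.rw, h.sl⟩
  have hj : SH (fun q : E3 × (P218H.J1 3 → ℂ) × Pi' ι α => (fun _ => q.2.1 : Jt)) (x, j none, t) :=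
    .pi fun _ => SH.snd.p1
  ⟨(Gd.sIf (g := fun x => x) (y := (x, j none, t)) k contDiffAt_id hj SH.snd.p2).at_, fun l =>
    (Gd.sIO (g := fun x => x) (y := (x, j none, t)) k contDiffAt_id hj SH.snd.p2 l).at_⟩

end AD

end Vale.Agent.P218N

namespace Vale.Agent.P218T

variable {ι : Type} [Fintype ι]

/-- the opening `0` is admissible -/
theorem ev_c0 {Q : Pt ι → Prop} (h : ∀ᶠ p in ev ι, Q p) : ∀ᶠ p in ev ι, Q { p with c := 0 } :=
  ev_iff.2 ((ev_iff.1 h).mono fun _ h => h.mono fun _ h => h.mono fun _ h => h.mono fun _ h J =>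
    (h J).mono fun _ h => (h.and (eventually_ge_atTop (3 * P218Q.nu J + 1))).mono
      fun Z h m W c v a => h.1 m W 0 v ⟨a.hJ, a.hW, a.hm, fun l => by
        have n : 0 < P218Q.nu J := by unfold P218Q.nu; positivity
        have w : 3 * P218Q.nu J + 1 ≤ W l := h.2.trans (a.hW l).1
        have : 4 * (7 / 5 * P218Q.nu J) / W l ^ 2 < 2 := by
          rw [div_lt_iff₀ (by nlinarith)]
          nlinarith
        simp only [P218Q.dsc, P218Q.vb, mem_ofPred_eq, Pi.zero_apply, zero_mul, add_zero]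
        norm_num
        linarith, a.hv⟩)

end Vale.Agent.P218T
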