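import Vale.Agent.P218N.Spec3
import Vale.Agent.P218N.AmbB
import Vale.Agent.P218N.Bv
import Vale.Agent.P218I.Cj
import Vale.Agent.P218H.Ms1
import Vale.Agent.P218C.Bd

/-! Block NL: the integrands are regular and dominated in the box. -/

open MeasureTheory Set Filter Topology Metric
open scoped ContDiff Real

noncomputable section

namespace Vale.Agent.P218I

open Vale.Agent.P218T Vale.Agent.P218L GD
open Vale.Agent.P218N (sig jt km lk rh0 Wf TUB AD cyb)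

/-- the near zone, uniformly in the cuts -/
def NRZ : Prop := Row fun M _ G => ∃ r C : ℝ, 0 < r ∧ 0 ≤ C ∧ ∀ Z : Fin M.n₁ → ℝ,
  (∀ j, G.ρ + 12 ≤ Z j) → ∀ m (y : G.XX Z × Pm (Fin M.n₁)) δ, δ ≤ r → zn y.1 ≤ δ →
  ‖y.2.2.2.1‖ ≤ δ → (∀ j, ‖km (m j)‖ ≤ δ) → ∀ x ∈ M.S, ‖x‖ ≤ G.ρ + 9 →
    (G.ad Z).Gd x (jt (uu y.1) x) (par m y) ∧ (G.ad Z).fn x (jt (uu y.1) x) (par m y) ≠ 0 ∧
    (∀ l, ‖(G.ad Z).IO l x (jt (uu y.1) x) (par m y)‖ ≤ C * ‖km (m l)‖ ^ 2) ∧
    ‖(G.ad Z).If x (jt (uu y.1) x) (par m y) - rh0 x‖ ≤ C * δ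

/-- regularity in the near zone -/
def GN : Prop := RowP fun M _ G p => ∀ y ∈ G.Bx p, ∀ x ∈ M.S, ‖x‖ ≤ G.ρ + 9 →
  (G.ad p.W).Gd x (jt (uu y.1) x) (par p.m y)

namespace Gds

variable {M : Mod} {k : ℕ} {G : GD M k} {Z : Fin M.n₁ → ℝ}

theorem le_zn (U : G.XX Z) : ‖U.2.2.1‖ ≤ zn U ∧ ‖U.2.2.2‖ ≤ zn U ∧ ∀ l, ‖U.2.1.2 l‖ ≤ zn U :=
  have a : ‖(G.coo Z U).2.2‖ ≤ zn U :=
    (norm_snd_le _).trans ((norm_snd_le _).trans (norm_fst_le (G.coo Z U, U.2.2.2)))
  ⟨(norm_snd_le (G.coo Z U).2.2).trans a, norm_snd_le (G.coo Z U, U.2.2.2), fun l =>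
    (norm_le_pi_norm U.2.1.2 l).trans ((norm_fst_le (G.coo Z U).2.2).trans a)⟩

theorem norm_km (m : ℝ) : ‖km m‖ = Real.exp (-m ^ 2 / 4) := by
  rw [show km m = (Real.exp (-m ^ 2 / 4) : ℝ) by simp [km], Complex.norm_real,
    Real.norm_of_nonneg (Real.exp_pos _).le]

theorem km_le {m r : ℝ} (hr : 0 < r) (h : 4 / r + 1 ≤ m) : ‖km m‖ ≤ r := by
  have a : 0 < 4 / r := by positivity
  rw [norm_km, neg_div, Real.exp_neg, inv_le_comm₀ (Real.exp_pos _) hr]
  have := Real.add_one_le_exp (m ^ 2 / 4)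
  have e : r⁻¹ = 4 / r / 4 := by field_simp
  nlinarith

/-- the box is small -/
theorem box (h : ∀ᶠ p in ev (Fin M.n₁), ∀ U, zn U ≤ p.K * G.Nn p U) {r : ℝ} (hr : 0 < r) :
    ∀ᶠ p in ev (Fin M.n₁), ∀ y ∈ G.Bx p, zn y.1 < r ∧ ‖y.2.2.2.1‖ ≤ r ∧
      ∀ m, p.Z / 25 ≤ m → ‖km m‖ ≤ r := by
  filter_upwards [h, ev_cs (ev₀_K 1), ev_cs (ev₀_r (f := fun K => r / K)
    ((eventually_gt_atTop 0).mono fun _ h => by positivity)),
    ev_Z fun _ _ _ => 25 * (4 / r + 1)] with p h hK h1 h2 y hy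
  have a : 0 < 4 / r := by positivity
  have K0 : 0 < p.K := one_pos.trans_le hK
  refine ⟨(h _).trans_lt ((mul_lt_mul_of_pos_left hy.1 K0).trans_le ((le_div_iff₀' K0).1 h1.2)),
    ?_, fun m hm => km_le hr (by linarith)⟩
  have b : ‖y.2.2.2.1‖ ≤ ‖y.2 - bs p.c p.v‖ := by
    simpa [bs] using (norm_fst_le _).trans ((norm_snd_le _).trans (norm_snd_le (y.2 - bs p.c p.v)))
  refine b.trans (hy.2.le.trans ?_)
  rw [inv_le_comm₀ (pow_pos (by linarith) _) hr]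
  have e : r⁻¹ = 4 / r / 4 := by field_simp
  exact le_trans (by linarith) (le_self_pow₀ (by linarith) (by norm_num))

theorem ex_le {z a : ℝ} {x : E3} (hz : 1 ≤ z) (hx : ‖x‖ ≤ z + 1 / 8) (h : a ≤ -(15 / 64 * z ^ 2)) :
    Real.exp a ≤ Real.exp (-‖x‖ ^ 2 / 8) := by
  have := pow_le_pow_left₀ (norm_nonneg _) hx 2
  rw [Real.exp_le_exp]
  nlinarith

theorem div_bd {I R : ℂ} {J c A e K : ℝ} (h : I * J = R) (hc : 0 < c) (hJ : c ≤ J) (e0 : 0 ≤ e)
    (hR : ‖R‖ ≤ A * e) (hK : A / c ≤ K) : ‖I‖ ≤ K * e := by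
  rw [← h, norm_mul, Complex.norm_real, Real.norm_of_nonneg (hc.le.trans hJ)] at hR
  refine le_trans ?_ (mul_le_mul_of_nonneg_right hK e0)
  rw [div_mul_eq_mul_div, le_div_iff₀ hc]
  exact (mul_le_mul_of_nonneg_left hJ (norm_nonneg _)).trans hR

end Gds

open Gds

theorem nrz (tub : TUB) (adn : ADN) (evj : EVJ) : NRZ := by
  refine (Row.and adn evj).mono fun M k G o ⟨a, C, C0, e⟩ => ?_
  obtain ⟨r, D, r0, D0, t⟩ := tub _ _ (G.ad fun _ => G.ρ + 12).z (M.S ∩ closedBall 0 (G.ρ + 9))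
    ((isCompact_closedBall _ _).inter_left o.ld.geo.isClosed_S) fun x hx =>
      (((a _ _ (fun _ => le_rfl) le_rfl).2 x hx.1).1 (mem_closedBall_zero_iff.1 hx.2)).z
  refine ⟨r / (C + 2), D * (C + 1), by positivity, by positivity,
    fun Z hZ m y δ hδ h1 h2 h3 x hx hn => ?_⟩
  have s := (((a Z _ hZ le_rfl).2 x hx).1 hn).sh
  have δ0 : 0 ≤ δ := (norm_nonneg _).trans h2
  rw [le_div_iff₀ (by positivity)] at hδ
  have j1 : ∀ i, ‖jt (uu y.1) x none i‖ ≤ (C + 1) * δ := fun i =>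
    ((norm_le_pi_norm _ i).trans (norm_le_pi_norm _ none)).trans
      ((((e Z hZ).2 y.1).2.2.2 x hx hn).2.1.trans
        (by linarith [mul_le_mul_of_nonneg_left h1 C0]))
  have j2 : ‖(par m y).z‖ ≤ (C + 1) * δ := le_trans (norm_prod_le_iff.2
    ⟨(le_zn _).1.trans h1, norm_prod_le_iff.2 ⟨(le_zn _).2.1.trans h1, norm_prod_le_iff.2
      ⟨norm_zero.trans_le δ0, norm_prod_le_iff.2 ⟨h2, (pi_norm_le_iff_of_nonneg δ0).2 h3⟩⟩⟩⟩)
    (by nlinarith)
  have l : (C + 1) * δ < r := by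
    rcases δ0.eq_or_lt with h | h
    · rw [← h, mul_zero]
      exact r0
    · nlinarith
  obtain ⟨b1, b2, b3, b4⟩ := t x ⟨hx, mem_closedBall_zero_iff.2 hn⟩ _ _
    (fun i => (j1 i).trans_lt l) (j2.trans_lt l)
  refine ⟨(AD.Gd_z s).2 b1, (AD.fn_z s).trans_ne b2, fun l => ?_, ?_⟩
  · rw [AD.IO_z s]
    exact (b3 l).trans (mul_le_mul_of_nonneg_right (by nlinarith) (sq_nonneg _))
  · rw [AD.If_z s, mul_assoc]
    exact b4 _ j1 j2

theorem gn (nrz : NRZ) (zon : ZON) : GN := by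
  refine (Row.and nrz zon).mono fun M k G o ⟨⟨r, C, r0, _, h⟩, z⟩ => ?_
  filter_upwards [box (z.mono fun _ h U => (h.1 U).1) r0, ev_ad, ev_W fun _ => G.ρ + 12]
    with p b a hW y hy x hx hn
  obtain ⟨b1, b2, b3⟩ := b y hy
  exact (h _ (fun j => (hW j).1) _ y r le_rfl b1.le b2
    (fun j => b3 _ (by linarith [(a.hW j).1, (a.hm j).1])) x hx hn).1

theorem gds (nrz : NRZ) (adn : ADN) (jth : JTH) (stc : STC) (stk : STK) (smc : SMC) (smk : SMK)
    (zon : ZON) : GDS := by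
  refine ((Row.and (Row.and nrz zon) (Row.and adn jth)).and
    ((Row.and stc stk).and (Row.and smc smk))).mono fun M k G o
    ⟨⟨⟨⟨r, C, r0, C0, h⟩, z⟩, adn, jth⟩, ⟨stc, stk⟩, smc, r₁, r1, smk⟩ => ?_
  have g := o.ld.geo
  obtain ⟨c, c0, js⟩ := g.JS_lo
  have lo := o.ld.lo
  have hi := o.ld.hi
  have R1 := g.one.1
  filter_upwards [box (z.mono fun _ h U => (h.1 U).1) r0, box (z.mono fun _ h U => (h.1 U).1) r1,
    ev_W fun _ => G.ρ + 12, ev_cs (ev₀_z fun _ _ => G.ρ + 9), smc, ev_cs (ev₀_K (24 / c)),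
    ev_cs (ev₀_K ((1 + C * r + C) * Real.exp ((G.ρ + 5) ^ 2 / 8))),
    eventually_all.2 fun l => ev_cs (ev₀_K (2 * |spd (M.γ l)| / c))]
    with p b b' hW hz smc K1 K2 K3 y hy m hm x hx
  have hW := fun j => (hW j).1
  have K0 : 0 ≤ p.K := le_trans (by positivity) K1
  have ad := (adn _ _ hW hz).2 x hx.1
  have e0 := (Real.exp_pos (-‖x‖ ^ 2 / 8)).le
  rcases le_or_gt ‖x‖ (G.ρ + 5) with n | n
  · obtain ⟨b1, b2, b3⟩ := b y hy
    obtain ⟨h1, h2, h3, h4⟩ := h _ hW m y r le_rfl b1.le b2 (fun j => b3 _ (hm j)) x hx.1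
      (by linarith)
    have e : jt (ft p.z₃ y) x = jt (uu y.1) x := funext₂ fun i j => (P218H.dd_ev (P218H.dd_ev
      ((((jth _ _ hW hz x hx).1 y y).2.2 (by linarith)).1) j) i).eq_of_nhds
    have k : 1 + C * r + C ≤ p.K * Real.exp (-‖x‖ ^ 2 / 8) := by
      rw [neg_div, Real.exp_neg, ← div_eq_mul_inv, le_div_iff₀ (Real.exp_pos _)]
      refine le_trans ?_ K2
      gcongr
    have k' : C ≤ p.K := by
      refine le_trans ?_ K2
      nlinarith [Real.one_le_exp (show 0 ≤ (G.ρ + 5) ^ 2 / 8 by positivity), mul_nonneg C0 r0.le]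
    have q : ∀ j, ‖km (m j)‖ ^ 2 = Real.exp (-m j ^ 2 / 2) := fun j => by
      rw [norm_km, ← Real.exp_nat_mul]
      congr 1
      push_cast
      ring
    simp only [Ii, Io, e]
    refine ⟨h1, ?_, ?_, fun j => (h3 j).trans (le_trans ?_ k), fun _ j => (h3 j).trans ?_⟩
    · rcases le_or_gt ‖x‖ (G.ρ + 2) with n' | n'
      · exact .inl ⟨h2, fun l => ⟨ad.2.1 n' l, ((ad.1 (by linarith)).sh l).eq_of_nhds⟩⟩
      · exact .inr (ad.2.2.1 n' m y)
    · have : ‖rh0 x‖ ≤ 1 := by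
        rw [rh0, Complex.norm_real, Real.norm_of_nonneg (Real.exp_pos _).le, Real.exp_le_one_iff]
        nlinarith [sq_nonneg ‖x‖]
      exact (norm_le_insert' _ (rh0 x)).trans (by linarith)
    · have : Real.exp (-m j ^ 2 / 2) ≤ 1 := Real.exp_le_one_iff.2 (by nlinarith [sq_nonneg (m j)])
      rw [q]
      nlinarith [mul_nonneg C0 r0.le]
    · rw [q]
      gcongr
  obtain ⟨e, q, q1, -, rfl⟩ := g.far (c := G.ρ + 4) (by linarith) hx.1 (by linarith)
  have qR : M.R < q.1 := by linarith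
  have nx := ((g.cht e).rad q qR).2
  have fa := ad.2.2.1 (by linarith) m y
  have J := js e q qR
  rcases e with j | l
  · have qW : q.1 < p.W j := lt_of_not_ge fun a => hx.2 (mem_iUnion.2 ⟨j, Mod.P_mem_En a⟩)
    have s := smc y hy j q ⟨by linarith, qW.le⟩
    obtain ⟨-, -, -, s1, -, s2, s3, s4, -⟩ := (stc _ _ hW hz m y j).2 q q1 qW s
    obtain ⟨-, w1, -, w2, -, w3, -⟩ := cyb _ q.1 (m j) _ _ _ s.cj s.z1 s.z2 s.ep
    have w4 := w3.trans (mul_le_mul_of_nonneg_left (ex_le (by linarith) nx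
      (by nlinarith [sq_nonneg q.1])) zero_le_two)
    simp only [Mod.sc, inv_one, one_mul] at J
    refine ⟨s1, .inr fa, div_bd s2 c0 J e0 ?_ K1, fun i => ?_, fun a => absurd a n.not_ge⟩
    · have : ‖1 + y.2.2.2.1 j * lk (km (m j)) (zt (p.W j) (y.2.2.1 j) q.1 ^ 2 +
          Vt p.z₃ y j q 0)‖ ≤ 3 / 2 := (norm_add_le _ _).trans (by
        rw [norm_one, norm_mul]
        linarith [mul_le_mul s.ep w2 (norm_nonneg _) (by norm_num)])
      rw [Oc, norm_mul, norm_mul]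
      refine (mul_le_mul (mul_le_mul w4 this (norm_nonneg _) (by positivity)) w1 (norm_nonneg _)
        (by positivity)).trans_eq (by ring)
    · by_cases a : i = j
      · subst a
        refine div_bd s3 c0 J e0 ?_ K1
        rw [norm_mul, norm_mul]
        refine (mul_le_mul (mul_le_mul w4 w2 (norm_nonneg _) (by positivity)) w1 (norm_nonneg _)
          (by positivity)).trans (by linarith)
      · rw [s4 i a, norm_zero]
        positivity
  · have s := smk _ y.1 l q (((le_zn _).2.2 l).trans_lt (b' y hy).1) (by linarith)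
    obtain ⟨-, s1, -, s2, s3, -⟩ := stk _ _ hW hz m y l q q1 s
    have q0 : 0 < q.1 := by linarith
    refine ⟨s1, .inr fa, div_bd (J := q.1⁻¹ * M.JS (.inr l) q)
      (R := Complex.exp (-(q.1 ^ 2 + ut y.1 l q 0 ^ 2) / 4) * Complex.sqrt (gk y.1 l q)) ?_ c0 J e0
      ?_ (K3 l), fun j => ?_, fun a => absurd a n.not_ge⟩
    · have : (q.1 : ℂ) ≠ 0 := by exact_mod_cast q0.ne'
      push_cast
      rw [mul_left_comm, s2]
      field_simp
    · rw [norm_mul, mul_comm]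
      refine mul_le_mul ?_ ?_ (norm_nonneg _) (by positivity)
      · refine le_of_sq_le_sq ?_ (by positivity)
        rw [P218N.Cjg.norm_sqrt_sq, mul_pow, sq_abs]
        linarith [s.hi]
      · rw [Complex.norm_exp]
        refine ex_le (by linarith) nx ?_
        have a := (Complex.abs_re_le_norm (ut y.1 l q 0 ^ 2)).trans
          ((norm_pow _ _).trans_le (pow_le_pow_left₀ (norm_nonneg _) s.u0 2))
        rw [Complex.div_ofNat_re, Complex.neg_re, Complex.add_re, ← Complex.ofReal_pow,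
          Complex.ofReal_re]
        linarith [neg_abs_le (ut y.1 l q 0 ^ 2).re]
    · rw [s3, norm_zero]
      positivity

theorem gdr (gds : GDS) (gn : GN) (flc : FLC) : GDR := by
  refine ((Row.and gds gn).and flc).mono fun M k G o ⟨⟨a, b⟩, c⟩ => ?_
  filter_upwards [a, b, c, ev_ad, ev_Z fun _ _ _ => 1] with p a b c d hZ U hU
  have m : (U, bs p.c p.v) ∈ G.Bx p := ⟨hU, by simp [pow_pos (one_pos.trans_le hZ)]⟩
  exact ⟨fun x hx => (a _ m _ (fun j => by linarith [(d.hW j).1, (d.hm j).1]) x hx).1,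
    fun x hx n => b _ m x hx (by linarith), fun j =>
      ⟨(c _ m j).2.1, fun θ => ((c _ m j).2.2.2.2.1 θ).1⟩⟩

open P218H.Ms in
theorem gau : GAU := fun M g => by
  have := lf g.shr
  obtain ⟨r₁, A, h0, h1, -, h2⟩ := upper g.shr
  have c : Continuous fun x : E3 => Real.exp (-‖x‖ ^ 2 / 8) := by fun_prop
  have i : Integrable fun y : E3 => 16 * Real.exp 32 * (1 + ‖y‖) ^ (-4 : ℝ) :=
    (integrable_one_add_norm (by rw [dim3]; norm_num)).const_mul _
  have h3 := fub (fun y => h2 y r₁ h0 le_rfl) c.measurable.ennreal_ofReal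
    (G := fun y => ENNReal.ofReal (16 * Real.exp 32 * (1 + ‖y‖) ^ (-4 : ℝ)))
    (by fun_prop) fun x y hxy => ENNReal.ofReal_le_ofReal (by
      have a1 : 1 + ‖y‖ ≤ 2 * Real.exp ‖x‖ := by
        linarith [norm_le_norm_add_norm_sub x y, dist_eq_norm x y, norm_nonneg x,
          Real.add_one_le_exp ‖x‖]
      have a3 : Real.exp (-‖x‖ ^ 2 / 8) * Real.exp ‖x‖ ^ 4 ≤ Real.exp 32 := by
        rw [← Real.exp_nat_mul, ← Real.exp_add, Real.exp_le_exp]
        push_cast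
        nlinarith [sq_nonneg (‖x‖ - 16)]
      rw [Real.rpow_neg (by positivity), ← div_eq_mul_inv, le_div_iff₀ (by positivity),
        show (4 : ℝ) = (4 : ℕ) by norm_num, Real.rpow_natCast]
      refine (mul_le_mul_of_nonneg_left (pow_le_pow_left₀ (by positivity) a1 4)
        (Real.exp_pos _).le).trans ?_
      rw [mul_pow]
      linarith)
  have h4 : Integrable (fun x : E3 => Real.exp (-‖x‖ ^ 2 / 8)) (mu M.S) :=
    ⟨c.aestronglyMeasurable, (hasFiniteIntegral_iff_ofReal (.of_forall fun x =>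
      (Real.exp_pos _).le)).2 (ENNReal.lt_top_of_mul_ne_top_left
        (h3.trans_lt (ENNReal.mul_lt_top i.lintegral_lt_top ENNReal.ofReal_lt_top)).ne
        (measure_closedBall_pos _ _ h0).ne')⟩
  rw [sig, ← show M.S = _ from Set.ext g.shr.mem_iff, Measure.euclideanHausdorffMeasure_def,
    Measure.restrict_smul]
  exact h4.smul_measure_nnreal

end Vale.Agent.P218I
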