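import Vale.Agent.P218N.Spec

/-! Block NL: Cauchy estimates, holomorphy of integrals and of maps into function spaces. -/

open MeasureTheory Set Filter Topology Metric
open scoped Real BoundedContinuousFunction

noncomputable section

namespace Vale.Agent.P218N

section basic

variable {X Y : Type*} [NormedAddCommGroup X] [NormedSpace ℂ X] [NormedAddCommGroup Y]
  [NormedSpace ℂ Y] {F : X → Y} {c z : X} {R M : ℝ}

omit [NormedSpace ℂ X] [NormedSpace ℂ Y] in
theorem maps2 (hR : 0 < R) (hM : ∀ x ∈ ball c R, ‖F x‖ ≤ M) :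
    MapsTo F (ball c R) (closedBall (F c) (2 * M)) := fun x hx => by
  rw [mem_closedBall, dist_eq_norm]
  linarith [norm_sub_le (F x) (F c), hM x hx, hM c (mem_ball_self hR)]

theorem cau0 (hd : DifferentiableOn ℂ F (ball c R)) (hM : ∀ x ∈ ball c R, ‖F x‖ ≤ M)
    (hz : z ∈ ball c R) : ‖F z - F c‖ ≤ 2 * M / R * ‖z - c‖ := by
  simpa [dist_eq_norm] using
    Complex.dist_le_div_mul_dist_of_mapsTo_ball hd (maps2 (nonempty_ball.1 ⟨z, hz⟩) hM) hz

theorem cau1 (hR : 0 < R) (hd : DifferentiableOn ℂ F (ball c R))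
    (hM : ∀ x ∈ ball c R, ‖F x‖ ≤ M) : ‖fderiv ℂ F c‖ ≤ 2 * M / R :=
  Complex.norm_fderiv_le_div_of_mapsTo_ball hd (maps2 hR hM) hR

theorem cau2 (hd : DifferentiableOn ℂ F (ball c R)) (hM : ∀ x ∈ ball c R, ‖F x‖ ≤ M)
    (hz : z ∈ ball c R) : ‖F z - F c - fderiv ℂ F c (z - c)‖ ≤ 4 * M / R ^ 2 * ‖z - c‖ ^ 2 := by
  have hR : 0 < R := nonempty_ball.1 ⟨z, hz⟩
  have h0 : 0 ≤ M := (norm_nonneg _).trans (hM z hz)
  have hc := (hd.differentiableAt (ball_mem_nhds c hR)).hasFDerivAt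
  have h1 := cau1 hR hd hM
  have key := Complex.dist_le_mul_div_pow_of_mapsTo_ball_of_isLittleO (n := 1) (R₂ := 4 * M)
    (f := fun w => F w - fderiv ℂ F c (w - c)) (c := c) (z := z) (R₁ := R)
    (hd.sub (by fun_prop)) (fun w hw => ?_) ?_ hz
  · simp only [sub_self, map_zero, sub_zero, dist_eq_norm] at key
    rw [sub_right_comm]
    refine key.trans_eq ?_
    rw [div_pow]; ring
  · have h2 := maps2 hR hM hw
    rw [mem_closedBall, dist_eq_norm] at h2 ⊢
    rw [mem_ball, dist_eq_norm] at hw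
    have h3 : ‖fderiv ℂ F c (w - c)‖ ≤ 2 * M / R * R :=
      ((fderiv ℂ F c).le_opNorm _).trans (by gcongr)
    rw [div_mul_cancel₀ _ hR.ne'] at h3
    simp only [sub_self, map_zero, sub_zero]
    rw [sub_right_comm]
    linarith [norm_sub_le (F w - F c) (fderiv ℂ F c (w - c))]
  · simp only [sub_self, map_zero, sub_zero, pow_one]
    refine (hc.isLittleO.norm_right).congr_left fun w => ?_
    rw [sub_right_comm]

theorem hasF_of_sq (hR : 0 < R) (D : X →L[ℂ] Y) (K : ℝ)
    (h : ∀ z ∈ ball c R, ‖F z - F c - D (z - c)‖ ≤ K * ‖z - c‖ ^ 2) : HasFDerivAt F D c := by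
  rw [hasFDerivAt_iff_isLittleO]
  refine Asymptotics.IsBigO.trans_isLittleO (g := fun z => ‖z - c‖ ^ 2) ?_ ?_
  · refine Asymptotics.IsBigO.of_bound K ?_
    filter_upwards [ball_mem_nhds c hR] with z hz
    simpa using h z hz
  · exact Asymptotics.isLittleO_pow_sub_sub c one_lt_two

end basic

theorem cau : CAU := by
  intro X Y _ _ _ _ _ F r M hr hd hM x hx
  have h0 : 0 ≤ M := (norm_nonneg _).trans (hM 0 (mem_ball_self hr))
  have hx' : ‖x‖ < r / 2 := mem_ball_zero_iff.1 hx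
  have hsub : ∀ (y : X) (s : ℝ), ‖y‖ + s ≤ r → ball y s ⊆ ball 0 r := fun y s h =>
    ball_subset_ball' (by rw [dist_zero_right]; linarith)
  have hx0 : x ∈ ball (0 : X) r := ball_subset_ball (by linarith) hx
  refine ⟨?_, ?_, ?_⟩
  · have h := hsub x (r / 2) (by linarith)
    refine (cau1 (half_pos hr) (hd.mono h) fun y hy => hM y (h hy)).trans_eq ?_
    field_simp; ring
  · have hm : ∀ y ∈ ball (0 : X) (r / 4), y + x ∈ ball (0 : X) r := fun y hy => by
      rw [mem_ball_zero_iff] at hy ⊢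
      linarith [norm_add_le y x]
    have hG : DifferentiableOn ℂ (fun y => F (y + x) - F y) (ball 0 (r / 4)) :=
      (hd.comp (by fun_prop) hm).sub (hd.mono (ball_subset_ball (by linarith)))
    have h1 := cau1 (M := 2 * M / (3 * r / 4) * ‖x‖) (by positivity) hG fun y hy => by
      rw [mem_ball_zero_iff] at hy
      have h := hsub y (3 * r / 4) (by linarith)
      have h2 := cau0 (z := y + x) (hd.mono h) (fun y hy => hM y (h hy))
        (by rw [mem_ball, dist_eq_norm, add_sub_cancel_left]; linarith)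
      rwa [add_sub_cancel_left] at h2
    have hFx := (hd.differentiableAt (isOpen_ball.mem_nhds hx0)).hasFDerivAt
    have hF0 := (hd.differentiableAt (ball_mem_nhds 0 hr)).hasFDerivAt
    have hFx' : HasFDerivAt F (fderiv ℂ F x) (0 + x) := by rwa [zero_add]
    have h2 : HasFDerivAt (fun y => F (y + x) - F y) (fderiv ℂ F x - fderiv ℂ F 0) 0 :=
      ((hasFDerivAt_comp_add_right x).2 hFx').sub hF0
    rw [h2.fderiv] at h1
    refine h1.trans ?_
    have h3 : 2 * (2 * M / (3 * r / 4) * ‖x‖) / (r / 4) = 64 * M / r ^ 2 * ‖x‖ / 3 := by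
      field_simp; ring
    have h4 : 0 ≤ 64 * M / r ^ 2 * ‖x‖ := by positivity
    linarith
  · have h := cau2 hd hM hx0
    rw [sub_zero] at h
    refine h.trans ?_
    gcongr; norm_num

theorem div2 : DIV2 := by
  intro a b F G Ft Gz hab hG hFt hGz hper hder
  have hp : (0 : ℝ) ≤ 2 * π := by positivity
  have hsl : ∀ {H : ℝ × ℝ → ℂ}, ContinuousOn H (Icc a b ×ˢ univ) → ∀ z ∈ Icc a b,
      Continuous fun θ => H (z, θ) := fun hH z hz =>
    hH.comp_continuous (by fun_prop) fun θ => ⟨hz, trivial⟩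
  have hsl' : ∀ {H : ℝ × ℝ → ℂ}, ContinuousOn H (Icc a b ×ˢ univ) → ∀ θ,
      ContinuousOn (fun z => H (z, θ)) (Icc a b) := fun hH θ =>
    hH.comp (by fun_prop) fun z hz => ⟨hz, trivial⟩
  have h1 : ∫ z in a..b, ∫ θ in (0 : ℝ)..2 * π, (Ft (z, θ) + Gz (z, θ)) =
      ∫ z in a..b, ∫ θ in (0 : ℝ)..2 * π, Gz (z, θ) := by
    refine intervalIntegral.integral_congr_Ioo_of_le hab fun z hz => ?_
    have hz' := Ioo_subset_Icc_self hz
    rw [intervalIntegral.integral_add ((hsl hFt z hz').intervalIntegrable _ _)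
      ((hsl hGz z hz').intervalIntegrable _ _),
      intervalIntegral.integral_eq_sub_of_hasDerivAt (fun θ _ => (hder z hz θ).1)
        ((hsl hFt z hz').intervalIntegrable _ _), hper z hz, sub_self, zero_add]
  rw [h1, intervalIntegral_intervalIntegral_swap (F := fun z θ => Gz (z, θ)),
    ← intervalIntegral.integral_sub ((hsl hG b (right_mem_Icc.2 hab)).intervalIntegrable _ _)
      ((hsl hG a (left_mem_Icc.2 hab)).intervalIntegrable _ _)]
  · refine intervalIntegral.integral_congr fun θ _ => ?_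
    exact intervalIntegral.integral_eq_sub_of_hasDerivAt_of_le hab (hsl' hG θ)
      (fun z hz => (hder z hz θ).2) ((hsl' hGz θ).intervalIntegrable_of_Icc hab)
  · rw [uIoc_of_le hab, uIoc_of_le hp]
    refine IntegrableOn.mono_set (t := Icc a b ×ˢ Icc 0 (2 * π)) ?_
      (prod_mono Ioc_subset_Icc_self Ioc_subset_Icc_self)
    exact ContinuousOn.integrableOn_compact (isCompact_Icc.prod isCompact_Icc)
      (hGz.mono (prod_mono subset_rfl (subset_univ _)))

theorem holi : HOLI := by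
  intro X T _ _ _ μ U F g hU hg hF hm
  have key : ∀ x ∈ U, ∃ D : X →L[ℂ] ℂ, HasFDerivAt (fun y => ∫ t, F y t ∂μ) D x ∧ ∀ v,
      Integrable (fun t => fderiv ℂ (fun y => F y t) x v) μ ∧
      D v = ∫ t, fderiv ℂ (fun y => F y t) x v ∂μ := by
    intro x hx
    obtain ⟨R, hR, hb⟩ := Metric.isOpen_iff.1 hU x hx
    have hi : ∀ y ∈ U, Integrable (F y) μ := fun y hy =>
      hg.mono' (hm y hy) (hF.mono fun t ht => ht.2 y hy)
    have hbd : ∀ v, ∀ᵐ t ∂μ, ‖fderiv ℂ (fun y => F y t) x v‖ ≤ 2 / R * ‖v‖ * g t := fun v =>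
      hF.mono fun t ht => by
        have h := cau1 hR (ht.1.mono hb) fun y hy => ht.2 y (hb hy)
        refine ((fderiv ℂ (fun y => F y t) x).le_opNorm v).trans ?_
        calc _ ≤ 2 * g t / R * ‖v‖ := by gcongr
          _ = _ := by ring
    have hme : ∀ v, AEStronglyMeasurable (fun t => fderiv ℂ (fun y => F y t) x v) μ := by
      intro v
      have hc : Tendsto (fun n : ℕ => ‖(n : ℂ)‖) atTop atTop := by
        simpa using tendsto_natCast_atTop_atTop (R := ℝ)
      have hl : Tendsto (fun n : ℕ => x + (n : ℂ)⁻¹ • v) atTop (𝓝 x) := by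
        have h : Tendsto (fun n : ℕ => (n : ℂ)⁻¹) atTop (𝓝 0) :=
          tendsto_inv_atTop_nhds_zero_nat (𝕜 := ℂ)
        simpa using (h.smul_const v).const_add x
      obtain ⟨N, hN⟩ := eventually_atTop.1 (hl.eventually (hU.mem_nhds hx))
      refine aestronglyMeasurable_of_tendsto_ae atTop
        (f := fun n t => ((n + N : ℕ) : ℂ) • (F (x + ((n + N : ℕ) : ℂ)⁻¹ • v) t - F x t))
        (fun n => ((hm _ (hN (n + N) (by omega))).sub (hm x hx)).const_smul ((n + N : ℕ) : ℂ))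
        (hF.mono fun t ht => ?_)
      exact ((ht.1.differentiableAt (hU.mem_nhds hx)).hasFDerivAt.lim v hc).comp
        (tendsto_add_atTop_nat N)
    have hiv : ∀ v, Integrable (fun t => fderiv ℂ (fun y => F y t) x v) μ := fun v =>
      (hg.const_mul _).mono' (hme v) (hbd v)
    let L : X →ₗ[ℂ] ℂ :=
      { toFun := fun v => ∫ t, fderiv ℂ (fun y => F y t) x v ∂μ
        map_add' := fun v w => by
          simp only [map_add]
          exact integral_add (hiv v) (hiv w)
        map_smul' := fun c v => by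
          simp only [map_smul, RingHom.id_apply]
          exact integral_smul c _ }
    have hL : ∀ v, ‖L v‖ ≤ 2 / R * (∫ t, g t ∂μ) * ‖v‖ := fun v => by
      refine (norm_integral_le_of_norm_le (hg.const_mul _) (hbd v)).trans_eq ?_
      rw [integral_const_mul]; ring
    refine ⟨L.mkContinuous _ hL, hasF_of_sq hR _ (4 / R ^ 2 * ∫ t, g t ∂μ) fun z hz => ?_,
      fun v => ⟨hiv v, rfl⟩⟩
    have h1 : (∫ t, F z t ∂μ) - (∫ t, F x t ∂μ) - L.mkContinuous _ hL (z - x) =
        ∫ t, (F z t - F x t - fderiv ℂ (fun y => F y t) x (z - x)) ∂μ := by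
      rw [integral_sub (f := fun t => F z t - F x t) ((hi z (hb hz)).sub (hi x hx)) (hiv _),
        integral_sub (hi z (hb hz)) (hi x hx)]
      rfl
    rw [h1]
    refine (norm_integral_le_of_norm_le (hg.const_mul (4 / R ^ 2 * ‖z - x‖ ^ 2))
      (hF.mono fun t ht => ?_)).trans_eq ?_
    · exact (cau2 (ht.1.mono hb) (fun y hy => ht.2 y (hb hy)) hz).trans_eq (by ring)
    · rw [integral_const_mul]; ring
  refine ⟨fun x hx => ?_, fun x hx v => ?_⟩
  · obtain ⟨D, hD, -⟩ := key x hx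
    exact hD.differentiableAt.differentiableWithinAt
  · obtain ⟨D, hD, h⟩ := key x hx
    rw [hD.fderiv]
    exact h v

/-- bipolar theorem for the image of a ball -/
theorem bip {Y B : Type*} [NormedAddCommGroup Y] [NormedSpace ℂ Y] [NormedAddCommGroup B]
    [NormedSpace ℂ B] (j : Y →L[ℂ] B) (hc : IsClosed (j '' closedBall 0 1)) (b : B) (a : ℝ)
    (ha : 0 ≤ a) (h : ∀ (φ : B →L[ℂ] ℂ) (s : ℝ), 0 ≤ s → (∀ y, ‖φ (j y)‖ ≤ s * ‖y‖) →
      ‖φ b‖ ≤ s * a) : ∃ y, ‖y‖ ≤ a ∧ j y = b := by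
  rcases ha.eq_or_lt with rfl | ha
  · refine ⟨0, by simp, ?_⟩
    rw [map_zero, eq_comm]
    refine SeparatingDual.eq_zero_of_forall_dual_eq_zero (R := ℂ) fun φ => ?_
    simpa using h φ ‖φ.comp j‖ (norm_nonneg _) fun y => (φ.comp j).le_opNorm y
  let _ : NormedSpace ℝ B := NormedSpace.restrictScalars ℝ ℂ B
  have _ : IsScalarTower ℝ ℂ B := ⟨fun r c x => by
    change (r • c) • x = (algebraMap ℝ ℂ r) • c • x
    rw [smul_smul, Algebra.smul_def]⟩
  have hs : ∀ (r : ℝ) (x : B), r • x = (r : ℂ) • x := fun r x => rfl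
  have ha' : (a : ℂ) ≠ 0 := by exact_mod_cast ha.ne'
  have hb : (a : ℂ)⁻¹ • b ∈ j '' closedBall 0 1 := by
    by_contra hb
    have hcv : Convex ℝ (j '' closedBall 0 1) := by
      rintro _ ⟨y, hy, rfl⟩ _ ⟨y', hy', rfl⟩ r r' hr hr' hrr
      refine ⟨(r : ℂ) • y + (r' : ℂ) • y', ?_, by rw [hs, hs, map_add, map_smul, map_smul]⟩
      rw [mem_closedBall_zero_iff] at hy hy' ⊢
      refine (norm_add_le _ _).trans ?_
      rw [norm_smul, norm_smul, Complex.norm_of_nonneg hr, Complex.norm_of_nonneg hr']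
      nlinarith
    obtain ⟨φ, u, h1, h2⟩ := RCLike.geometric_hahn_banach_closed_point (𝕜 := ℂ) hcv hc hb
    have hu : 0 ≤ u := by simpa using (h1 _ ⟨0, by simp, rfl⟩).le
    have h3 : ‖φ.comp j‖ ≤ u := by
      refine ContinuousLinearMap.opNorm_le_of_unit_norm hu fun y hy => ?_
      obtain ⟨c, hc1, hc2⟩ := Complex.exists_norm_eq_mul_self (φ (j y))
      have h4 := h1 _ ⟨c • y, by simp [norm_smul, hc1, hy], rfl⟩
      rw [map_smul, map_smul, smul_eq_mul, ← hc2] at h4
      simpa using h4.le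
    have h5 := h φ u hu fun y => ((φ.comp j).le_opNorm y).trans (by gcongr)
    have h6 : RCLike.re (φ ((a : ℂ)⁻¹ • b)) ≤ u := by
      refine (RCLike.re_le_norm _).trans ?_
      rw [map_smul, norm_smul, norm_inv, Complex.norm_of_nonneg ha.le, inv_mul_le_iff₀ ha]
      linarith
    linarith
  obtain ⟨y, hy, hj⟩ := hb
  refine ⟨(a : ℂ) • y, ?_, by rw [map_smul, hj, smul_inv_smul₀ ha']⟩
  rw [mem_closedBall_zero_iff] at hy
  rw [norm_smul, Complex.norm_of_nonneg ha.le]
  nlinarith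

theorem holy : HOLY := by
  intro X Y T _ _ _ _ ev C hev hinj hcl U F M hU hM hF x hx
  let _ : TopologicalSpace T := ⊥
  have _ : DiscreteTopology T := ⟨rfl⟩
  obtain ⟨R, hR, hb⟩ := Metric.isOpen_iff.1 hU x hx
  have h0 : 0 ≤ M := (norm_nonneg _).trans (hM x hx)
  have hev' : ∀ y t, ‖ev t y‖ ≤ |C| * ‖y‖ := fun y t =>
    (hev t y).trans (by gcongr; exact le_abs_self C)
  have mk : ∀ {Z : Type} [NormedAddCommGroup Z] [NormedSpace ℂ Z] (e : T → Z →L[ℂ] ℂ) (K : ℝ),
      0 ≤ K → (∀ y t, ‖e t y‖ ≤ K * ‖y‖) → ∃ j : Z →L[ℂ] (T →ᵇ ℂ), ∀ y t, j y t = e t y := by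
    intro Z _ _ e K hK he
    let L : Z →ₗ[ℂ] (T →ᵇ ℂ) :=
      { toFun := fun y => .ofNormedAddCommGroupDiscrete (fun t => e t y) _ (he y)
        map_add' := fun v w => by ext t; simp
        map_smul' := fun c v => by ext t; simp }
    exact ⟨L.mkContinuous K fun y => (BoundedContinuousFunction.norm_le (by positivity)).2 (he y),
      fun y t => rfl⟩
  obtain ⟨j, hj⟩ := mk ev |C| (abs_nonneg C) hev'
  have hji : ∀ y, j y = 0 → y = 0 := fun y hy => hinj y fun t => by rw [← hj, hy]; rfl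
  have hc : IsClosed (j '' closedBall 0 1) := by
    refine isClosed_of_closure_subset fun f hf => ?_
    obtain ⟨y, hy, hy'⟩ := hcl f fun ε hε => by
      obtain ⟨_, ⟨y, hy, rfl⟩, h⟩ := Metric.mem_closure_iff.1 hf ε hε
      refine ⟨y, mem_closedBall_zero_iff.1 hy, fun t => ?_⟩
      rw [← hj, ← dist_eq_norm]
      exact (BoundedContinuousFunction.dist_coe_le_dist t).trans h.le
    exact ⟨y, mem_closedBall_zero_iff.2 hy, by ext t; rw [hj, hy']⟩
  have hbd : ∀ t, ∀ y ∈ U, ‖ev t (F y)‖ ≤ |C| * M := fun t y hy =>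
    (hev' _ t).trans (by gcongr; exact hM y hy)
  have hG : DifferentiableOn ℂ (fun y => j (F y)) U := by
    intro x hx
    obtain ⟨R, hR, hb⟩ := Metric.isOpen_iff.1 hU x hx
    obtain ⟨D, hD⟩ := mk (fun t => fderiv ℂ (fun y => ev t (F y)) x) (2 * (|C| * M) / R)
      (by positivity) fun v t => (ContinuousLinearMap.le_opNorm _ v).trans (by
        gcongr; exact cau1 hR ((hF t).mono hb) fun y hy => hbd t y (hb hy))
    refine (hasF_of_sq hR D (4 * (|C| * M) / R ^ 2) fun z hz =>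
      (BoundedContinuousFunction.norm_le (by positivity)).2 fun t => ?_).differentiableAt
        |>.differentiableWithinAt
    have h := cau2 ((hF t).mono hb) (fun y hy => hbd t y (hb hy)) hz
    simpa only [BoundedContinuousFunction.coe_sub, Pi.sub_apply, hj, hD] using h
  have hD := (hG.differentiableAt (hU.mem_nhds hx)).hasFDerivAt
  set D := fderiv ℂ (fun y => j (F y)) x
  have hφ : ∀ (φ : (T →ᵇ ℂ) →L[ℂ] ℂ) (s : ℝ), 0 ≤ s → (∀ y, ‖φ (j y)‖ ≤ s * ‖y‖) →
      DifferentiableOn ℂ (fun y => φ (j (F y))) (ball x R) ∧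
      (∀ y ∈ ball x R, ‖φ (j (F y))‖ ≤ s * M) ∧
      fderiv ℂ (fun y => φ (j (F y))) x = φ.comp D := fun φ s hs h =>
    ⟨φ.differentiable.comp_differentiableOn (hG.mono hb),
      fun y hy => (h _).trans (by gcongr; exact hM y (hb hy)), (φ.hasFDerivAt.comp x hD).fderiv⟩
  have h1 : ∀ v, ∃ y, ‖y‖ ≤ 2 * M / R * ‖v‖ ∧ j y = D v := fun v =>
    bip j hc _ _ (by positivity) fun φ s hs h => by
      obtain ⟨h1, h2, h3⟩ := hφ φ s hs h
      have h4 := cau1 hR h1 h2
      rw [h3] at h4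
      refine ((φ.comp D).le_opNorm v).trans ?_
      calc _ ≤ 2 * (s * M) / R * ‖v‖ := by gcongr
        _ = _ := by ring
  choose d hd hd' using h1
  let L : X →ₗ[ℂ] Y :=
    { toFun := d
      map_add' := fun v w => sub_eq_zero.1 (hji _ (by simp [hd']))
      map_smul' := fun c v => sub_eq_zero.1 (hji _ (by simp [hd'])) }
  refine (hasF_of_sq hR (L.mkContinuous _ hd) (4 * M / R ^ 2) fun z hz => ?_).differentiableAt
    |>.differentiableWithinAt
  obtain ⟨y, hy, hy'⟩ := bip j hc (j (F z) - j (F x) - D (z - x)) (4 * M / R ^ 2 * ‖z - x‖ ^ 2)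
    (by positivity) fun φ s hs h => by
      obtain ⟨h1, h2, h3⟩ := hφ φ s hs h
      have h4 := cau2 h1 h2 hz
      rw [h3] at h4
      rw [map_sub, map_sub]
      exact h4.trans_eq (by ring)
  have h2 : F z - F x - d (z - x) = y :=
    sub_eq_zero.1 (hji _ (by simp only [map_sub j, hd', hy', sub_self]))
  exact (congrArg norm h2).trans_le hy

end Vale.Agent.P218N
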