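import Vale.Agent.P218N.Spec3
import Vale.Agent.P218N.Bv
import Vale.Agent.P218N.Hol
import Vale.Agent.P218Q.Bas

/-! Block NL: the boundary terms are holomorphic and small in the box. -/

set_option linter.all false

open MeasureTheory Set Filter Topology
open scoped Real

noncomputable section

namespace Vale.Agent.P218I

open Vale.Agent.P218T
open Vale.Agent.P218N (km lk Tf Df Cj mn Qc cyb holi)
open Vale.Agent.P218T.HJ (Tb wt eta dta Tb_Z)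
open Vale.Agent.P218Q (dsc vb)

namespace Hb

/-- the numerical facts at a cut -/
structure Bd (Z W : ℝ) (J : ℕ) (ζ V : ℂ) : Prop where
  Z1 : 100 ≤ Z
  ZW : Z ≤ W
  z1 : Z / 2 ≤ ‖ζ‖
  z2 : ‖ζ ^ 2 - W ^ 2‖ ≤ 1
  cj : Cj ![V, 0, 0, 0, 0, 0]
  y : 4 * ((J : ℝ) + 3) ≤ 3 * ‖ζ ^ 2 * V / 4‖

theorem bd_of {Z W : ℝ} {J : ℕ} {c c' l : ℂ} (hc : c ∈ dsc (7 / 5 * P218Q.nu J) W)
    (hW : W ∈ Icc Z (10 * Z)) (Z1 : 100 ≤ Z) (J1 : (100 : ℝ) ≤ J) (h1 : ‖c' - c‖ < (Z ^ 100)⁻¹)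
    (h2 : ‖l‖ < (Z ^ 100)⁻¹) (re : 0 < (2 + c' * ((W + l) ^ 2 - 2)).re) :
    Bd Z W J (W + l) (2 + c' * ((W + l) ^ 2 - 2)) := by
  have Y0 : 0 ≤ 7 / 5 * P218Q.nu J := by unfold P218Q.nu; positivity
  have W1 : 100 ≤ W := Z1.trans hW.1
  have Z0 : 0 < Z := by linarith
  have v3 := P218Q.dsc_three hc Y0
  have v6 := P218Q.dsc_six hc Y0
  have v4 := P218Q.dsc_low hc (by linarith)
  have c1 : ‖c‖ ≤ 1 := by nlinarith [P218Q.dsc_norm hc Y0 (by linarith), norm_nonneg c]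
  obtain ⟨d, d0, d1, h1, h2⟩ : ∃ d, 0 < d ∧ 10 ^ 6 * (Z ^ 4 * d) ≤ 1 ∧ ‖c' - c‖ ≤ d ∧ ‖l‖ ≤ d := by
    refine ⟨_, by positivity, ?_, h1.le, h2.le⟩
    rw [← mul_assoc, ← div_eq_mul_inv, div_le_one (by positivity)]
    calc _ = 100 ^ 3 * Z ^ 4 := by norm_num
      _ ≤ Z ^ 3 * Z ^ 4 := by gcongr
      _ ≤ _ := by rw [← pow_add]; exact pow_le_pow_right₀ (by linarith) (by norm_num)
  have Z2 : 100 * Z ≤ Z ^ 2 := by nlinarith
  have Z4 : 10 ^ 4 * Z ^ 2 ≤ Z ^ 4 := by nlinarith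
  have d2 := mul_le_mul_of_nonneg_right Z2 d0.le
  have d4 := mul_le_mul_of_nonneg_right Z4 d0.le
  have d3 := mul_le_mul_of_nonneg_right Z1 d0.le
  have nW : ‖(W : ℂ)‖ = W := by rw [Complex.norm_real, Real.norm_of_nonneg (by linarith)]
  have a1 : ‖((W : ℂ) + l) ^ 2 - W ^ 2‖ ≤ 21 * (Z * d) := by
    rw [show ((W : ℂ) + l) ^ 2 - W ^ 2 = l * (2 * W + l) by ring, norm_mul]
    refine (mul_le_mul h2 ((norm_add_le _ _).trans (show _ ≤ 21 * Z by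
      rw [norm_mul, nW, Complex.norm_ofNat]; linarith [hW.2])) (norm_nonneg _) d0.le).trans_eq ?_
    ring
  have a2 : ‖((W : ℂ) + l) ^ 2‖ ≤ 101 * Z ^ 2 := by
    have := norm_le_norm_add_norm_sub' (((W : ℂ) + l) ^ 2) (W ^ 2)
    rw [norm_pow (W : ℂ), nW] at this
    linarith [pow_le_pow_left₀ (by linarith) hW.2 2]
  have a3 : ‖2 + c' * ((W + l) ^ 2 - 2) - vb W c‖ ≤ 103 * (Z ^ 2 * d) := by
    rw [show 2 + c' * ((W + l) ^ 2 - 2) - vb W c =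
      (c' - c) * ((W + l) ^ 2 - 2) + c * ((W + l) ^ 2 - W ^ 2) by rw [vb]; ring]
    refine (norm_add_le _ _).trans ?_
    rw [norm_mul, norm_mul]
    have := norm_sub_le (((W : ℂ) + l) ^ 2) 2
    rw [Complex.norm_ofNat] at this
    linarith [mul_le_mul h1 (show ‖((W : ℂ) + l) ^ 2 - 2‖ ≤ 102 * Z ^ 2 by linarith)
      (norm_nonneg _) d0.le, mul_le_mul c1 a1 (norm_nonneg _) zero_le_one]
  have a4 := norm_sub_norm_le (W : ℂ) (-l)
  rw [sub_neg_eq_add, nW, norm_neg] at a4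
  generalize 2 + c' * ((W + l) ^ 2 - 2) = V at *
  generalize (W : ℂ) + l = ζ at *
  have a5 : ‖W ^ 2 * vb W c‖ ≤ ‖ζ ^ 2 * V‖ + (‖ζ ^ 2‖ * ‖V - vb W c‖ + ‖ζ ^ 2 - W ^ 2‖ * ‖vb W c‖) := by
    rw [show W ^ 2 * vb W c = ζ ^ 2 * V - (ζ ^ 2 * (V - vb W c) + (ζ ^ 2 - W ^ 2) * vb W c) by ring,
      ← norm_mul, ← norm_mul]
    exact (norm_sub_le _ _).trans (add_le_add_right (norm_add_le _ _) _)
  have i3 := (Complex.abs_im_le_norm _).trans v3.le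
  have i4 := (Complex.abs_im_le_norm _).trans a3
  rw [Complex.sub_im] at i3 i4
  refine ⟨Z1, hW.1, by linarith [hW.1], by linarith, ⟨re, ?_, ?_, by simp, by simp; positivity⟩, ?_⟩
  · exact (norm_le_norm_add_norm_sub' V (vb W c)).trans (by linarith)
  · refine (show |V.im| ≤ _ from ?_)
    simp only [Complex.im_ofNat, sub_zero] at i3
    linarith [abs_sub_abs_le_abs_sub V.im (vb W c).im]
  · rw [norm_mul, norm_pow, nW] at a5
    rw [norm_div, Complex.norm_ofNat]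
    unfold P218Q.nu at v4
    linarith [mul_le_mul a2 a3 (norm_nonneg _) (by positivity),
      mul_le_mul a1 v6 (norm_nonneg _) (by positivity)]

namespace Bd

variable {Z W : ℝ} {J I : ℕ} {ζ V : ℂ} (h : Bd Z W J ζ V)
include h

theorem z0 : ζ ≠ 0 := norm_pos_iff.1 (by linarith [h.z1, h.Z1])

theorem sl : V ∈ Complex.slitPlane := .inl h.cj.re

theorem v0 : V ≠ 0 := Complex.slitPlane_ne_zero h.sl

theorem lk (m : ℝ) : km m + Complex.exp (-(ζ ^ 2 + V) / 4) ≠ 0 ∧ ‖lk (km m) (ζ ^ 2 + V)‖ ≤ 1 ∧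
    ‖wt ζ V * Complex.sqrt V‖ ≤ 6 * Real.exp (-Z ^ 2 / 4) := by
  obtain ⟨-, -, a, b, -, c, -⟩ := cyb _ W m ζ 1 0 h.cj (by simp) h.z2 (by simp)
  refine ⟨a, b, ?_⟩
  have e : ‖Complex.sqrt V‖ ≤ 3 := by
    refine (abs_le_of_sq_le_sq' ?_ (by norm_num)).2
    rw [← norm_pow, HJ.sqrt_sq]
    linarith [show ‖V‖ ≤ 8 from h.cj.le]
  have f : Real.exp (-W ^ 2 / 4) ≤ Real.exp (-Z ^ 2 / 4) :=
    Real.exp_le_exp.2 (by linarith [pow_le_pow_left₀ (by linarith [h.Z1]) h.ZW 2])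
  rw [norm_mul, wt, show -ζ ^ 2 / 4 - V / 4 = -(ζ ^ 2 + V) / 4 by ring]
  exact (mul_le_mul c e (norm_nonneg _) (by positivity)).trans (by linarith)

theorem et (hI : I ≤ J) : ‖eta I (ζ ^ 2 * V / 4)‖ ≤ 2 ∧ ‖dta I (ζ ^ 2 * V / 4)‖ ≤ 2 := by
  have a : (I : ℝ) ≤ J := by exact_mod_cast hI
  have b : 4 * ((I : ℝ) + 3) ≤ 3 * ‖ζ ^ 2 * V / 4‖ := by linarith [h.y]
  have c : ‖ζ ^ 2 * V / 4‖⁻¹ ≤ 4⁻¹ := inv_anti₀ (by norm_num) (by linarith [I.cast_nonneg (α := ℝ)])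
  constructor <;> refine (norm_le_norm_add_norm_sub' _ 1).trans ?_ <;> rw [norm_one] <;>
    linarith [HJ.eta_le b, HJ.dta_le b]

theorem iz : ‖2 / ζ‖ ≤ 1 / 25 ∧ ‖2 / ζ ^ 2‖ ≤ 1 := by
  have a : 50 ≤ ‖ζ‖ := by linarith [h.z1, h.Z1]
  rw [norm_div, norm_div, norm_pow, Complex.norm_ofNat, div_le_iff₀ (by linarith),
    div_le_one (by positivity)]
  constructor <;> nlinarith

theorem tb (hI : I ≤ J) : ‖Tb I ζ V‖ ≤ Real.exp (-Z ^ 2 / 4) := by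
  rw [Tb, mul_right_comm (wt ζ V), norm_mul, norm_mul (_ * _)]
  refine (mul_le_mul (mul_le_mul (h.lk 0).2.2 h.iz.1 (norm_nonneg _) (by positivity)) (h.et hI).1
    (norm_nonneg _) (by positivity)).trans ?_
  linarith [Real.exp_pos (-Z ^ 2 / 4)]

theorem dtb (hI : I ≤ J) : ‖deriv (fun z => Tb I z V) ζ‖ ≤ 48 * Real.exp (-Z ^ 2 / 4) := by
  rw [(Tb_Z I h.z0 h.v0).deriv, norm_mul]
  refine (mul_le_mul (h.lk 0).2.2 ((norm_add_le _ _).trans (show _ ≤ 8 from ?_)) (norm_nonneg _)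
    (by positivity)).trans_eq (by ring)
  have := norm_sub_le (dta I (ζ ^ 2 * V / 4)) (2 * eta I (ζ ^ 2 * V / 4))
  rw [norm_mul, Complex.norm_ofNat] at this
  rw [norm_neg, norm_mul]
  linarith [h.et hI, mul_le_of_le_one_left (norm_nonneg
    (dta I (ζ ^ 2 * V / 4) - 2 * eta I (ζ ^ 2 * V / 4))) h.iz.2]

end Bd

theorem mix_le {v a b : ℂ} {t B : ℝ} (ht : t ∈ Icc (0 : ℝ) 1) (hv : ‖v - t‖ ≤ 1) (ha : ‖a‖ ≤ B)
    (hb : ‖b‖ ≤ B) : ‖(1 - v) * a + v * b‖ ≤ 5 * B := by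
  have e := norm_le_norm_add_norm_sub' v t
  have f := norm_sub_le 1 v
  rw [Complex.norm_real, Real.norm_of_nonneg ht.1] at e
  rw [norm_one] at f
  refine (norm_add_le _ _).trans ?_
  rw [norm_mul, norm_mul]
  linarith [mul_le_mul (show ‖1 - v‖ ≤ 3 by linarith [ht.2]) ha (norm_nonneg _) (by norm_num),
    mul_le_mul (show ‖v‖ ≤ 2 by linarith [ht.2]) hb (norm_nonneg _) (by norm_num)]

theorem pi_le {a : ℂ} {B : ℝ} (ha : ‖a‖ ≤ B) : ‖2 * π * a‖ ≤ 8 * B := by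
  rw [norm_mul]
  exact mul_le_mul (by simp [abs_of_pos Real.pi_pos]; linarith [Real.pi_le_four]) ha
    (norm_nonneg _) (by norm_num)

theorem qc_le {V p : ℂ} (V0 : V ≠ 0) (hp : ‖p‖ ^ 2 ≤ 5 / 2 * ‖V‖) :
    1 + (p / Complex.sqrt V) ^ 2 / 4 ∈ Complex.slitPlane ∧ ‖Qc V p‖ ≤ 3 := by
  have a : ‖(p / Complex.sqrt V) ^ 2 / 4‖ ≤ 68 / 100 := by
    have := norm_pos_iff.2 V0
    rw [div_pow, HJ.sqrt_sq, norm_div, norm_div, norm_pow, Complex.norm_ofNat, div_div,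
      div_le_iff₀ (by positivity)]
    linarith
  have b := norm_le_norm_add_norm_sub (Complex.sqrt (1 + (p / Complex.sqrt V) ^ 2 / 4)) 1
  have c := P218N.Bv.root a
  refine ⟨Complex.mem_slitPlane_of_norm_lt_one (by linarith), ?_⟩
  rw [norm_one] at b
  rw [Qc, norm_div, norm_one, div_le_iff₀ (by linarith)]
  linarith

theorem mn_le {f : ℝ → ℂ} {B : ℝ} (h : ∀ θ, ‖f θ‖ ≤ B) : ‖mn f‖ ≤ B := by
  have := intervalIntegral.norm_integral_le_of_norm_le_const (a := 0) (b := 2 * π) fun θ _ => h θ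
  rw [sub_zero, abs_of_pos Real.two_pi_pos] at this
  rw [mn, interval_average_eq, sub_zero, norm_smul, norm_inv, Real.norm_of_nonneg
    Real.two_pi_pos.le, inv_mul_le_iff₀ Real.two_pi_pos]
  linarith

theorem df_le {Z W t : ℝ} {J₀ J : ℕ} {ζ V v ε : ℂ} {p : ℝ → ℂ} (h : Bd Z W J ζ V) (hJ : J₀ ≤ J)
    (ht : t ∈ Icc (0 : ℝ) 1) (hv : ‖v - t‖ ≤ 1) (hε : ‖ε‖ ≤ 1) (hp : ∀ θ, ‖p θ‖ ^ 2 ≤ 2 * ‖V‖)
    (m : ℝ) : ‖Df J₀ J v ε (km m) ζ V p‖ ≤ 2208 * Real.exp (-Z ^ 2 / 4) := by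
  refine (pi_le ((norm_add_le _ _).trans (add_le_add
    (show _ ≤ 36 * Real.exp (-Z ^ 2 / 4) from ?_) (mix_le ht hv (h.dtb hJ) (h.dtb le_rfl))))).trans_eq
    (by ring)
  have a := norm_add_le 1 (ε * lk (km m) (ζ ^ 2 + V))
  rw [norm_one, norm_mul] at a
  rw [mul_right_comm (wt ζ V), norm_mul, norm_mul (_ * _)]
  exact (mul_le_mul (mul_le_mul (h.lk m).2.2 (show _ ≤ 2 by
    linarith [mul_le_one₀ hε (norm_nonneg _) (h.lk m).2.1]) (norm_nonneg _) (by positivity))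
    (mn_le fun θ => (qc_le h.v0 (by linarith [hp θ, norm_nonneg V])).2) (norm_nonneg _)
    (by positivity)).trans_eq (by ring)

section
variable {X : Type} [NormedAddCommGroup X] [NormedSpace ℂ X] {ζ V : X → ℂ} {y : X} {Z W : ℝ}
  {J : ℕ} (dζ : DifferentiableAt ℂ ζ y) (dV : DifferentiableAt ℂ V y) (h : Bd Z W J (ζ y) (V y))

theorem d_rt {V : X → ℂ} (dV : DifferentiableAt ℂ V y) (sl : V y ∈ Complex.slitPlane) :
    DifferentiableAt ℂ (fun y => Complex.sqrt (V y)) y :=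
  (HJ.hasDerivAt_sqrt sl).differentiableAt.comp y dV

include h dζ dV

theorem d_et (I : ℕ) : DifferentiableAt ℂ (fun y => eta I (ζ y ^ 2 * V y / 4)) y ∧
    DifferentiableAt ℂ (fun y => dta I (ζ y ^ 2 * V y / 4)) y :=
  have a : ζ y ^ 2 * V y / 4 ≠ 0 := by simp [h.z0, h.v0]
  have b : DifferentiableAt ℂ (fun y => ζ y ^ 2 * V y / 4) y := by fun_prop
  ⟨.comp (g := eta I) y (HJ.diff_eta I a) b, .comp (g := dta I) y (HJ.diff_dta I a) b⟩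

theorem d_tb (I : ℕ) : DifferentiableAt ℂ (fun y => Tb I (ζ y) (V y)) y := by
  have a := d_rt dV h.sl
  have b := (d_et dζ dV h I).1
  have c := h.z0
  simp only [Tb, wt]
  fun_prop (disch := assumption)

theorem d_dtb (I : ℕ) : DifferentiableAt ℂ (fun y => deriv (fun z => Tb I z (V y)) (ζ y)) y := by
  have a := d_rt dV h.sl
  obtain ⟨b, b'⟩ := d_et dζ dV h I
  have c := pow_ne_zero 2 h.z0
  refine DifferentiableAt.congr_of_eventuallyEq ?_ (((dζ.continuousAt.eventually_ne h.z0).and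
    (dV.continuousAt.eventually_ne h.v0)).mono fun y hy => (Tb_Z I hy.1 hy.2).deriv)
  simp only [wt]
  fun_prop (disch := assumption)

theorem d_lk (m : ℝ) : DifferentiableAt ℂ (fun y => lk (km m) (ζ y ^ 2 + V y)) y := by
  have c := pow_ne_zero 2 (h.lk m).1
  simp only [lk]
  fun_prop (disch := assumption)

end

theorem d_mn {X : Type} [NormedAddCommGroup X] [NormedSpace ℂ X] {V : X → ℂ} {y : X}
    {p : X → ℝ → ℂ} {g : X → ℝ} (dV : Differentiable ℂ V)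
    (dp : ∀ θ, Differentiable ℂ fun y => p y θ) (cp : ∀ y, Continuous (p y)) (cg : Continuous g)
    (g0 : g y = 0) (hg : ∀ x θ, ‖p x θ - p y θ‖ ≤ g x) (re : 0 < (V y).re)
    (hp : ∀ θ, ‖p y θ‖ ^ 2 ≤ 2 * ‖V y‖) :
    DifferentiableAt ℂ (fun y => mn fun θ => Qc (V y) (p y θ)) y := by
  have cV := dV.continuous
  let U := {x | 0 < (V x).re} ∩ {x | (√(2 * ‖V y‖) + g x) ^ 2 < 5 / 2 * ‖V x‖}
  have oU : IsOpen U := (isOpen_lt continuous_const (by fun_prop)).inter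
    (isOpen_lt (by fun_prop) (by fun_prop))
  have yU : y ∈ U := ⟨re, by
    rw [mem_ofPred_eq, g0, add_zero, Real.sq_sqrt (by positivity)]
    linarith [re.trans_le (Complex.re_le_norm _)]⟩
  have sl : ∀ x ∈ U, V x ∈ Complex.slitPlane := fun x hx => .inl hx.1
  have k := fun x (hx : x ∈ U) θ => qc_le (Complex.slitPlane_ne_zero (sl x hx))
    ((pow_le_pow_left₀ (norm_nonneg _) ((norm_le_norm_add_norm_sub' _ _).trans
      (add_le_add (Real.le_sqrt_of_sq_le (hp θ)) (hg x θ))) 2).trans hx.2.le)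
  have n := fun x hx θ => P218N.Bv.sqrt_ne (Complex.slitPlane_ne_zero (k x hx θ).1)
  simp only [mn, interval_average_eq, intervalIntegral.integral_of_le Real.two_pi_pos.le]
  refine ((holi X ℝ _ U (fun x θ => Qc (V x) (p x θ)) (fun _ => 3) oU (integrable_const _)
    (.of_forall fun θ => ⟨fun x hx => DifferentiableAt.differentiableWithinAt ?_,
      fun x hx => (k x hx θ).2⟩)
    fun x hx => (continuous_const.div (Complex.continuousOn_sqrt.comp_continuous ?_ (k x hx · |>.1))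
      (n x hx)).aestronglyMeasurable).1.differentiableAt (oU.mem_nhds yU)).const_smul _
  · have a := d_rt (dV x) (sl x hx)
    have b := P218N.Bv.sqrt_ne (Complex.slitPlane_ne_zero (sl x hx))
    have c := dp θ x
    have d := d_rt (V := fun x => 1 + (p x θ / Complex.sqrt (V x)) ^ 2 / 4)
      (by fun_prop (disch := assumption)) (k x hx θ).1
    simp only [Qc, one_div]
    exact d.inv (n x hx θ)
  · have := cp x
    fun_prop

end Hb

open Hb GD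

theorem Hb.box (flc : FLC) : RowP fun _ _ G p => p.Ad ∧ 100 ≤ p.Z ∧ ∀ y ∈ G.Bx p,
    ‖y.2.2.2.2 - p.v‖ ≤ 1 ∧ ∀ j, ‖y.2.2.2.1 j‖ ≤ 1 ∧ Bd p.Z (p.W j) p.J (Zb y j) (Vb y j) ∧
      ∀ θ, ‖pb y j θ‖ ^ 2 ≤ 2 * ‖Vb y j‖ := flc.mono fun M k G _ h => by
  filter_upwards [h, ev_ad, ev_Z fun _ _ _ => 100, ev_cs (ev₀_J fun _ _ _ => 100)]
    with p h a Z1 J1
  refine ⟨a, Z1, fun y hy => ?_⟩
  have b := hy.2
  have o : (p.Z ^ 100)⁻¹ ≤ 1 := inv_le_one_of_one_le₀ (one_le_pow₀ (by linarith))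
  have J2 : (p.J₀ : ℝ) ≤ p.J := by exact_mod_cast a.hJ
  simp only [Prod.norm_def, max_lt_iff, bs, Prod.fst_sub, Prod.snd_sub, sub_zero] at b
  exact ⟨b.2.2.2.le.trans o, fun j => ⟨(norm_le_pi_norm _ j).trans (b.2.2.1.le.trans o),
    bd_of (a.hc j) (a.hW j) Z1 (J1.trans J2) ((norm_le_pi_norm (y.2.1 - p.c) j).trans_lt b.1)
      ((norm_le_pi_norm _ j).trans_lt b.2.1) (h y hy j).2.1, fun θ => ((h y hy j).2.2.2.2.1 θ).1⟩⟩

section
variable {M : Mod} {k : ℕ} {G : GD M k} {Z : Fin M.n₁ → ℝ} (j : Fin M.n₁)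

theorem Hb.d_Zb : Differentiable ℂ fun y : G.XX Z × Pm (Fin M.n₁) => Zb y j := by
  unfold Zb; fun_prop

theorem Hb.d_Vb : Differentiable ℂ fun y : G.XX Z × Pm (Fin M.n₁) => Vb y j := by
  unfold Vb Zb; fun_prop

theorem Hb.d_qc {y : G.XX Z × Pm (Fin M.n₁)} (re : 0 < (Vb y j).re)
    (hp : ∀ θ, ‖pb y j θ‖ ^ 2 ≤ 2 * ‖Vb y j‖) :
    DifferentiableAt ℂ (fun y : G.XX Z × Pm (Fin M.n₁) =>
      mn fun θ => Qc (Vb y j) (pb y j θ)) y := by
  let L : G.XX Z × Pm (Fin M.n₁) →L[ℂ] P218W.WI G.z₀ (Z j) :=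
    .proj (φ := fun _ => P218W.WI G.z₀ (Z j)) 3 ∘L (P218W.XE G.z₀ (Z j)).subtypeL ∘L
      .proj (φ := fun j => P218W.XE G.z₀ (Z j)) j ∘L .fst ℂ _ _ ∘L .fst ℂ _ _ ∘L .snd ℂ _ _ ∘L
        .fst ℂ _ _
  have a : Differentiable ℂ fun y : G.XX Z × Pm (Fin M.n₁) => 2 * y.2.1 j * Zb y j := by
    unfold Zb; fun_prop
  have c := a.continuous
  refine d_mn (g := fun x => ‖2 * x.2.1 j * Zb x j - 2 * y.2.1 j * Zb y j‖ + ‖L x - L y‖ / 2)
    (d_Vb j) (fun θ => a.add ((P218W.W.ev (Z j, θ)).toContinuousLinearMap ∘L L).differentiable)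
    (fun x => continuous_const.add ((L x).cont.comp (by fun_prop))) (by fun_prop) (by simp)
    (fun x θ => ?_) re hp
  rw [pb, pb, add_sub_add_comm]
  exact norm_add_le_of_le le_rfl ((L x - L y).apply_le (Z j, θ))

end

/-- **row HB** -/
theorem hb (flc : FLC) : HB := (box flc).mono fun M k G _ h => by
  filter_upwards [h] with p ⟨a, Z1, h⟩ y hy j
  obtain ⟨v, h⟩ := h y hy
  obtain ⟨-, b, -⟩ := h j
  have d := d_tb (d_Zb j y) (d_Vb j y) b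
  refine ⟨?_, (pi_le (mix_le a.hv v (b.tb a.hJ) (b.tb le_rfl))).trans
    (by nlinarith [Real.exp_pos (-p.Z ^ 2 / 4)])⟩
  have d₀ := d p.J₀
  have d₁ := d p.J
  simp only [Tf]
  fun_prop

theorem holb (flc : FLC) : Fld Obj.HOLB := (box flc).mono fun M k G _ h => by
  filter_upwards [h, ev_Z fun _ _ _ => 16 * M.n₁] with p ⟨a, Z1, h⟩ Z2 y hy
  obtain ⟨v, h⟩ := h y hy
  have e := Real.exp_pos (-p.Z ^ 2 / 4)
  have z : p.Z ^ 2 ≤ p.Z ^ 100 := pow_le_pow_right₀ (by linarith) (by norm_num)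
  have d := fun j => d_tb (d_Zb j y) (d_Vb j y) (h j).2.1
  refine ⟨.fun_sum (u := Finset.univ) fun j _ => .const_mul (.fun_sub (d j p.J) (d j p.J₀))
    (2 * π : ℂ), (norm_sum_le_of_le _ fun j _ => pi_le
      (norm_sub_le_of_le ((h j).2.1.tb le_rfl) ((h j).2.1.tb a.hJ))).trans ?_, fun j =>
    ⟨?_, (df_le (h j).2.1 a.hJ a.hv v (h j).1 (h j).2.2 _).trans (by gcongr; nlinarith)⟩⟩
  · rw [Finset.sum_const, Finset.card_univ, Fintype.card_fin, nsmul_eq_mul]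
    nlinarith [mul_le_mul_of_nonneg_right (show 16 * (M.n₁ : ℝ) ≤ p.Z ^ 100 by nlinarith) e.le]
  · obtain ⟨-, b, c⟩ := h j
    have dz := d_Zb j y
    have dV := d_Vb j y
    have d₀ := d_dtb dz dV b p.J₀
    have d₁ := d_dtb dz dV b p.J
    have d₂ := d_lk dz dV b (p.m j)
    have d₃ := d_rt dV b.sl
    have d₄ := d_qc j b.cj.re c
    show DifferentiableAt ℂ (fun y : G.XX p.W × Pm (Fin M.n₁) => Df p.J₀ p.J y.2.2.2.2
      (y.2.2.2.1 j) (km (p.m j)) (Zb y j) (Vb y j) (pb y j)) y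
    simp only [Df, wt]
    fun_prop

theorem hola (hi : HI) (hb : HB) : Fld Obj.HOLA := (Row.and hi hb).mono fun M k G _ h => by
  filter_upwards [h.1, h.2, ev_K₂ fun _ _ => 2 * M.n₁] with p h h' K y hy
  obtain ⟨-, a, -, b, -, c, -⟩ := h y hy
  have e : p.Z * Real.exp (-p.Z ^ 2 / 4) ≤ 1 := by
    rw [neg_div, Real.exp_neg, ← div_eq_mul_inv, div_le_one (Real.exp_pos _)]
    nlinarith [Real.add_one_le_exp (p.Z ^ 2 / 4), sq_nonneg (p.Z - 2)]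
  refine ⟨a.add (.fun_sum fun j _ => (h' y hy j).1), (norm_add_le_of_le b
    (norm_sum_le_of_le _ fun j _ => (h' y hy j).2.trans e)).trans ?_, c⟩
  simp only [Finset.sum_const, Finset.card_univ, Fintype.card_fin, nsmul_eq_mul]
  linarith

end Vale.Agent.P218I
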