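import Vale.Agent.P218N.Spec3
import Vale.Agent.P218N.Hol
import Vale.Agent.P218I.Bas

/-! Block NL: the integrals are holomorphic. -/

open MeasureTheory Set Filter Topology
open scoped ContDiff Real

noncomputable section

namespace Vale.Agent.P218I

open Vale.Agent.P218T Vale.Agent.P218L
open Vale.Agent.P218N (SH AD Pi' Jt jt sig holi)
open GD

namespace Hi

/-- the jet of order one -/
def tr (j : Jt) : Jt := fun _ i => j none i

variable {ι α : Type} [Fintype ι] [Fintype α] {D : AD ι α} {x : E3} {j : Jt} {t : Pi' ι α}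

theorem sIf (h : D.Gd x j t) :
    SH (fun q : E3 × Jt × Pi' ι α => D.If q.1 q.2.1 q.2.2) (x, tr j, t) :=
  have s := h.rg.sX (z := (x, tr j, t)) (g := id) contDiffAt_id SH.snd.p1 SH.snd.p2
  (h.rg.Om (z := (x, tr j, t)) (g := id) h.rw contDiffAt_id SH.snd.p2 (s.dt s)).mul
    (h.rg.Wj (z := (x, tr j, t)) (g := id) contDiffAt_id SH.snd.p1 SH.snd.p2 h.sl)

theorem sIO (h : D.Gd x j t) (l : ι) :
    SH (fun q : E3 × Jt × Pi' ι α => D.IO l q.1 q.2.1 q.2.2) (x, tr j, t) :=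
  have s := h.rg.sX (z := (x, tr j, t)) (g := id) contDiffAt_id SH.snd.p1 SH.snd.p2
  (((s.dt s).neg.div (.const 4) (by norm_num)).exp.mul (AD.zl (z := (x, tr j, t)) (g := id)
    (h.rg.ze l) contDiffAt_id (h.rw.k l) ((SH.snd.p2.p2.p2.p2.p2.ap l).lk (s.dt s)))).mul
    (h.rg.Wj (z := (x, tr j, t)) (g := id) contDiffAt_id SH.snd.p1 SH.snd.p2 h.sl)

theorem cont {φ : E3 → ℂ} (h : ContDiffAt ℝ 2 φ x) : ContinuousAt (fun y => tr (jt φ y)) x :=
  continuousAt_pi.2 fun _ => continuousAt_pi.2 fun i => by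
    rcases i with _ | b
    exacts [h.continuousAt,
      ((h.fderiv_right (m := 1) (by norm_num)).clm_apply contDiffAt_const).continuousAt]

/-- integrals over a fixed set -/
theorem gen {X : Type} [NormedAddCommGroup X] [NormedSpace ℂ X] {μ : Measure E3} {S : Set E3}
    {U : Set X} {Φ : E3 × Jt × Pi' ι α → ℂ} {φ : X → E3 → ℂ} {u : X → Pi' ι α} {g : E3 → ℝ}
    (hS : MeasurableSet S) (hU : IsOpen U) (hg : Integrable g μ) (g0 : ∀ x, 0 ≤ g x)
    (hu : Differentiable ℂ u)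
    (hφ : ∀ x ∈ S, (∀ y, ContDiffAt ℝ 2 (φ y) x) ∧
      ∀ i, Differentiable ℂ fun y => jt (φ y) x none i)
    (h : ∀ y ∈ U, ∀ x ∈ S, SH Φ (x, tr (jt (φ y) x), u y) ∧
      ‖Φ (x, tr (jt (φ y) x), u y)‖ ≤ g x) {y : X} (hy : y ∈ U) :
    (∀ x ∈ S, DifferentiableAt ℂ (fun y => Φ (x, tr (jt (φ y) x), u y)) y) ∧
    DifferentiableAt ℂ (fun y => ∫ x in S, Φ (x, tr (jt (φ y) x), u y) ∂μ) y ∧
    IntegrableOn (fun x => Φ (x, tr (jt (φ y) x), u y)) S μ ∧
    ‖∫ x in S, Φ (x, tr (jt (φ y) x), u y) ∂μ‖ ≤ ∫ x, g x ∂μ ∧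
    ∀ y', IntegrableOn (fun x => fderiv ℂ (fun y => Φ (x, tr (jt (φ y) x), u y)) y y') S μ ∧
      fderiv ℂ (fun y => ∫ x in S, Φ (x, tr (jt (φ y) x), u y) ∂μ) y y' =
        ∫ x in S, fderiv ℂ (fun y => Φ (x, tr (jt (φ y) x), u y)) y y' ∂μ := by
  have d : ∀ y ∈ U, ∀ x ∈ S, DifferentiableAt ℂ (fun y => Φ (x, tr (jt (φ y) x), u y)) y :=
    fun y hy x hx => DifferentiableAt.comp (g := fun ζ => Φ (x, ζ)) y (h y hy x hx).1.at_
      ((differentiableAt_pi.2 fun _ => differentiableAt_pi.2 fun i =>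
        (hφ x hx).2 i y).prodMk (hu y))
  have m : ∀ y ∈ U, AEStronglyMeasurable (fun x => Φ (x, tr (jt (φ y) x), u y)) (μ.restrict S) :=
    fun y hy => ContinuousOn.aestronglyMeasurable (fun x hx => (ContinuousAt.comp
      (f := fun x => (x, tr (jt (φ y) x), u y)) (h y hy x hx).1.cont (continuousAt_id.prodMk
        ((cont ((hφ x hx).1 y)).prodMk continuousAt_const))).continuousWithinAt) hS
  have b := (ae_restrict_mem (μ := μ) hS).mono fun x hx => (h y hy x hx).2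
  obtain ⟨h1, h2⟩ := holi X E3 (μ.restrict S) U (fun y x => Φ (x, tr (jt (φ y) x), u y)) g hU
    hg.integrableOn ((ae_restrict_mem hS).mono fun x hx =>
      ⟨fun y hy => (d y hy x hx).differentiableWithinAt, fun y hy => (h y hy x hx).2⟩) m
  exact ⟨d y hy, h1.differentiableAt (hU.mem_nhds hy), hg.integrableOn.mono' (m y hy) b,
    (norm_integral_le_of_norm_le hg.integrableOn b).trans
      (setIntegral_le_integral hg (.of_forall g0)), h2 y hy⟩

end Hi

theorem isOpen_Bx {M : Mod} {k : ℕ} {G : GD M k} {p : Pt (Fin M.n₁)} {C : ℝ}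
    (h : ∀ U, G.Nn p U ≤ C * ‖U‖) : IsOpen (G.Bx p) :=
  have c : Continuous (G.Nn p) := (G.Nn p).continuous_of_continuousAt_zero (by
    rw [ContinuousAt, map_zero]
    exact squeeze_zero (apply_nonneg _) h
      ((continuous_const.mul continuous_norm).tendsto' _ _ (by simp)))
  (isOpen_lt (c.comp continuous_fst) continuous_const).inter
    (isOpen_lt (continuous_snd.sub continuous_const).norm continuous_const)

theorem Hi.meas_SW {M : Mod} (g : M.Geo) {Z : Fin M.n₁ → ℝ} (h : ∀ j, M.R < Z j) :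
    MeasurableSet (SW Z : Set E3) :=
  g.isClosed_S.measurableSet.diff (.iUnion fun j =>
    (g.isClosed_En isClosed_Ici fun _ hz => (h j).trans_le hz).measurableSet)

theorem hi (gds : GDS) (gau : GAU) (jth : JTH) (eqn : EQN) : HI := fun M g => by
  obtain ⟨z, h⟩ := Row.and gds (Row.and jth eqn) M g
  refine ⟨z, fun k G hz o => ?_⟩
  obtain ⟨h1, h2, h3⟩ := h k G hz o
  filter_upwards [h1, h3, ev_ad, ev_cs (ev₀_K 0), ev_W fun _ => G.ρ + 12, ev_W fun _ => M.R + 1,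
    ev_cs (ev₀_z fun _ _ => G.ρ + 9), ev_K₂ fun q _ =>
      2 * ∫ x, q.K * Real.exp (-‖x‖ ^ 2 / 8) ∂sig M.w] with p h1 h3 a K0 hW hR hz₃ hK y hy
  have h2 := h2 p.W p.z₃ (fun j => (hW j).1) hz₃
  have hS := Hi.meas_SW g (Z := p.W) fun j => by linarith [(hR j).1]
  have hU := isOpen_Bx fun U => (h3.1 U).2.1
  have hg := (gau M g).const_mul p.K
  have g0 : ∀ x : E3, 0 ≤ p.K * Real.exp (-‖x‖ ^ 2 / 8) := fun x => by positivity
  have hu : ∀ m, Differentiable ℂ (par m : G.XX p.W × Pm (Fin M.n₁) → _) := fun m => by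
    unfold par
    fun_prop
  have hφ := fun x hx => And.intro (fun y => ((h2 x hx).1 y y).1) fun i => ((h2 x hx).2 i).1
  have hm : ∀ j, p.Z / 25 ≤ p.m j := fun j => by linarith [(a.hW j).1, (a.hm j).1]
  have io := fun m hm j => Hi.gen hS hU hg g0 (hu m) hφ (fun y hy x hx =>
    ⟨Hi.sIO (h1 y hy m hm x hx).1 j, (h1 y hy m hm x hx).2.2.2.1 j⟩) hy
  obtain ⟨e1, e2, e3, e4, e5⟩ := Hi.gen hS hU hg g0 (hu p.m) hφ (fun y hy x hx =>
    ⟨Hi.sIf (h1 y hy _ hm x hx).1, (h1 y hy _ hm x hx).2.2.1⟩) hy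
  exact ⟨e1, e2, e3, e4.trans (by linarith), e5, fun j => (io _ hm j).2.1,
    fun m hm j => (io m hm j).2.2.1⟩

end Vale.Agent.P218I
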