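import Vale.Agent.P218N.Spec3
import Vale.Agent.P218L.Inj

/-! Block NL: the jets in the end equation are in the algebra of the strip. -/

open Set Filter Topology
open scoped ContDiff Real

noncomputable section

namespace Vale.Agent.P218I

open Vale.Agent.P218T Vale.Agent.P218L Vale.Agent.P218L.Inj
open Vale.Agent.P218H (J1 C1a C2a f1 f2 dd B1 HM)
open Vale.Agent.P218H.AmbL (D dd_smul')
open Vale.Agent.P218N (jt mix)
open Vale.Agent.P218W (W jet cl ret_cl le_of_c2 omK)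
open GD

namespace Jn

variable {R a b : ℝ}

theorem sm_w {u : ℝ × ℝ → ℂ} (h : Sm R u) (ha : R < a) (hb : a ≤ b) :
    ∃ x : W (cl a b), ∀ p : ℝ × ℝ, p.1 ∈ Icc a b → x p = u p := by
  obtain ⟨K, K0, hK⟩ := h.bd ha b
  obtain ⟨K', K1, hK'⟩ := h.dt.dt.bd ha b
  exact ⟨_, fun p hp => (ret_cl hb).toW_apply (fun y hy =>
    (h.2 y (ha.trans_le hy.1.1)).continuousAt.continuousWithinAt) (le_of_c2 (K := K + K')
      (F₁ := fun y => fderiv ℝ u y (0, 1))
      (F₂ := fun y => fderiv ℝ (fun y => fderiv ℝ u y (0, 1)) y (0, 1)) (by positivity) (by simp) (fun z hz θ => h.1 z θ (ha.trans_le hz.1))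
      (fun z hz => h.hd (ha.trans_le hz.1)) (fun z hz => h.dt.hd (ha.trans_le hz.1))
      (fun z hz => continuous_iff_continuousAt.2 fun θ =>
        (h.dt.dt.hd (ha.trans_le hz.1) θ).continuousAt)
      (fun z hz θ => by linarith [hK z hz θ]) fun z hz θ => by linarith [hK' z hz θ]) hp p.2⟩

theorem sm_d {V : Type} [NormedAddCommGroup V] [NormedSpace ℝ V] {u : ℝ × ℝ → V} (h : Sm R u) :
    Sm R (fderiv ℝ u) := ⟨h.1.fderiv, fun y hy => (h.2 y hy).fderiv_right (m := ∞) le_rfl⟩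

theorem sm_ap {V : Type} [NormedAddCommGroup V] [NormedSpace ℝ V] {u : ℝ × ℝ → ℝ × ℝ →L[ℝ] V}
    (h : Sm R u) (v : ℝ × ℝ) : Sm R fun y => u y v :=
  ⟨h.1.comp fun L => L v, fun y hy => (h.2 y hy).clm_apply contDiffAt_const⟩

theorem sm_jet {u : ℝ × ℝ → ℂ} (h : Sm R u) (i : Fin 6) : Sm R (jet u i) := by
  fin_cases i
  exacts [h, sm_ap (sm_d h) _, sm_ap (sm_ap (sm_d (sm_d h)) _) _, sm_ap (sm_d h) _,
    sm_ap (sm_ap (sm_d (sm_d h)) _) _, sm_ap (sm_ap (sm_d (sm_d h)) _) _]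

theorem sm_two {u : ℝ × ℝ → ℂ} (h : Sm R u) : Sm R fun y => 2 * u y :=
  ⟨h.1.comp fun t => 2 * t, fun y hy => contDiffAt_const.mul (h.2 y hy)⟩

theorem cd_D {χ : E3 → ℝ} (h : ContDiff ℝ ∞ χ) (i : J1 3) : ContDiff ℝ ∞ (D i χ) := by
  cases i with
  | none => exact contDiff_const
  | some i => exact P218H.dd_smooth h (some i)

/-- the derivatives of a `C^{2,α}` function -/
theorem ex_dd (j : J1 3) : ∃ L : C2a 3 α₀ →L[ℂ] C1a 3 β₀, ∀ v, f1 (L v) = dd j (f2 v) := by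
  have d := fun v : C2a 3 α₀ => (P218H.f2_cd v).differentiable two_ne_zero
  refine (P218H.ex_L1 (fun v : C2a 3 α₀ => dd j (f2 v)) (fun v w => P218H.dd_add (d v) (d w) j)
    (fun c v => P218H.dd_smul (d v) c j) (C := 3) (by norm_num) fun v => ?_).imp fun _ h => h.2
  have h := (P218H.b2_f2 v).dd j
  exact ⟨h.1, fun i => ((h.2 i).lower (by norm_num) (by norm_num) (norm_nonneg _) one_pos).mono
    (by linarith [norm_nonneg v]) (by simp only [Real.one_rpow]; linarith)⟩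

variable {M : Mod} {k : ℕ} {G : GD M k} {F F' : ∀ Z : Fin M.n₁ → ℝ, G.XX Z → ℝ × ℝ → ℂ}

variable (G) in
/-- families which are continuous linear functions of the core part -/
def Fm (F : ∀ Z : Fin M.n₁ → ℝ, G.XX Z → ℝ × ℝ → ℂ) : Prop :=
  ∃ T : G.CC →L[ℂ] W (cl (G.ρ - 1) (G.ρ + 6)), ∀ Z, (∀ j, G.ρ + 12 ≤ Z j) → ∀ U (p : ℝ × ℝ),
    p.1 ∈ Icc (G.ρ - 1) (G.ρ + 6) → T (G.coo Z U) p = F Z U p

theorem Fm.congr (h : Fm G F) (e : ∀ Z, (∀ j, G.ρ + 12 ≤ Z j) → ∀ U (p : ℝ × ℝ),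
    p.1 ∈ Icc (G.ρ - 1) (G.ρ + 6) → F Z U p = F' Z U p) : Fm G F' :=
  h.imp fun _ h Z hZ U p hp => (h Z hZ U p hp).trans (e Z hZ U p hp)

theorem Fm.add (h : Fm G F) (h' : Fm G F') : Fm G fun Z U p => F Z U p + F' Z U p :=
  let ⟨T, h⟩ := h
  let ⟨T', h'⟩ := h'
  ⟨T + T', fun Z hZ U p hp => congrArg₂ (· + ·) (h Z hZ U p hp) (h' Z hZ U p hp)⟩

theorem Fm.sum {ι : Type} [Fintype ι] {F : ι → ∀ Z : Fin M.n₁ → ℝ, G.XX Z → ℝ × ℝ → ℂ}
    (h : ∀ i, Fm G (F i)) : Fm G fun Z U p => ∑ i, F i Z U p := by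
  choose T h using h
  exact ⟨∑ i, T i, fun Z hZ U p hp => by simp [h _ Z hZ U p hp]⟩

theorem Fm.mul (o : G.Ok) {u : ℝ × ℝ → ℂ} (hu : Sm M.R u) (h : Fm G F) :
    Fm G fun Z U p => u p * F Z U p := by
  obtain ⟨x, hx⟩ := sm_w hu (a := G.ρ - 1) (b := G.ρ + 6) (by linarith [o.ld.lo, o.ld.hi])
    (by linarith)
  obtain ⟨T, h⟩ := h
  exact ⟨.mul ℂ _ x ∘L T, fun Z hZ U p hp => congrArg₂ (· * ·) (hx p hp) (h Z hZ U p hp)⟩

theorem Fm.smul (o : G.Ok) {χ : E3 → ℝ} (hχ : ContDiff ℝ ∞ χ) (e : M.I) (h : Fm G F) :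
    Fm G fun Z U p => χ (M.P e p) • F Z U p :=
  h.mul o (u := fun p => (χ (M.P e p) : ℝ)) ⟨(o.ld.geo.perP e).comp fun x => ((χ x : ℝ) : ℂ),
    fun y hy => cd_ofReal (hχ.contDiffAt.comp y (o.ld.geo.cdP e hy))⟩

theorem fm_jx (o : G.Ok) (e : M.I) (i : Fin 6) : Fm G fun _ U => LD.jx U.2.1 e i := by
  have r := ret_cl (show G.ρ - 1 ≤ G.ρ + 6 by linarith)
  have h1 := o.ld.hi
  rcases e with j | l
  · refine ⟨(P218W.W.res _ r.cont r.idem).toContinuousLinearMap ∘L .proj i ∘L .proj j ∘L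
      .fst ℂ _ _ ∘L .snd ℂ _ _, fun Z _ U p hp => ?_⟩
    change (U.2.1.1 j).1 i (cl G.z₀ (G.ρ + 9) (cl _ _ p.1), p.2) = _
    rw [r.fix _ hp, (ret_cl (by linarith)).fix _ ⟨by linarith [hp.1], by linarith [hp.2]⟩]
    rfl
  · have s : Sm M.R fun p => (omK i p.1 : ℂ) := ⟨per_z fun z => (omK i z : ℂ), fun y hy => by
      refine cd_ofReal ?_
      fin_cases i
      exacts [contDiffAt_fst, contDiffAt_fst, contDiffAt_fst, contDiffAt_const, contDiffAt_const,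
        contDiffAt_fst.inv (by linarith [o.ld.geo.pos hy] : 0 < y.1).ne']⟩
    refine Fm.mul o s (F := fun _ U => (U.2.1.2 l).1 i.castSucc)
      ⟨(P218W.W.res _ r.cont r.idem).toContinuousLinearMap ∘L .proj i.castSucc ∘L
        (P218W.XK G.z₀).subtypeL ∘L .proj l ∘L .fst ℂ _ _ ∘L .snd ℂ _ _ ∘L .snd ℂ _ _,
        fun Z _ U p hp => ?_⟩
    change (U.2.1.2 l).1 i.castSucc (cl _ _ p.1, p.2) = _
    rw [r.fix _ hp]

theorem fm_wc (o : G.Ok) (e : M.I) (j : J1 3) : Fm G fun _ U p => dd j (wc U) (M.P e p) := by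
  have g := o.ld.geo
  have lo : M.R < G.ρ - 1 := by linarith [o.ld.lo, o.ld.hi]
  obtain ⟨Wm, hW⟩ := (P218H.kit' 3 k _ G.cor o.cor.toOk0 α₀ (by norm_num) (by norm_num)).1
  obtain ⟨L, hL⟩ := ex_dd j
  obtain ⟨C, -, hC⟩ := le_comp (u := fun _ => 1) ⟨g.perP e, fun y => g.cdP e⟩
    ⟨fun _ _ _ => rfl, fun _ _ => contDiffAt_const⟩ lo (G.ρ + 6)
  obtain ⟨T, hT⟩ := exists_clm (ret_cl (by linarith)) (fun f y hy => (continuousAt_const.mul
    ((P218H.f1_cd f).continuous.continuousAt.comp (g.cdP e (lo.trans_le hy.1.1)).continuousAt)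
      ).continuousWithinAt) hC (fun f f' y => by simp [P218H.f1_add])
    fun t f y => by simp [P218H.f1_smul]
  refine ⟨T ∘L L ∘L Wm ∘L .fst ℂ _ _, fun Z _ U p hp => ((hT _).2.2 p.1 p.2).trans ?_⟩
  rw [(ret_cl (by linarith)).fix _ hp]
  change 1 * f1 (L (Wm U.1)) _ = _
  rw [hL, hW, one_mul]
  rfl

theorem fm_we (o : G.Ok) (e : M.I) (i i' : J1 3) : Fm G fun _ U p => ∑ l, M.cJ e i i' l p *
    Frm.jm (fun i => jet (fun p => (q M e p : ℂ)) i p) (fun i => LD.jx U.2.1 e i p) l := by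
  have g := o.ld.geo
  have s := sm_jet (u := fun p => (q M e p : ℂ)) ⟨(g.per_qn e).comp fun t => ((t : ℝ) : ℂ),
    fun y hy => cd_ofReal (g.cd_qn e hy)⟩
  have h := fun a b => (fm_jx o e b).mul o (s a)
  have h' := fun a b => (fm_jx o e b).mul o (sm_two (s a))
  refine Fm.sum fun l => Fm.mul o ⟨(g.per_cJ e i i' l).comp fun t => ((t : ℝ) : ℂ),
    fun y hy => cd_ofReal (g.cd_cJ hy i i' l)⟩ ?_
  fin_cases l
  exacts [h 0 0, (h 1 0).add (h 0 1), ((h 2 0).add (h' 1 1)).add (h 0 2), (h 3 0).add (h 0 3),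
    (((h 4 0).add (h 3 1)).add (h 1 3)).add (h 0 4), ((h 5 0).add (h' 3 3)).add (h 0 5)]

theorem dd_glue {c d : E3 → ℝ} {A B : E3 → ℂ} {x : E3} (hc : ContDiff ℝ ∞ c) (hd : ContDiff ℝ ∞ d)
    (hA : ContDiff ℝ 2 A) (hB : ContDiffAt ℝ 2 B x) (i : J1 3) :
    dd i (fun y => c y • A y + d y • B y) x =
      (c x • dd i A x + D i c x • dd none A x) + (d x • jt B x i none + D i d x • jt B x none none) := by
  have h1 := hc.differentiable (by simp) x
  have h2 := hd.differentiable (by simp) x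
  have h3 := hA.differentiable two_ne_zero x
  have h4 := hB.differentiableAt two_ne_zero
  rw [P218H.Cn.dd_add_at (h1.fun_smul h3) (h2.fun_smul h4), dd_smul' h1 h3, dd_smul' h2 h4]
  rfl

theorem dd_com {c : E3 → ℝ} {A : E3 → ℂ} (hc : ContDiff ℝ ∞ c) (hA : ContDiff ℝ 2 A) (x : E3)
    (i j : J1 3) : jt (fun y => c y • A y) x i j - c x • jt A x i j =
      D i c x • dd j A x + (D j c x • dd i A x + D i (D j c) x • dd none A x) := by
  have h1 := hc.differentiable (by simp)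
  have h2 := (cd_D hc j).differentiable (by simp) x
  have h3 := hA.differentiable two_ne_zero
  have h4 := (P218H.dd_cd hA j).differentiable one_ne_zero x
  rw [jt, funext fun y => dd_smul' (h1 y) (h3 y) j,
    P218H.Cn.dd_add_at ((h1 x).fun_smul h4) (h2.fun_smul (h3 x)), dd_smul' (h1 x) h4,
    dd_smul' h2 (h3 x), jt, add_assoc, add_sub_cancel_left]
  rfl

end Jn

open Jn in
/-- **JN** -/
theorem jn' (evj : EVJ) : JN := fun M g => by
  obtain ⟨z₁, h⟩ := evj M g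
  refine ⟨z₁, fun k G hz o => ?_⟩
  obtain ⟨_, -, h⟩ := h k G hz o
  have h1 := fun Z hZ U e (p : ℝ × ℝ) (hp : p.1 ∈ Icc (G.ρ - 1) (G.ρ + 6)) =>
    (((h Z hZ).2 U).2.1 e p (by linarith [o.ld.hi, hp.1])
      fun j _ => by linarith [hZ j, hp.2]).2.2.2.2
  have h2 := fun Z hZ U => ((h Z hZ).2 U).2.2.1
  have c := o.cor.scc
  have d := o.cor.sce
  have e0 : ∀ e i i', Fm G fun _ U p => jt (we U) (M.P e p) i i' := fun e i i' =>
    (fm_we o e i i').congr fun Z hZ U p hp => ((h1 Z hZ U e p hp).2 i i').symm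
  have e1 : ∀ e i, Fm G fun _ U p => dd i (uu U) (M.P e p) := fun e i =>
    ((((fm_wc o e i).smul o c e).add ((fm_wc o e none).smul o (cd_D c i) e)).add
      (((e0 e i none).smul o d e).add ((e0 e none none).smul o (cd_D d i) e))).congr
      fun Z hZ U p hp => (dd_glue c d (h2 Z hZ U) (h1 Z hZ U e p hp).1 i).symm
  have e2 : ∀ e (i : J1 3 × J1 3), Fm G fun _ U p => jN U (M.P e p) i.1 i.2 := by
    rintro e ⟨_ | i, _ | j⟩
    · exact e1 e none
    · exact e1 e (some j)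
    · exact e1 e (some i)
    · refine ((e0 e (some i) (some j)).add (((fm_wc o e (some j)).smul o (cd_D c (some i)) e).add
        (((fm_wc o e (some i)).smul o (cd_D c (some j)) e).add
          ((fm_wc o e none).smul o (cd_D (cd_D c (some j)) (some i)) e)))).congr
        fun Z hZ U p _ => ?_
      rw [← dd_com c (h2 Z hZ U), ← add_sub_assoc]
      rfl
  choose T hT using e2
  refine ⟨∑ e, ‖ContinuousLinearMap.pi (T e)‖, by positivity, fun Z hZ e =>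
    ⟨.pi (T e) ∘L G.coo Z, fun U => ⟨?_, fun p hp i i' => hT e (i, i') Z hZ U p hp⟩⟩⟩
  exact ((ContinuousLinearMap.pi (T e)).le_opNorm _).trans (mul_le_mul
    (Finset.single_le_sum (f := fun e => ‖ContinuousLinearMap.pi (T e)‖)
      (fun _ _ => by positivity) (Finset.mem_univ e)) (norm_fst_le (_, U.2.2.2))
    (norm_nonneg _) (by positivity))

end Vale.Agent.P218I
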