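import Vale.Agent.P218N.Spec3
import Vale.Agent.P218I.Bas

/-!
# P218, NL: the jets of the total height are holomorphic in the unknowns
-/

open Set Filter Topology
open scoped ContDiff

noncomputable section

namespace Vale.Agent.P218I

open Vale.Agent.P218T Vale.Agent.P218L GD
open Vale.Agent.P218H (J1 dd dd_ev dd_plus h2_wf avg_row f2)
open Vale.Agent.P218N (jt)
open Vale.Agent.P218W (W jet)

namespace Jth

variable {M : Mod} {k : ℕ} {G : GD M k} {Z : Fin M.n₁ → ℝ} {z₃ : ℝ} {x : E3}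

theorem two_le : (2 : WithTop ℕ∞) ≤ ∞ := WithTop.coe_le_coe.2 (le_top : (2 : ℕ∞) ≤ ⊤)

theorem uu_add (o : G.Ok) (U U' : G.XX Z) : uu (U + U') = fun x => uu U x + uu U' x := by
  have l : P218H.Ln fun v : P218H.C2a 3 α₀ => G.cor.wf G.et (f2 v) :=
    (h2_wf avg_row o.cor.toOk0 (by norm_num) (by norm_num)).1.1
  funext x
  simp only [uu, wc, we, Prod.fst_add, Prod.snd_add, map_add, l.add, Pi.add_apply, smul_add]
  ring

theorem uu_smul (o : G.Ok) (c : ℂ) (U : G.XX Z) : uu (c • U) = fun x => c * uu U x := by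
  have l : P218H.Ln fun v : P218H.C2a 3 α₀ => G.cor.wf G.et (f2 v) :=
    (h2_wf avg_row o.cor.toOk0 (by norm_num) (by norm_num)).1.1
  funext x
  simp only [uu, wc, we, Prod.smul_fst, Prod.smul_snd, map_smul, l.smul, Pi.smul_apply,
    smul_eq_mul, Complex.real_smul]
  ring

theorem dd_cmul {f : E3 → ℂ} (hf : DifferentiableAt ℝ f x) (c : ℂ) (i : J1 3) :
    dd i (fun y => c * f y) x = c * dd i f x := by
  simpa using P218H.Cn.dd_sum_at (M := Unit) (Y := fun _ => f) (fun _ => hf) (fun _ => c) i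

/-- the pieces of the reference profile -/
def pf (G : GD M k) (Z : Fin M.n₁ → ℝ) (z₃ : ℝ) (a : Fin M.n₁ × Fin 4) (p : ℝ × ℝ) : ℂ :=
  ![-(cut 1 (p.1 / z₃) : ℂ) * (VS (M.f a.1) p - 2), cut (G.ρ + 6) p.1 * ((p.1 : ℂ) ^ 2 - 2),
    2 * p.1 * (cut (Z a.1 - 2) p.1 : ℂ), (cut (Z a.1 - 2) p.1 : ℂ) ^ 2] a.2

/-- their lifts -/
def pl (G : GD M k) (Z : Fin M.n₁ → ℝ) (z₃ : ℝ) (a : Fin M.n₁ × Fin 4) : E3 → ℂ :=
  M.lift (.inl a.1) fun p => q M (.inl a.1) p * pf G Z z₃ a p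

/-- the coefficients -/
def cf (y : G.XX Z × Pm (Fin M.n₁)) (a : Fin M.n₁ × Fin 4) : ℂ :=
  ![1, y.2.1 a.1, y.2.1 a.1 * y.2.2.1 a.1, y.2.1 a.1 * (y.2.2.1 a.1 * y.2.2.1 a.1)] a.2

/-- their derivatives -/
def cf' (y y' : G.XX Z × Pm (Fin M.n₁)) (a : Fin M.n₁ × Fin 4) : ℂ :=
  ![0, y'.2.1 a.1, y'.2.1 a.1 * y.2.2.1 a.1 + y.2.1 a.1 * y'.2.2.1 a.1,
    y'.2.1 a.1 * y.2.2.1 a.1 ^ 2 + 2 * y.2.1 a.1 * y.2.2.1 a.1 * y'.2.2.1 a.1] a.2

theorem lift_sum (j : Fin M.n₁) (c : Fin M.n₁ × Fin 4 → ℂ) {F : ℝ × ℝ → ℂ}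
    (h : ∀ p, F p = ∑ m, c (j, m) * pf G Z z₃ (j, m) p) (x : E3) :
    M.lift (.inl j) (fun p => q M (.inl j) p * F p) x = ∑ m, c (j, m) * pl G Z z₃ (j, m) x := by
  simp only [pl, Mod.lift, P218B.desc, h]
  split_ifs
  · simp only [Finset.mul_sum, mul_left_comm]
  · simp

theorem ft_eq (y : G.XX Z × Pm (Fin M.n₁)) :
    ft z₃ y = fun x => uu y.1 x + ∑ a, cf y a * pl G Z z₃ a x := by
  funext x
  rw [ft, Fintype.sum_prod_type]
  refine congrArg _ (Finset.sum_congr rfl fun j _ => lift_sum j (cf y) (fun p => ?_) x)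
  simp [Vj, P218N.rj, jet, bt, zt, Fin.sum_univ_four, cf, pf]
  ring

theorem fd_eq (y y' : G.XX Z × Pm (Fin M.n₁)) :
    fd y y' = fun x => uu y'.1 x + ∑ a, cf' y y' a * pl G Z z₃ a x := by
  funext x
  rw [fd, Fintype.sum_prod_type]
  refine congrArg _ (Finset.sum_congr rfl fun j _ =>
    lift_sum j (cf' y y') (F := fun p => Vd y y' j p.1) (fun p => ?_) x)
  simp [Vd, zt, Fin.sum_univ_four, cf', pf]
  ring

theorem hd_cf (a : Fin M.n₁ × Fin 4) (y : G.XX Z × Pm (Fin M.n₁)) :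
    ∃ D : (G.XX Z × Pm (Fin M.n₁)) →L[ℂ] ℂ,
      HasFDerivAt (fun y => cf y a) D y ∧ ∀ y', D y' = cf' y y' a := by
  obtain ⟨j, m⟩ := a
  have hc : HasFDerivAt (fun y : G.XX Z × Pm (Fin M.n₁) => y.2.1 j) _ y :=
    (ContinuousLinearMap.proj (φ := fun _ => ℂ) j ∘L .fst ℂ _ _ ∘L .snd ℂ _ _ :
      (G.XX Z × Pm (Fin M.n₁)) →L[ℂ] ℂ).hasFDerivAt
  have hl : HasFDerivAt (fun y : G.XX Z × Pm (Fin M.n₁) => y.2.2.1 j) _ y :=
    (ContinuousLinearMap.proj (φ := fun _ => ℂ) j ∘L .fst ℂ _ _ ∘L .snd ℂ _ _ ∘L .snd ℂ _ _ :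
      (G.XX Z × Pm (Fin M.n₁)) →L[ℂ] ℂ).hasFDerivAt
  fin_cases m
  · exact ⟨0, hasFDerivAt_const (1 : ℂ) y, fun _ => rfl⟩
  · exact ⟨_, hc, fun _ => rfl⟩
  · exact ⟨_, hc.mul hl, fun y' => by simp [cf']; ring⟩
  · exact ⟨_, hc.mul (hl.mul hl), fun y' => by simp [cf']; ring⟩

variable (o : G.Ok) (hZ : ∀ j, G.ρ + 12 ≤ Z j) (h3 : G.ρ + 9 ≤ z₃)
include o hZ h3

theorem pl_cd (hx : x ∈ M.S) (a : Fin M.n₁ × Fin 4) : ContDiffAt ℝ 2 (pl G Z z₃ a) x ∧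
    (‖x‖ < G.ρ + 6 → pl G Z z₃ a =ᶠ[𝓝 x] fun _ => 0) := by
  have g := o.ld.geo
  have a1 := o.ld.lo
  have a2 := o.ld.hi
  have a3 := g.one.1
  have ht : Ici (G.ρ + 6) ⊆ Ioi M.R := fun z hz => mem_Ioi.2 (by linarith [mem_Ici.1 hz])
  obtain ⟨j, m⟩ := a
  have h0 : ∀ p : ℝ × ℝ, M.R < p.1 → p.1 ∉ Ici (G.ρ + 6) →
      q M (.inl j) p * pf G Z z₃ (j, m) p = 0 := fun p _ h => by
    have h : p.1 < G.ρ + 6 := not_le.1 h
    have e1 := cut_zero (a := 1) (z := p.1 / z₃) ((div_le_one (by linarith)).2 (by linarith))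
    have e2 := cut_zero (a := Z j - 2) (z := p.1) (by linarith [hZ j])
    fin_cases m <;> simp [pf, e1, e2, cut_zero h.le]
  refine ⟨g.lift_cd_tube ((g.per_qn _).comp₂ (G := pf G Z z₃ (j, m)) (fun z θ hz => ?_)
    fun u v => (u : ℂ) * v) isClosed_Ici ht h0 two_le (fun p hp => ?_) (g.w_lt hx),
    fun h => g.lift_ev_zero' isClosed_Ici ht h0 hx fun e => ?_⟩
  · simp only [pf, g.per_VS j M.R z θ hz]
  · have c : ∀ a, ContDiffAt ℝ 2 (fun p : ℝ × ℝ => (cut a p.1 : ℂ)) p := fun a =>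
      cd_ofReal (((cd_cut a).of_le two_le).contDiffAt.comp p contDiffAt_fst)
    have c1 : ContDiffAt ℝ 2 (fun p : ℝ × ℝ => (p.1 : ℂ)) p := cd_ofReal contDiffAt_fst
    refine (cd_ofReal ((g.cd_qn _ (ht hp)).of_le two_le)).mul ?_
    fin_cases m
    · exact (cd_ofReal (((cd_cut 1).of_le two_le).contDiffAt.comp p
        (contDiffAt_fst.div_const z₃))).neg.mul
        (((g.cd_VS j).of_le two_le).contDiffAt.sub contDiffAt_const)
    · exact (c _).mul ((c1.pow 2).sub contDiffAt_const)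
    · exact (contDiffAt_const.mul c1).mul (c _)
    · exact (c _).pow 2
  · obtain ⟨z, hz, l, -⟩ := g.norm_En ht e
    linarith [mem_Ici.1 hz]

omit hZ h3 in
theorem far (hx : x ∈ SW Z) (h : G.ρ + 9 < ‖x‖) : ∃ e, ∃ p : ℝ × ℝ, G.z₀ < p.1 ∧
    (∀ j, e = .inl j → p.1 < Z j) ∧ M.P e p = x ∧ ∀ U : G.XX Z, uu U =ᶠ[𝓝 x] we U := by
  have a1 := o.ld.lo
  have a2 := o.ld.hi
  obtain ⟨e, p, b1, -, rfl⟩ := o.ld.geo.far (c := G.z₀) (by linarith) hx.1 (by linarith)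
  refine ⟨e, p, b1, ?_, rfl, fun U => ?_⟩
  · rintro j rfl
    exact not_le.1 fun l => hx.2 (mem_iUnion.2 ⟨j, Mod.P_mem_En l⟩)
  · obtain ⟨c1, c2⟩ := o.cor.cc0 _ hx.1 (by change G.ρ + 2 + 3 ≤ _; linarith)
    filter_upwards [c1, c2] with x' d1 d2
    simp only [uu, d1, d2, zero_smul, one_smul, zero_add]

end Jth

open Jth

theorem cont_jx {M : Mod} {k : ℕ} {G : GD M k} {Z : Fin M.n₁ → ℝ} (e : M.I) (i : Fin 6)
    (p : ℝ × ℝ) : Continuous fun U : G.XX Z => LD.jx U.2.1 e i p := by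
  rcases e with j | l
  · exact (W.cont_ev p).comp ((continuous_apply i).comp (continuous_subtype_val.comp
      ((continuous_apply j).comp continuous_snd.fst.fst)))
  · exact continuous_const.mul ((W.cont_ev p).comp ((continuous_apply i.castSucc).comp
      (continuous_subtype_val.comp ((continuous_apply l).comp continuous_snd.fst.snd))))

/-- **the jets of the total height** -/
theorem jth (evj : EVJ) : JTH := by
  refine Row.mono evj fun M k G o ⟨C, C0, h⟩ Z z₃ hZ h3 x hx => ?_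
  obtain ⟨-, h⟩ := h Z hZ
  have cd : ∀ U : G.XX Z, ContDiffAt ℝ 2 (uu U) x := fun U => by
    rcases le_or_gt ‖x‖ (G.ρ + 9) with l | l
    · exact ((h U).2.2.2 x hx.1 l).1
    · obtain ⟨e, p, b1, b2, rfl, b3⟩ := far o hx l
      exact ((h U).2.1 e p b1 b2).2.2.2.2.1.congr_of_eventuallyEq (b3 U)
  have d := fun U => (cd U).differentiableAt (by simp)
  have pc := pl_cd o hZ h3 hx.1
  have pd := fun a => (pc a).1.differentiableAt (by simp)
  have cs : ∀ c : Fin M.n₁ × Fin 4 → ℂ, ContDiffAt ℝ 2 (fun x => ∑ a, c a * pl G Z z₃ a x) x :=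
    fun c => ContDiffAt.sum fun a _ => contDiffAt_const.mul (pc a).1
  have ez : ‖x‖ < G.ρ + 6 → ∀ (c : Fin M.n₁ × Fin 4 → ℂ) (f : E3 → ℂ),
      (fun x => f x + ∑ a, c a * pl G Z z₃ a x) =ᶠ[𝓝 x] f := fun l c f => by
    filter_upwards [eventually_all.2 fun a => (pc a).2 l] with x' e
    simp [e]
  refine ⟨fun y y' => ?_, fun i => ?_⟩
  · rw [ft_eq, fd_eq (z₃ := z₃)]
    exact ⟨(cd _).add (cs _), (cd _).add (cs _), fun l => ⟨ez l _ _, ez l _ _⟩⟩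
  let L : G.XX Z →ₗ[ℂ] ℂ :=
    { toFun := fun U => dd i (uu U) x
      map_add' := fun U U' => by rw [uu_add o, dd_plus (d U) (d U')]
      map_smul' := fun c U => by rw [uu_smul o, dd_cmul (d U)]; rfl }
  have ct : Continuous L := by
    rcases le_or_gt ‖x‖ (G.ρ + 9) with l | l
    · exact (L.mkContinuous C fun U => (((norm_le_pi_norm _ i).trans (norm_le_pi_norm
        (jt (uu U) x) none)).trans ((h U).2.2.2 x hx.1 l).2.1).trans
          (mul_le_mul_of_nonneg_left (h U).1 C0)).continuous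
    · obtain ⟨e, p, b1, b2, rfl, b3⟩ := far o hx l
      have c := fun i => cont_jx (G := G) (Z := Z) e i p
      refine Continuous.congr (continuous_finsetSum _ fun l _ => continuous_const.mul ?_) fun U =>
        ((dd_ev (b3 U) i).eq_of_nhds.trans (((h U).2.1 e p b1 b2).2.2.2.2.2 none i)).symm
      fin_cases l <;> simp only [Frm.jm] <;> simp <;> fun_prop
  have e : ∀ (U : G.XX Z) (c : Fin M.n₁ × Fin 4 → ℂ),
      jt (fun x => uu U x + ∑ a, c a * pl G Z z₃ a x) x none i =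
        L U + ∑ a, c a * dd i (pl G Z z₃ a) x := fun U c =>
    (dd_plus (d U) ((cs c).differentiableAt (by simp)) i).trans
      (congrArg _ (P218H.Cn.dd_sum_at pd c i))
  choose D hD eD using fun a (y : G.XX Z × Pm (Fin M.n₁)) => hd_cf a y
  have hf := fun y : G.XX Z × Pm (Fin M.n₁) =>
    ((⟨L, ct⟩ : G.XX Z →L[ℂ] ℂ) ∘L .fst ℂ _ (Pm (Fin M.n₁))).hasFDerivAt (x := y) |>.fun_add
      (HasFDerivAt.fun_sum (u := Finset.univ) fun a _ =>
        (hD a y).mul_const (dd i (pl G Z z₃ a) x))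
  simp only [ft_eq, fd_eq (z₃ := z₃), e]
  refine ⟨fun y => (hf y).differentiableAt, fun y y' => (congrArg (· y') (hf y).fderiv).trans ?_⟩
  simp [eD, mul_comm]

end Vale.Agent.P218I
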