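import Vale.Agent.P218N.MidW
import Vale.Agent.P218I.Bas

/-! Row MID: the functional far from the tips. -/

open MeasureTheory Set Filter Topology

noncomputable section

namespace Vale.Agent.P218I

open Vale.Agent.P218T Vale.Agent.P218L GD
open Vale.Agent.P218H (tri tri_le)
open Vale.Agent.P218N (sig rh0 Tf)

namespace MidA

theorem tail {Z t : ℝ} (hZ : 8 ≤ Z) (h : Z ≤ t) :
    Real.exp (-t ^ 2 / 4) ≤ 1 / Z * Real.exp (-t ^ 2 / 8) := by
  rw [show -t ^ 2 / 4 = -(t ^ 2 / 8) + -t ^ 2 / 8 by ring, Real.exp_add, Real.exp_neg, one_div]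
  exact mul_le_mul_of_nonneg_right (inv_anti₀ (by linarith)
    (by nlinarith [Real.add_one_le_exp (t ^ 2 / 8)])) (Real.exp_pos _).le

theorem bdry {Z : ℝ} (hZ : 8 ≤ Z) : Z * Real.exp (-Z ^ 2 / 4) ≤ 1 / Z := by
  have h := mul_le_mul_of_nonneg_left ((tail hZ le_rfl).trans (mul_le_mul_of_nonneg_left
    (show _ ≤ 1 / Z by
      rw [show -Z ^ 2 / 8 = -(Z ^ 2 / 8) by ring, Real.exp_neg, one_div]
      exact inv_anti₀ (by linarith) (by nlinarith [Real.add_one_le_exp (Z ^ 2 / 8)]))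
    (by positivity))) (by linarith : 0 ≤ Z)
  refine h.trans_eq ?_
  field_simp

/-- the integral estimate -/
theorem est {μ : Measure E3} {s : Set E3} (hs : MeasurableSet s) {F : E3 → ℂ} {a b : ℝ}
    (a0 : 0 ≤ a) (b0 : 0 ≤ b) (hI : Integrable (fun x => Real.exp (-‖x‖ ^ 2 / 8)) μ)
    (hF : IntegrableOn F s μ) (h1 : ∀ x ∈ s, ‖F x - rh0 x‖ ≤ a * Real.exp (-‖x‖ ^ 2 / 8))
    (h2 : ∀ᵐ x ∂μ, x ∉ s → Real.exp (-‖x‖ ^ 2 / 4) ≤ b * Real.exp (-‖x‖ ^ 2 / 8)) :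
    ‖∫ x in s, F x ∂μ - (∫ x, Real.exp (-‖x‖ ^ 2 / 4) ∂μ : ℝ)‖ ≤
      (a + b) * ∫ x, Real.exp (-‖x‖ ^ 2 / 8) ∂μ := by
  have n0 : ∀ x, ‖rh0 x‖ = Real.exp (-‖x‖ ^ 2 / 4) := fun x => by
    rw [rh0, Complex.norm_real, Real.norm_of_nonneg (Real.exp_pos _).le]
  have i0 : Integrable rh0 μ := hI.mono' (by unfold rh0; fun_prop) (.of_forall fun x => by
    rw [n0]
    exact Real.exp_le_exp.2 (by nlinarith [sq_nonneg ‖x‖]))
  have k : ∀ t, ∫ x in t, Real.exp (-‖x‖ ^ 2 / 8) ∂μ ≤ ∫ x, Real.exp (-‖x‖ ^ 2 / 8) ∂μ := fun t =>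
    setIntegral_le_integral hI (.of_forall fun x => (Real.exp_pos _).le)
  have k1 := norm_integral_le_of_norm_le (μ := μ.restrict s) (hI.integrableOn.const_mul a)
    ((ae_restrict_iff' hs).2 (.of_forall h1))
  have k2 := norm_integral_le_of_norm_le (μ := μ.restrict sᶜ) (f := rh0)
    (hI.integrableOn.const_mul b) ((ae_restrict_iff' hs.compl).2 (by simpa only [n0, mem_compl_iff] using h2))
  rw [integral_const_mul] at k1 k2
  rw [← integral_complex_ofReal]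
  change ‖_ - ∫ x, rh0 x ∂μ‖ ≤ _
  rw [← integral_add_compl hs i0, ← sub_sub, ← integral_sub hF i0.integrableOn, add_mul]
  exact (norm_sub_le _ _).trans (add_le_add (k1.trans (mul_le_mul_of_nonneg_left (k _) a0))
    (k2.trans (mul_le_mul_of_nonneg_left (k _) b0)))

end MidA

open MidA in
theorem mid (w : MIDW) (mpn : MPN) (mpc : MPC) (gau : GAU) (hi : HI) (hb : HB) : Fld Obj.MID := by
  obtain ⟨C, w⟩ := w
  intro M g
  obtain ⟨z₁, h⟩ := (mpn.and mpc).and (hi.and hb) M g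
  refine ⟨max z₁ 2, fun k G hz o => ?_⟩
  obtain ⟨⟨h1, h2⟩, h3, h4⟩ := h k G (le_of_max_le_left hz) o
  have A0 : 0 ≤ ∫ x, Real.exp (-‖x‖ ^ 2 / 8) ∂sig M.w :=
    integral_nonneg fun x => (Real.exp_pos _).le
  have lo := o.ld.lo
  have hi := o.ld.hi
  filter_upwards [h1, h2, h3, h4, ev_ad, ev_Z fun _ _ _ => max 8 (G.z₀ + 1), ev_K₂ fun q _ =>
    max (max 1 C) ((q.K ^ 2 + 1) * ∫ x, Real.exp (-‖x‖ ^ 2 / 8) ∂sig M.w + M.n₁)]
    with p h1 h2 h3 h4 ad hZ hK hm U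
  simp only [max_le_iff] at hZ hK
  have Z0 : 0 < p.Z := by linarith [hZ.1]
  have hW : ∀ j, Ici (p.W j) ⊆ Ioi M.R := fun j z hz =>
    mem_Ioi.2 (by linarith [hZ.2, (ad.hW j).1, mem_Ici.1 hz])
  refine ⟨tri_le hK.1.1 (fun v => ?_) U, fun hU => ?_⟩
  · have n0 := apply_nonneg (G.ph' p.W p.c) v
    refine prs_le (fun j => (w _ _ _ (le_of_max_le_right hz) (by linarith [hZ.2, (ad.hW j).1])
      (hm j) _).trans ((mul_le_mul_of_nonneg_right hK.1.2 (apply_nonneg _ _)).trans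
        (mul_le_mul_of_nonneg_left ((le_prs (p := fun j => pH (p.c j) G.z₀ (p.W j)) v).1 j) (by linarith [hK.1.1]))))
      ((le_prs v).2.trans (le_mul_of_one_le_left n0 hK.1.1))
  have bx : (U, bs p.c p.v) ∈ G.Bx p := ⟨hU, by simp [pow_pos Z0]⟩
  have d1 : 1 / p.Z ≤ G.ds p U :=
    le_add_of_nonneg_left (add_nonneg (apply_nonneg _ _) (norm_nonneg _))
  have d0 : 0 < 1 / p.Z := by positivity
  have k1 := est (μ := sig M.w) (s := SW p.W) (g.isClosed_S.measurableSet.diff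
    (.iUnion fun j => g.meas_En measurableSet_Ici (hW j))) (a := p.K ^ 2 * G.ds p U)
    (mul_nonneg (sq_nonneg _) (by linarith)) d0.le (gau M g) (h3 _ bx).2.2.1 (fun x hx => by
      by_cases a : ‖x‖ ≤ G.ρ + 5
      · exact h1 U hU x hx.1 (.inl a)
      obtain ⟨e, y, hy, -, rfl⟩ := g.far (c := G.ρ + 4) (by linarith) hx.1 (by linarith)
      rcases e with j | l
      · exact h2 hm U hU j _ (Mod.P_mem_En ⟨hy, not_le.1 fun b =>
          hx.2 (mem_iUnion.2 ⟨j, Mod.P_mem_En b⟩)⟩)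
      · exact h1 U hU _ hx.1 (.inr ⟨l, Mod.P_mem_En hy⟩)) (by
      refine (ae_restrict_mem (isClosed_eq g.smw.continuous continuous_const).measurableSet).mono
        fun x hx hx' => ?_
      obtain ⟨j, hj⟩ := mem_iUnion.1 (not_not.1 fun b => hx' ⟨(g.shr.mem_iff x).2 hx, b⟩)
      obtain ⟨z, a, b, -⟩ := g.norm_En (hW j) hj
      exact tail hZ.1 ((ad.hW j).1.trans (a.trans b)))
  have k2 : ‖∑ j, Tf p.J₀ p.J (bs p.c p.v).2.2.2 (Zb (U, bs p.c p.v) j) (Vb (U, bs p.c p.v) j)‖ ≤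
      M.n₁ * G.ds p U := (norm_sum_le _ _).trans ((Finset.sum_le_card_nsmul _ _ _ fun j _ =>
    ((h4 _ bx j).2.trans (bdry hZ.1)).trans d1).trans_eq (by simp))
  refine ((congrArg norm (add_sub_right_comm _ _ _)).trans_le
    ((norm_add_le _ _).trans (add_le_add k1 k2))).trans ?_
  change _ ≤ p.K₂ * G.ds p U
  nlinarith [mul_le_mul_of_nonneg_right hK.2 (d0.le.trans d1), mul_le_mul_of_nonneg_right d1 A0]

end Vale.Agent.P218I
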