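import Vale.Agent.P218N.Spec2
import Vale.Agent.P218C.Eq

/-! Block NL: maps of the ends in terms of their profiles. -/

open Set Filter Topology
open scoped ContDiff Real

noncomputable section

namespace Vale.Agent.P218N

open Vale.Agent.P218T (Mod jv eJ cylj conj' jv_congr)
open Vale.Agent.P218T.Frm (LJ lj lj_z)

namespace Chr

variable {T : V3 → V3} {ε : ℂ}

theorem LJc {F : ℝ × ℝ → ℂ} {y : ℝ × ℝ} {a : Fin 6 → ℂ} (h : LJ F y a) (c : ℂ) :
    LJ (fun q => F q * c) y fun k => a k * c := by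
  convert h.mul (lj_z (ζ := fun _ => c) (ζ₁ := fun _ => 0)
    (.of_forall fun z => hasDerivAt_const z c) (hasDerivAt_const _ 0)) using 1
  funext k
  fin_cases k <;> simp [P218T.Frm.jm]

theorem T_eq (hT : Orth T ε) (v : V3) (i : Fin 3) :
    T v i = v 0 * T ![1, 0, 0] i + v 1 * T ![0, 1, 0] i + v 2 * T ![0, 0, 1] i := by
  have : v = v 0 • ![1, 0, 0] + v 1 • ![0, 1, 0] + v 2 • ![0, 0, 1] := by apply ext3 <;> simp
  conv_lhs => rw [this, hT.add, hT.add, hT.smul, hT.smul, hT.smul]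
  rfl

theorem jv_lin (hT : Orth T ε) {F G : ℝ × ℝ → V3} {y : ℝ × ℝ} (hF : ContDiffAt ℝ 2 F y)
    (e : ∀ᶠ q in 𝓝 y, F q = T (G q)) : jv F y = fun k => T (jv G y k) := by
  have h (j : Fin 3) : ContDiffAt ℝ 2 (fun q => G q j) y :=
    (contDiffWithinAt_univ.1 (cd_dt (a := fun _ => T (Pi.single j 1)) contDiffWithinAt_const
      hF.contDiffWithinAt)).congr_of_eventuallyEq (e.mono fun q hq => by
        simp only [hq, hT.dt]
        fin_cases j <;> simp [dt])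
  rw [jv_congr e]
  funext k i
  rw [T_eq hT]
  simp only [jv, T_eq hT (G _)]
  exact (((LJc (lj (h 0)) _).add (LJc (lj (h 1)) _)).add (LJc (lj (h 2)) _)).jet k

theorem ccr (hT : Orth T ε) (a b c : V3) : cr (cr (T a) (T b)) (T c) = T (cr (cr a b) c) := by
  have (s : ℂ) (u v : V3) : cr (s • u) v = s • cr u v := by
    apply ext3 <;> simp only [cr0, cr1, cr2, Pi.smul_apply, smul_eq_mul] <;> ring
  rw [hT.cr, this, hT.cr, smul_smul, hT.sq, one_smul]

theorem sq_slit {w : ℂ} (h : 0 < w.re) :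
    w ^ 2 ∈ Complex.slitPlane ∧ Complex.sqrt (w ^ 2) = w := by
  refine ⟨?_, by simpa [Complex.sqrt] using Complex.sq_cpow_two_inv h⟩
  rw [Complex.mem_slitPlane_iff, sq, Complex.mul_re, Complex.mul_im]
  rcases eq_or_ne w.im 0 with k | k
  · exact .inl (by simp [k, h.ne'])
  · exact .inr (by rw [mul_comm w.im, ← two_mul]; positivity)

theorem re_sqrt {G : ℂ} (h : G ∈ Complex.slitPlane) : 0 < (Complex.sqrt G).re := by
  refine (P218T.HJ.sqrt_re G).lt_of_ne' fun k => ?_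
  rw [← sq_sqrt G, Complex.mem_slitPlane_iff, sq, Complex.mul_re, Complex.mul_im, k] at h
  exact h.elim (fun h => by nlinarith [mul_self_nonneg (Complex.sqrt G).im]) (by simp)

theorem gen {M : Mod} (g : M.Geo) (e : M.I) {y : ℝ × ℝ} (hy : M.R < y.1) {X : E3 → V3}
    (hX : ContDiffAt ℝ 2 X (M.P e y)) {J : Fin 6 → V3} (hJ : jv (fun q => X (M.P e q)) y = J)
    {W : ℂ} (W0 : 0 < W.re) (W2 : g2 (J 3) (J 1) = W ^ 2) :
    gg (pd X (M.P e y)) (nu M.w (M.P e y)) ∈ Complex.slitPlane ∧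
    wX X (nu M.w) (M.P e y) * M.JS e y = W ∧
    (∀ t, eX t X (nu M.w) (M.P e y) = M.sg e / M.JS e y * eJ t J) ∧
    ∀ (Ω : E3 → ℂ) (Y : E3 → V3), fl M e X Y (om Ω X (nu M.w)) y =
      -(Ω (M.P e y) / W) * dt (Y (M.P e y)) (cr (cr (J 3) (J 1)) (J 1)) := by
  obtain ⟨-, -, -, -, h1, h2, -⟩ := P218T.cov _ _ _ _ g.shr g.smw _ y (g.pc e hy)
  obtain ⟨h3, h4, -⟩ := h1 X X (hX.differentiableAt two_ne_zero) (hX.differentiableAt two_ne_zero)
  have j0 : (M.JS e y : ℂ) ≠ 0 := by exact_mod_cast (g.ori _ y hy).ne'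
  have s2 : (M.sg e : ℂ) * M.sg e = 1 := by exact_mod_cast g.sg_sq e
  have hs : (P218T.Jg M.w (M.P e) y : ℂ) = M.sg e * M.JS e y := by exact_mod_cast g.Js_eq e y
  simp only [hJ, hs] at h2 h3 h4
  have h5 : gg (pd X (M.P e y)) (nu M.w (M.P e y)) = (W / M.JS e y) ^ 2 := by
    field_simp
    linear_combination W2 - h4 - (M.JS e y : ℂ) ^ 2 * gg (pd X (M.P e y)) (nu M.w (M.P e y)) * s2
  have h6 := sq_slit (w := W / M.JS e y) (by
    rw [Complex.div_ofReal_re]; exact div_pos W0 (g.ori _ y hy))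
  have h7 : wX X (nu M.w) (M.P e y) = W / M.JS e y := by rw [wX, h5, h6.2]
  have W1 : W ≠ 0 := fun h => by simp [h] at W0
  refine ⟨h5 ▸ h6.1, by rw [h7, div_mul_cancel₀ _ j0], fun t => ?_, fun Ω Y => ?_⟩
  · rw [← hJ, h2 X t hX]
    field_simp
    linear_combination -eX t X (nu M.w) (M.P e y) * s2
  · rw [fl, hJ, h3, om, h7]
    simp only [dt, cr0, cr1, cr2, Pi.smul_apply, smul_eq_mul]
    field_simp

end Chr

open Chr

theorem chc : CHC := fun M g i y hy X T V ζ ζ₁ ζ₂ hX hT hV V0 h1 h2 h3 W0 h4 => by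
  obtain ⟨-, -, c2, c3, c4⟩ := cylj (M.Q i)
  have cr : ContDiffAt ℝ 2 (fun q => Complex.sqrt (V q)) y :=
    ((cd_sqrt V0).restrict_scalars ℝ).comp y hV
  have v0 := Complex.slitPlane_ne_zero V0
  have r0 := sqrt_ne v0
  have o := hT.comp (g.orthQ i y.2)
  have hJ := jv_lin hT (hX.comp y ((g.cdP _ hy).of_le (by norm_cast))) h4
  rw [c2 _ ζ ζ₁ ζ₂ y cr h1 h2 h3, c3 _ V y cr (.of_forall fun q => sq_sqrt _) r0] at hJ
  have W1 : Wf (ζ₁ y.1) (fun k => P218W.jet V k y) ≠ 0 := fun h => by simp [h] at W0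
  have z0 : ζ₁ y.1 ≠ 0 := left_ne_zero_of_mul W1
  have e0 : P218W.jet V 0 y = V y := rfl
  have W2 : Wf (ζ₁ y.1) (fun k => P218W.jet V k y) ^ 2 = ζ₁ y.1 ^ 2 *
      vD (V y) (P218W.jet V 3 y / ζ₁ y.1) (P218W.jet V 1 y) / (4 * V y) := by
    rw [Wf, mul_pow, sq_sqrt, e0, vD]
    field_simp
  obtain ⟨h5, h6, h7, h8⟩ := gen g _ hy hX hJ W0 (by
    have := g2_cyl r0 z0 (P218W.jet V 3 y) (P218W.jet V 1 y)
    rw [sq_sqrt] at this
    rw [o.g2, W2, ← this]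
    simp only [g2, dt, cr0, cr1, cr2, P218T.cyJ, P218T.sqJ, Matrix.cons_val]
    ring)
  refine ⟨?_, h5, h6, fun ε k => ?_, fun Ω Y η ζ' V' hY => ?_⟩
  · rw [h4.self_of_nhds, o.dt]
    simp only [dt, Matrix.cons_val]
    linear_combination sq_sqrt (V y)
  · have q2 : (M.ε (.inl i) : ℂ) * M.ε (.inl i) = 1 := by exact_mod_cast (g.sq _).2
    rw [h7, c4 _ _ _ _ _ _ _ (fun k => P218W.jet V k y) o (sq_sqrt (V y)) r0 z0 fun h =>
      pow_ne_zero 2 W1 (by rw [W2, ← e0, h, mul_zero, zero_div]), Ef, e0]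
    simp only [Mod.sg]
    push_cast
    generalize vv _ _ _ _ _ _ _ _ = x
    linear_combination M.s (.inl i) / M.JS (.inl i) y * ζ₁ y.1 * x * q2
  · rw [h8, hY, ccr o, hT.dt]
    rfl

theorem chk : CHK := fun M g l y hy X u G hX hu hG G0 h4 => by
  obtain ⟨-, -, -, -, -, -, -, c2, c3⟩ := conj' _ _ (g.link l)
  have o := g.orthK l y.2
  have z1 := one_pos.trans (g.pos hy)
  have z0 : (y.1 : ℂ) ≠ 0 := by exact_mod_cast z1.ne'
  obtain ⟨h5, h6, h7, h8⟩ := gen g _ hy hX ((jv_congr h4).trans (c2 u y hu))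
    (W := y.1 * Complex.sqrt G) (by rw [Complex.re_ofReal_mul]; exact mul_pos z1 (re_sqrt G0)) (by
      rw [o.g2, mul_pow, sq_sqrt, hG]
      exact (e2_cone z0 _ _ 0 _ _ _ 0 0 0).2)
  refine ⟨?_, h5, h6, ?_, fun Ω Y u' hY => ?_⟩
  · rw [h4.self_of_nhds, o.dt]
    simp only [dt, Matrix.cons_val]
    ring
  · have q2 : (M.ε (.inr l) : ℂ) * M.ε (.inr l) = 1 := by exact_mod_cast (g.sq _).2
    rw [h7, c3 _ _ _ _ _ o z0]
    simp only [Mod.sg]
    push_cast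
    generalize P218T.kJ _ _ _ _ = x
    linear_combination M.s (.inr l) / M.JS (.inr l) y * x * q2
  · have e0 : P218W.jet u 0 y = u y := rfl
    rw [h8, hY, ccr o, o.dt]
    simp only [dt, cr0, cr1, cr2, P218T.coJ, Matrix.cons_val, e0]
    field_simp
    ring

end Vale.Agent.P218N
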