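import Vale.Agent.P218N.Spec3
import Vale.Agent.P218N.Ch
import Vale.Agent.P218N.Bv
import Vale.Agent.P218I.Bt
import Vale.Agent.P218I.Zon
import Vale.Agent.P218I.AsmA

/-! Block NL: the integrand is close to the Gaussian on the cylindrical ends. -/

open MeasureTheory Set Filter Topology
open scoped ContDiff Real

noncomputable section

namespace Vale.Agent.P218I

open Vale.Agent.P218T Vale.Agent.P218L Vale.Agent.P218M GD
open Vale.Agent.P218H (tri le_tri)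
open Vale.Agent.P218N (rh0 Wf Cj cx dt vD)
open Vale.Agent.P218W (W jet cl XE)

namespace Mpc

/-- the jet of the cylinder -/
abbrev V0 : Fin 6 → ℂ := ![2, 0, 0, 0, 0, 0]

/-- the integrand without the factor `exp (-z ^ 2 / 4)` -/
def Ph (V : Fin 6 → ℂ) : ℂ := Complex.exp (-V 0 / 4) * Wf 1 V

theorem cd_Wf : ContDiffAt ℂ 1 (Wf 1) V0 := by
  refine contDiffAt_const.mul (ContDiffAt.comp V0 (g := Complex.sqrt)
    (P218N.cd_sqrt (by simp)) ?_)
  fun_prop (disch := simp)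

theorem lip : ∃ δ > 0, ∃ L ≥ 0, ∀ A, ‖A - V0‖ ≤ δ → 1 ≤ (Wf 1 A).re ∧
    ∀ V, Cj V → ‖Ph V - Ph A‖ ≤ L * ‖V - A‖ ∧ ‖Ph V - Ph A‖ ≤ L := by
  obtain ⟨K, t, ht, hK⟩ := (show ContDiffAt ℂ 1 Ph V0 from
    ContDiffAt.mul (by fun_prop) cd_Wf).exists_lipschitzOnWith
  have h1 : ∀ᶠ A in 𝓝 V0, 1 < (Wf 1 A).re :=
    (Complex.continuous_re.continuousAt.comp cd_Wf.continuousAt).eventually (lt_mem_nhds (by
      have : Wf 1 V0 = Complex.sqrt (((√2 : ℝ) : ℂ) ^ 2) := by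
        rw [← Complex.ofReal_pow, Real.sq_sqrt zero_le_two]
        simp [Wf]
      change 1 < (Wf 1 V0).re
      rw [this, (P218N.Chr.sq_slit (by simp)).2]
      exact Real.one_lt_sqrt_two))
  obtain ⟨ε, ε0, hε⟩ := Metric.eventually_nhds_iff.1 (h1.and ht)
  have z0 := (hε (y := V0) (by simpa)).2
  refine ⟨ε / 3, by positivity, K + (16 + ‖Ph V0‖ + K * ε) / (ε / 3) + (16 + ‖Ph V0‖ + K * ε),
    by positivity, fun A hA => ?_⟩
  have a : dist A V0 < ε := by rw [dist_eq_norm]; linarith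
  refine ⟨(hε a).1.le, fun V hV => ?_⟩
  have b1 : ‖Ph V‖ ≤ 16 := by
    obtain ⟨-, c1, -, -, -, c2, -⟩ := P218N.cyb V 0 0 0 1 0 hV (by simp) (by simp) (by simp)
    simp only [ne_eq, OfNat.ofNat_ne_zero, not_false_eq_true, zero_pow, zero_add, neg_zero, zero_div,
      Real.exp_zero] at c2
    exact (norm_mul_le_of_le c2 c1).trans_eq (by norm_num)
  have b2 : ‖Ph A - Ph V0‖ ≤ K * ε :=
    (hK.norm_sub_le (hε a).2 z0).trans (mul_le_mul_of_nonneg_left (by linarith) K.2)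
  have b3 : ‖Ph V - Ph A‖ ≤ 16 + ‖Ph V0‖ + K * ε := by
    linarith [norm_sub_le (Ph V) (Ph A), norm_le_norm_add_norm_sub' (Ph A) (Ph V0)]
  have p1 : 0 ≤ (16 + ‖Ph V0‖ + K * ε) / (ε / 3) := by positivity
  have p2 : 0 ≤ 16 + ‖Ph V0‖ + K * ε := by positivity
  refine ⟨?_, by linarith [K.2]⟩
  rcases le_total ‖V - A‖ (ε / 3) with h | h
  · refine (hK.norm_sub_le (hε ?_).2 (hε a).2).trans
      (mul_le_mul_of_nonneg_right (by linarith) (norm_nonneg _))
    rw [dist_eq_norm]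
    linarith [norm_sub_le_norm_sub_add_norm_sub V A V0]
  · refine b3.trans (le_trans ?_ (mul_le_mul (show (16 + ‖Ph V0‖ + K * ε) / (ε / 3) ≤ _ by
      linarith [K.2]) h (by positivity) (by positivity)))
    rw [div_mul_cancel₀ _ (by positivity)]

theorem jet_le {R Z z : ℝ} (R1 : 1 ≤ R) (RZ : R + 1 ≤ Z) (J : XE R Z) (hz : z ∈ Icc R Z)
    (i : Fin 6) (θ : ℝ) : ‖J.1 i (z, θ)‖ ≤ 36 ^ 2 * z ^ 10 * pH 0 R Z J := by
  have c : Cyl 1 R Z 0 := ⟨by linarith, RZ, by simp, fun z hz => by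
    simp only [rh, zero_mul, add_zero, Complex.re_ofNat]
    nlinarith [hz.1], fun z _ => by norm_num [rh]⟩
  have e : ∀ t ∈ Icc R z, ∀ θ, (P218W.W.res (r' := cl R z) (cl R z) (by unfold cl; fun_prop)
      (cl_cl _ _) (J.1 i)) (t, θ) = J.1 i (t, θ) := fun t ht θ => by
    rw [P218W.W.res_apply, (P218W.ret_cl hz.1).fix t ht]
  have := (zon_jet c R1 hz.1 hz.2 J i _ e).2
  rw [← e z ⟨hz.1, le_rfl⟩]
  exact (P218W.W.apply_le _ _).trans (by linarith)

variable {M : Mod} {k : ℕ}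

theorem nP (g : M.Geo) (i : Fin M.n₁) (y : ℝ × ℝ) :
    ‖M.P (.inl i) y‖ ^ 2 = y.1 ^ 2 + (√2 + M.f i y) ^ 2 := by
  have := (g.orthQ i y.2).dt ![((√2 + M.f i y : ℝ) : ℂ), 0, (y.1 : ℂ)]
    ![((√2 + M.f i y : ℝ) : ℂ), 0, (y.1 : ℂ)]
  rw [← (cylj _).2.1, Frm.dt_cx, real_inner_self_eq_norm_sq] at this
  simp only [dt, Matrix.cons_val, mul_zero, add_zero, ← Complex.ofReal_mul, ← Complex.ofReal_add,
    Complex.ofReal_inj] at this
  exact this.trans (by ring)

theorem JS_eq (g : M.Geo) (i : Fin M.n₁) {y : ℝ × ℝ} (hy : M.R < y.1) :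
    Wf 1 (fun l => jet (VS (M.f i)) l y) = M.JS (.inl i) y := by
  have v0 : VS (M.f i) y ≠ 0 := Complex.ofReal_ne_zero.2 (pow_ne_zero 2 (g.r_ne hy))
  have h := g.vD_eq (i := i) hy
  rw [← (P218N.Chr.sq_slit (w := M.JS (.inl i) y) (g.ori _ y hy)).2, Wf, one_mul]
  congr 1
  change VS (M.f i) y + _ + _ / (4 * VS (M.f i) y) = _
  rw [vD] at h
  field_simp
  linear_combination h

/-- the cut-off function of the reference profile -/
abbrev hc (a t : ℝ) : ℂ := ((1 - cut a t : ℝ) : ℂ) * (t ^ 2 - 2)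

theorem cd_hc (a : ℝ) : ContDiff ℝ ∞ (hc a) :=
  have o := Complex.ofRealCLM.contDiff (n := ∞)
  (o.comp (contDiff_const.sub (cd_cut _))).mul ((o.pow 2).sub contDiff_const)

theorem dif (g : M.Geo) (G : GD M k) (z₃ : ℝ) (j : Fin M.n₁) {Z : ℝ} (c : ℂ) {y : ℝ × ℝ}
    (Z0 : 0 < Z) (hy : y.1 < Z / 2) (i : Fin 6) :
    G.Vj z₃ j Z c 0 i y + jet (usf M z₃ j Z) i y - jet (VS (M.f j)) i y =
      c * (hj y.1 i - jet (fun q => hc (G.ρ + 6) q.1) i y) := by
  have two : (2 : WithTop ℕ∞) ≤ ∞ := by norm_cast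
  have o := Complex.ofRealCLM.contDiff (n := ∞)
  have a1 := ((g.cd_VS j).sub (contDiff_const (c := 2))).of_le two
  have a2 : ContDiff ℝ 2 fun q : ℝ × ℝ => hc (G.ρ + 6) q.1 :=
    ((cd_hc (G.ρ + 6)).comp contDiff_fst).of_le two
  have a3 : ContDiff ℝ 2 (usf M z₃ j Z) := ((o.comp (((cd_cut 1).comp (contDiff_fst.div_const z₃)).mul
    (contDiff_const.sub ((cd_cut 2).comp ((contDiff_const.mul contDiff_fst).div_const Z))))).of_le
      two).mul a1
  have e : (fun q => G.bt z₃ j c q + usf M z₃ j Z q) =ᶠ[𝓝 y]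
      fun q => (VS (M.f j) q - 2) + hc (G.ρ + 6) q.1 * -c := by
    filter_upwards [continuous_fst.tendsto y (gt_mem_nhds hy)] with q (hq : q.1 < Z / 2)
    simp only [GD.bt, usf, hc, cut_zero (a := 2) (z := 4 * q.1 / Z) ((div_le_iff₀ Z0).2 (by linarith))]
    push_cast
    ring
  have e1 := jet_congr e i
  rw [jet_add ((cd_bt g G z₃ j c).of_le two).contDiffAt a3.contDiffAt,
    jet_add a1.contDiffAt (a2.mul contDiff_const).contDiffAt] at e1
  have e2 := (P218N.Chr.LJc (Frm.lj (a2.contDiffAt (x := y))) (-c)).jet i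
  rw [Vj_zero, add_assoc, e1, e2, Sdec.jet_sub (VS (M.f j))]
  fin_cases i <;> simp [hj, rh] <;> ring

theorem hj_le {z : ℝ} (z1 : 1 ≤ z) (i : Fin 6) : ‖hj z i‖ ≤ 2 * z ^ 2 := by
  have := one_le_pow₀ (n := 2) z1
  fin_cases i
  · refine (show ‖(((z ^ 2 - 2 : ℝ) : ℂ))‖ ≤ _ from ?_).trans_eq' (by simp [hj])
    rw [Complex.norm_real, Real.norm_eq_abs, abs_le]
    constructor <;> linarith
  all_goals
    simp [hj, abs_of_pos (one_pos.trans_le z1)]
    try nlinarith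

end Mpc

open Mpc in
/-- **the row MPC** -/
theorem mpc (stc : STC) (smc : SMC) (usv : USV) : MPC := fun M g => by
  obtain ⟨δ, δ0, L, L0, hL⟩ := lip
  choose R hR using fun j => (cylw _ (g.ended.cyl j)).2.1 δ δ0
  obtain ⟨z₁, h⟩ := Row.and stc (Row.and smc usv) M g
  refine ⟨max z₁ ‖R‖, fun k G hz o => ?_⟩
  obtain ⟨h1, h2, h3⟩ := h k G (le_of_max_le_left hz) o
  obtain ⟨K', hK'⟩ := sd_z (cd_hc (G.ρ + 6)) (A := G.ρ + 7) fun t ht => by
    simp [hc, cut_one (a := G.ρ + 6) (z := t) (by linarith)]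
  have K0 := (hK' 0).M0
  filter_upwards [h2, h3, ev_ad, ev_W fun _ => G.ρ + 12, ev_cs (ev₀_z fun _ _ => G.ρ + 9),
    ev_cs (ev₀_K (max 1 (3 * (L * (1 + (36 ^ 2 + 2 + K') * (8 ^ 5 * 120)))))),
    ev_Z fun _ _ _ => 32] with p s u ad hW z3 hK hZ _ U hU j x hx
  obtain ⟨⟨z, θ⟩, ⟨hx, -⟩, rfl⟩ := hx
  have lo := o.ld.lo
  have hi := o.ld.hi
  have R1 := g.one.1
  have m : z ∈ Icc G.z₀ (p.W j) := ⟨by linarith [hx.1], hx.2.le⟩
  have z1 : 1 ≤ z := by linarith [m.1]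
  have hy : M.R < ((z, θ) : ℝ × ℝ).1 := by linarith [m.1]
  have sm := s _ (mem_Bx (by linarith) hU) j (z, θ) m
  have e1 := ((h1 p.W p.z₃ (fun j => (hW j).1) z3 p.m (U, bs p.c p.v) j).2 (z, θ) hx.1 hx.2
    sm).2.2.2.2.2.1
  set V := Vt p.z₃ (U, bs p.c p.v) j (z, θ) with hV
  set A := fun l => jet (VS (M.f j)) l (z, θ) with hA
  obtain ⟨j1, hL⟩ := hL A ((pi_norm_le_iff_of_nonneg δ0.le).2 fun i => by
    have := (hR j i).apply (z := z) (((le_abs_self _).trans (norm_le_pi_norm R j)).trans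
      ((le_of_max_le_right hz).trans m.1)) θ
    simp only [Pi.sub_apply, hA, Sdec.jet_sub (VS (M.f j)), add_sub_cancel_left]
    linarith)
  obtain ⟨l1, l2⟩ := hL V sm.cj
  rw [hA, JS_eq g j hy, Complex.ofReal_re] at j1
  have e2 : (Ii p.z₃ p.m (U, bs p.c p.v) (M.P (.inl j) (z, θ)) - rh0 (M.P (.inl j) (z, θ))) *
      M.JS (.inl j) (z, θ) = (Real.exp (-z ^ 2 / 4) : ℝ) * (Ph V - Ph A) := by
    rw [sub_mul, e1, ← JS_eq g j hy, rh0, nP g, mul_sub, Ph, Ph, ← mul_assoc, ← mul_assoc,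
      Complex.ofReal_exp, Complex.ofReal_exp, ← Complex.exp_add, ← Complex.exp_add]
    simp only [Oc, bs, Pi.zero_apply, zt_zero, zero_mul, add_zero, mul_one]
    congr 3
    · push_cast
      ring
    · change _ = _ + -VS (M.f j) (z, θ) / 4
      rw [VS]
      push_cast
      ring
  have t0 : 0 ≤ tri (G.ph' p.W 0) (U - G.US p.W p.z₃) := apply_nonneg _ _
  have c0 := norm_nonneg p.c
  have Z0 : 0 < 1 / p.Z := by positivity
  have d0 : 0 ≤ G.ds p U := by unfold GD.ds; linarith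
  have x0 := Real.exp_pos (z ^ 2 / 8)
  have key : ‖Ph V - Ph A‖ ≤ L * (1 + (36 ^ 2 + 2 + K') * (8 ^ 5 * 120)) *
      (G.ds p U * Real.exp (z ^ 2 / 8)) := by
    rcases lt_or_ge z (p.W j / 2) with l | l
    · have b1 : z ^ 10 ≤ 8 ^ 5 * 120 * Real.exp (z ^ 2 / 8) := by
        have := Real.pow_div_factorial_le_exp (z ^ 2 / 8) (by positivity) 5
        norm_num [Nat.factorial] at this ⊢
        linarith
      have b2 : z ^ 2 ≤ z ^ 10 := pow_le_pow_right₀ z1 (by norm_num)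
      have b3 := one_le_pow₀ (n := 2) z1
      have b4 : ‖V - A‖ ≤ (36 ^ 2 + 2 + K') * z ^ 10 * G.ds p U := by
        refine (pi_norm_le_iff_of_nonneg (by positivity)).2 fun i => ?_
        have a1 : (V - A) i = p.c j * (hj z i - jet (fun q => hc (G.ρ + 6) q.1) i (z, θ)) +
            ((U - G.US p.W p.z₃).2.1.1 j).1 i (z, θ) := by
          rw [← dif g G p.z₃ j (p.c j) (y := (z, θ)) (by linarith) l i]
          change _ + (U.2.1.1 j).1 i (z, θ) - _ =
            _ + ((U.2.1.1 j).1 i (z, θ) - ((G.US p.W p.z₃).2.1.1 j).1 i (z, θ))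
          simp only [bs, Pi.zero_apply, hA, (u j).1 i z m θ]
          ring
        have a2 := (jet_le (by linarith) (by linarith [(hW j).1]) ((U - G.US p.W p.z₃).2.1.1 j) m i
          θ).trans (mul_le_mul_of_nonneg_left (((le_prs (p := fun j => pH 0 G.z₀ (p.W j))
            (U - G.US p.W p.z₃).2.1).1 j).trans (le_tri (G.ph' p.W 0) _).2.1) (by positivity))
        have a3 := norm_mul_le_of_le (norm_le_pi_norm p.c j) (norm_sub_le_of_le (hj_le z1 i)
          ((hK'.one subset_rfl i).apply z1 θ))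
        rw [a1]
        refine (norm_add_le_of_le a3 a2).trans ?_
        have a4 : 2 * z ^ 2 + K' / 2 * 1 ≤ (36 ^ 2 + 2 + K') * z ^ 10 := by nlinarith
        have a5 : 36 ^ 2 * z ^ 10 ≤ (36 ^ 2 + 2 + K') * z ^ 10 := by gcongr; linarith
        have a6 := mul_le_mul_of_nonneg_left a4 c0
        have a7 := mul_le_mul_of_nonneg_right a5 t0
        have a8 : 0 ≤ (36 ^ 2 + 2 + K') * z ^ 10 * (1 / p.Z) := by positivity
        unfold GD.ds
        linarith
      refine l1.trans ?_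
      rw [mul_assoc]
      refine mul_le_mul_of_nonneg_left (b4.trans ?_) L0
      have b5 := mul_le_mul_of_nonneg_right (mul_le_mul_of_nonneg_left b1
        (show 0 ≤ 36 ^ 2 + 2 + K' by positivity)) d0
      nlinarith [mul_nonneg d0 x0.le]
    · have b1 : p.Z ≤ Real.exp (z ^ 2 / 8) := by
        have := (ad.hW j).1
        nlinarith [Real.add_one_le_exp (z ^ 2 / 8)]
      have b2 : 1 ≤ G.ds p U * Real.exp (z ^ 2 / 8) :=
        le_trans (by rw [one_div_mul_cancel (by positivity)])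
          (mul_le_mul (show 1 / p.Z ≤ _ by unfold GD.ds; linarith) b1 (by positivity) d0)
      refine l2.trans ?_
      rw [mul_assoc]
      exact le_mul_of_one_le_right L0 (one_le_mul_of_one_le_of_one_le
        (le_add_of_nonneg_right (by positivity)) b2)
  have f1 : Real.exp (-z ^ 2 / 4) * Real.exp (z ^ 2 / 8) ≤
      3 * Real.exp (-‖M.P (.inl j) (z, θ)‖ ^ 2 / 8) := by
    have := g.r_mem (i := j) hy
    refine le_trans ?_ (mul_le_mul_of_nonneg_right Real.exp_one_lt_three.le (Real.exp_pos _).le)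
    rw [← Real.exp_add, ← Real.exp_add, nP g]
    exact Real.exp_le_exp.2 (by nlinarith [this.1, this.2])
  have f2 := congrArg norm e2
  rw [norm_mul, norm_mul, Complex.norm_real, Complex.norm_real, Real.norm_of_nonneg (by linarith),
    Real.norm_of_nonneg (Real.exp_pos _).le] at f2
  simp only [max_le_iff] at hK
  calc _ ≤ _ := le_mul_of_one_le_right (norm_nonneg _) j1
    _ ≤ _ := f2.trans_le (mul_le_mul_of_nonneg_left key (Real.exp_pos _).le)
    _ = L * (1 + (36 ^ 2 + 2 + K') * (8 ^ 5 * 120)) * G.ds p U *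
        (Real.exp (-z ^ 2 / 4) * Real.exp (z ^ 2 / 8)) := by ring
    _ ≤ _ := mul_le_mul_of_nonneg_left f1 (by positivity)
    _ = 3 * (L * (1 + (36 ^ 2 + 2 + K') * (8 ^ 5 * 120))) * G.ds p U *
        Real.exp (-‖M.P (.inl j) (z, θ)‖ ^ 2 / 8) := by ring
    _ ≤ _ := by
      gcongr
      exact hK.2.trans (le_self_pow₀ hK.1 two_ne_zero)

end Vale.Agent.P218I
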