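import Vale.Agent.P218N.Spec3
import Vale.Agent.P218I.RpB
import Vale.Agent.P218I.RpC
import Vale.Agent.P218I.Bas

/-! The integrand is close to the Gaussian: near zone and conical ends. -/

set_option linter.all false

open Set Filter Topology
open scoped Real

noncomputable section

namespace Vale.Agent.P218I

open Vale.Agent.P218T Vale.Agent.P218L GD
open Vale.Agent.P218N (kD rh0 TUB jt km)
open Vale.Agent.P218H (tri le_tri)

namespace Mpn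

theorem ev_c0 {ι : Type} [Fintype ι] {Q : Pt ι → Prop} (h : ∀ᶠ p in ev ι, Q p) :
    ∀ᶠ p in ev ι, Q { p with c := 0 } :=
  ev_iff.2 ((ev_iff.1 h).mono fun _ h => h.mono fun _ h => h.mono fun _ h => h.mono fun _ h J =>
    (h J).mono fun _ h => (h.and (eventually_ge_atTop (1 + 3 * |P218Q.nu J|))).mono
      fun Z h m W c v a => h.1 m W 0 v ⟨a.hJ, a.hW, a.hm, fun l => by
        have b : Z ≤ W l := (a.hW l).1
        have := abs_nonneg (P218Q.nu J)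
        have : 4 * (7 / 5 * P218Q.nu J) / W l ^ 2 < 2 := by
          rw [div_lt_iff₀ (by nlinarith [h.2])]
          nlinarith [h.2, le_abs_self (P218Q.nu J)]
        show ‖P218Q.vb (W l) 0 - 3‖ < _
        norm_num [P218Q.vb]
        linarith, a.hv⟩)

theorem exp_lip {a b : ℂ} {c : ℝ} (ha : a.re ≤ c) (hb : b.re ≤ c) :
    ‖Complex.exp a - Complex.exp b‖ ≤ Real.exp c * ‖a - b‖ :=
  (convex_halfSpace_re_le c).norm_image_sub_le_of_norm_hasDerivWithin_le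
    (fun w _ => (Complex.hasDerivAt_exp w).hasDerivWithinAt)
    (fun w hw => (Complex.norm_exp w).trans_le (Real.exp_le_exp.2 hw)) hb ha

theorem kD_lip {l κ d : ℝ} {a b c a' b' c' : ℂ} (l0 : 0 < l) (h1 : ‖κ * a‖ ≤ 1 / 4)
    (h1' : ‖κ * a'‖ ≤ 1 / 4) (h2 : ‖c‖ ≤ 1) (h2' : ‖c'‖ ≤ 1) (h3 : ‖kD (l : ℂ) κ a b c‖ ≤ 4 * l ^ 2)
    (h3' : ‖kD (l : ℂ) κ a' b' c'‖ ≤ 4 * l ^ 2) (da : ‖a - a'‖ ≤ d) (db : ‖b - b'‖ ≤ d)
    (dc : ‖c - c'‖ ≤ d) :
    ‖kD (l : ℂ) κ a b c - kD (l : ℂ) κ a' b' c'‖ ≤ (l ^ 2 * (5 * |κ| + 4) + 6 * l) * d := by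
  have A : ∀ {a : ℂ}, ‖κ * a‖ ≤ 1 / 4 → ‖1 - κ * a‖ ≤ 5 / 4 := fun h =>
    (norm_sub_le _ _).trans (by rw [norm_one]; linarith)
  have C : ∀ {c : ℂ}, ‖c‖ ≤ 1 → ‖1 + c ^ 2‖ ≤ 2 := fun {c} h => (norm_add_le _ _).trans (by
    rw [norm_one, norm_pow]; nlinarith [norm_nonneg c])
  have n : ‖(l : ℂ)‖ = l := by simp [l0.le]
  have B : ∀ {a b c : ℂ}, ‖κ * a‖ ≤ 1 / 4 → ‖c‖ ≤ 1 → ‖kD (l : ℂ) κ a b c‖ ≤ 4 * l ^ 2 →
      ‖b‖ ≤ 3 * l := fun {a b c} h k j => by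
    have : ‖b‖ ^ 2 ≤ 4 * l ^ 2 + (l * (5 / 4)) ^ 2 * 2 := by
      rw [← norm_pow, show b ^ 2 = kD (l : ℂ) κ a b c - (l * (1 - κ * a)) ^ 2 * (1 + c ^ 2) by
        rw [kD]; ring]
      refine norm_sub_le_of_le j ?_
      rw [norm_mul, norm_pow, norm_mul, n]
      gcongr
      exacts [A h, C k]
    exact abs_le_of_sq_le_sq' (by nlinarith) (by positivity) |>.2
  have d0 := (norm_nonneg _).trans da
  rw [show kD (l : ℂ) κ a b c - kD (l : ℂ) κ a' b' c' = l ^ 2 * (-(κ * (a - a') *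
    ((1 - κ * a) + (1 - κ * a')) * (1 + c ^ 2)) + (1 - κ * a') ^ 2 * ((c - c') * (c + c')))
    + (b - b') * (b + b') by simp only [kD]; ring]
  refine (norm_add_le_of_le (r₁ := l ^ 2 * (|κ| * d * (5 / 4 + 5 / 4) * 2 +
    (5 / 4) ^ 2 * (d * (1 + 1)))) (r₂ := d * (3 * l + 3 * l)) ?_ ?_).trans
    (by nlinarith [mul_nonneg (sq_nonneg l) d0])
  · rw [norm_mul, norm_pow, n]
    gcongr
    refine norm_add_le_of_le ?_ ?_
    · rw [norm_neg, norm_mul, norm_mul, norm_mul, Complex.norm_real, Real.norm_eq_abs]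
      gcongr
      exacts [norm_add_le_of_le (A h1) (A h1'), C h2]
    · rw [norm_mul, norm_mul, norm_pow]
      gcongr
      exacts [A h1', norm_add_le_of_le h2 h2']
  · rw [norm_mul]
    gcongr
    exact norm_add_le_of_le (B h1 h2 h3) (B h1' h2' h3')

theorem sqrt_lip {a : ℝ} (a0 : 0 < a) (w : ℂ) : ‖Complex.sqrt w - a‖ ≤ ‖w - a ^ 2‖ / a := by
  have e : w - a ^ 2 = (Complex.sqrt w - a) * (Complex.sqrt w + a) := by
    have : Complex.sqrt w ^ 2 = w := Complex.cpow_ofNat_inv_pow w 2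
    linear_combination -this
  have p : 0 ≤ (Complex.sqrt w).re := by
    rw [Complex.sqrt, Complex.cpow_inv_two_re]
    positivity
  have := Complex.re_le_norm (Complex.sqrt w + a)
  rw [le_div_iff₀ a0, e, norm_mul]
  gcongr
  simp only [Complex.add_re, Complex.ofReal_re] at this
  linarith

variable {M : Mod}

theorem cone (g : M.Geo) (l : Fin M.n₂) : ∃ C : ℝ, ∀ k (G : GD M k) Z (U : G.XX Z) (q : ℝ × ℝ),
    M.R < q.1 → Sk U l q → Sk (0 : G.XX Z) l q → ∀ I : ℂ, I * M.JS (.inr l) q =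
      Complex.exp (-(q.1 ^ 2 + ut U l q 0 ^ 2) / 4) * (q.1 * Complex.sqrt (gk U l q)) →
    ‖I - rh0 (M.P (.inr l) q)‖ ≤ C * ‖U.2.1.2 l‖ * Real.exp (-‖M.P (.inr l) q‖ ^ 2 / 8) := by
  obtain ⟨s0, -, sk, pk, -, -, cx, -⟩ := conj' _ _ (g.link l)
  obtain ⟨B, hB⟩ := (Function.Periodic.isBounded_of_continuous pk Real.two_pi_pos.ne'
    sk.continuous).exists_norm_le
  generalize hs : spd (M.γ l) = s at s0
  refine ⟨4 * (s ^ 2 * (5 * B + 4) + 6 * s) / s ^ 2 + 2, fun k G Z U q lo h h' I e => ?_⟩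
  have z0 := one_pos.trans (g.pos lo)
  have zc : (q.1 : ℂ) ≠ 0 := Complex.ofReal_ne_zero.2 z0.ne'
  have u0 : ∀ i, ut (0 : G.XX Z) l q i = P218W.jet (uS (M.g l)) i q := fun i => by
    simp [ut, LD.jx, P218W.wj]
  have du : ∀ i, ut U l q i - ut (0 : G.XX Z) l q i =
      P218W.omK i q.1 * (U.2.1.2 l).1 i.castSucc q := fun i => by simp [ut, LD.jx, P218W.wj]
  have bJ : ∀ i, ‖(U.2.1.2 l).1 i q‖ ≤ ‖U.2.1.2 l‖ := fun i => by
    linarith [P218W.W.apply_le ((U.2.1.2 l).1 i) q, norm_le_pi_norm (U.2.1.2 l).1 i,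
      norm_nonneg ((U.2.1.2 l).1 i), show ‖(U.2.1.2 l).1‖ = ‖U.2.1.2 l‖ from rfl]
  have d0 := norm_nonneg (U.2.1.2 l)
  have j0 := g.ori (.inr l) q lo
  obtain ⟨a, ha⟩ : ∃ a, a = M.JS (.inr l) q / q.1 := ⟨_, rfl⟩
  have a0 : 0 < a := ha ▸ div_pos j0 z0
  have G0 : gk (0 : G.XX Z) l q = a ^ 2 := by
    rw [ha, Complex.ofReal_div, div_pow, ← g.kD_eq lo, gk, u0, u0, u0]
    field_simp
    rfl
  have aa : s ^ 2 / 4 ≤ a ^ 2 := by simpa [G0, hs, ← Complex.ofReal_pow] using h'.lo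
  have nz : ∀ {w : ℂ} {b : ℝ}, ‖w‖ ≤ q.1 * b → ‖w / q.1‖ ≤ b := fun {w b} k => by
    rwa [norm_div, Complex.norm_real, Real.norm_of_nonneg z0.le, div_le_iff₀' z0]
  have dz : ∀ i, P218W.omK i q.1 = q.1 →
      ‖ut U l q i - ut (0 : G.XX Z) l q i‖ ≤ q.1 * ‖U.2.1.2 l‖ := fun i k => by
    rw [du, k, norm_mul, Complex.norm_real, Real.norm_of_nonneg z0.le]
    exact mul_le_mul_of_nonneg_left (bJ _) z0.le
  have L : ‖gk U l q - a ^ 2‖ ≤ (s ^ 2 * (5 * B + 4) + 6 * s) * ‖U.2.1.2 l‖ := by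
    rw [← G0]
    refine (kD_lip (d := ‖U.2.1.2 l‖) (hs ▸ s0) ?_ ?_ h.u3 h'.u3 h.hi h'.hi ?_ ?_ ?_).trans ?_
    · exact mul_div_assoc (_ : ℂ) _ _ ▸ nz (h.ku.trans_eq (by ring))
    · exact mul_div_assoc (_ : ℂ) _ _ ▸ nz (h'.ku.trans_eq (by ring))
    · exact sub_div (_ : ℂ) _ _ ▸ nz (dz 0 rfl)
    · exact sub_div (_ : ℂ) _ _ ▸ nz (dz 1 rfl)
    · simpa [du, P218W.omK] using bJ 3
    · rw [hs]
      gcongr
      exact hB _ ⟨_, rfl⟩
  have x2 : ((‖M.P (.inr l) q‖ ^ 2 : ℝ) : ℂ) = q.1 ^ 2 + ut (0 : G.XX Z) l q 0 ^ 2 := by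
    rw [← real_inner_self_eq_norm_sq, ← Frm.dt_cx, show P218N.cx (M.P (.inr l) q) = _ from
      cx _ q z0, (g.orthK l q.2).dt, u0]
    simp [P218N.dt, P218W.jet, sq]
  have r0 : rh0 (M.P (.inr l) q) = Complex.exp (-(q.1 ^ 2 + ut (0 : G.XX Z) l q 0 ^ 2) / 4) := by
    rw [← x2, rh0]
    push_cast
    rfl
  have hu := h.u0
  have hu' := h'.u0
  have du0 := dz 0 rfl
  generalize ut U l q 0 = u at *
  generalize ut (0 : G.XX Z) l q 0 = u' at *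
  generalize ‖M.P (.inr l) q‖ = x at *
  generalize ‖U.2.1.2 l‖ = d at *
  generalize gk U l q = w at *
  have re : ∀ {u : ℂ}, ‖u‖ ≤ q.1 / 4 → (-(q.1 ^ 2 + u ^ 2) / 4).re ≤ -(15 / 64) * q.1 ^ 2 ∧
      (u ^ 2).re ≤ q.1 ^ 2 / 16 := fun {u} k => by
    have := abs_le.1 ((Complex.abs_re_le_norm (u ^ 2)).trans ((norm_pow u 2).trans_le
      (pow_le_pow_left₀ (norm_nonneg u) k 2)))
    simp only [Complex.div_ofNat_re, Complex.neg_re, Complex.add_re, ← Complex.ofReal_pow,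
      Complex.ofReal_re]
    constructor <;> linarith
  have xx : x ^ 2 ≤ 17 / 16 * q.1 ^ 2 := by
    have := congrArg Complex.re x2
    simp only [Complex.add_re, ← Complex.ofReal_pow, Complex.ofReal_re] at this
    linarith [(re hu').2]
  have E1 : (1 + q.1 ^ 2 / 10) * Real.exp (-(15 / 64) * q.1 ^ 2) ≤ Real.exp (-x ^ 2 / 8) := by
    refine (mul_le_mul_of_nonneg_right ((add_comm _ _).trans_le (Real.add_one_le_exp _))
      (Real.exp_pos _).le).trans ?_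
    rw [← Real.exp_add]
    exact Real.exp_le_exp.2 (by nlinarith)
  have eI : I - rh0 (M.P (.inr l) q) = Complex.exp (-(q.1 ^ 2 + u ^ 2) / 4) *
      ((Complex.sqrt w - a) / a) + (Complex.exp (-(q.1 ^ 2 + u ^ 2) / 4) -
        Complex.exp (-(q.1 ^ 2 + u' ^ 2) / 4)) := by
    have := Complex.ofReal_ne_zero.2 a0.ne'
    rw [show M.JS (.inr l) q = a * q.1 by rw [ha]; field_simp, Complex.ofReal_mul] at e
    rw [r0]
    field_simp
    field_simp at e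
    linear_combination e
  have b1 : ‖(Complex.sqrt w - a) / a‖ ≤ 4 * (s ^ 2 * (5 * B + 4) + 6 * s) / s ^ 2 * d := by
    rw [norm_div, Complex.norm_real, Real.norm_of_nonneg a0.le]
    refine (div_le_div_of_nonneg_right (sqrt_lip a0 w) a0.le).trans ?_
    rw [div_div, ← sq]
    refine (div_le_div₀ ((norm_nonneg _).trans L) L (by positivity) aa).trans_eq (by field_simp)
  have b2 : ‖-((q.1 : ℂ) ^ 2 + u ^ 2) / 4 - -(q.1 ^ 2 + u' ^ 2) / 4‖ ≤ q.1 ^ 2 / 8 * d := by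
    rw [show -((q.1 : ℂ) ^ 2 + u ^ 2) / 4 - -(q.1 ^ 2 + u' ^ 2) / 4 = -((u - u') * (u + u')) / 4 by
      ring, norm_div, norm_neg, norm_mul, Complex.norm_ofNat]
    linarith [mul_le_mul du0 (norm_add_le_of_le hu hu') (norm_nonneg _) (by positivity)]
  have e0 := Real.exp_pos (-(15 / 64) * q.1 ^ 2)
  rw [eI]
  refine (norm_add_le_of_le ((norm_mul_le _ _).trans (mul_le_mul ((Complex.norm_exp _).trans_le
    (Real.exp_le_exp.2 (re hu).1)) b1 (norm_nonneg _) e0.le)) ((exp_lip (re hu).1 (re hu').1).trans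
    (mul_le_mul_of_nonneg_left b2 e0.le))).trans ?_
  have c0 := mul_nonneg ((norm_nonneg _).trans b1) (mul_pos (pow_pos z0 2) e0).le
  linarith [mul_le_mul_of_nonneg_left E1 d0, mul_le_mul_of_nonneg_left E1
    ((norm_nonneg _).trans b1), mul_nonneg d0 e0.le, mul_nonneg d0 (mul_pos (pow_pos z0 2) e0).le]

theorem ar {E C K d n i e f : ℝ} (E0 : 0 ≤ E) (C0 : 0 ≤ C) (K1 : 1 ≤ K) (n0 : 0 ≤ n)
    (n1 : n ≤ K * d) (i1 : i ≤ d) (d0 : 0 ≤ d) (e1 : 1 ≤ e * f) (f0 : 0 ≤ f)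
    (K2 : E * (C + 2) * e ≤ K) : E * ((C + 1) * n + i) ≤ K ^ 2 * d * f := by
  have d1 := n0.trans n1
  have e2 : (C + 1) * n + i ≤ (C + 2) * (K * d) := by
    linarith [mul_le_mul_of_nonneg_left n1 C0, le_mul_of_one_le_left d0 K1]
  linarith [mul_le_mul_of_nonneg_left e2 E0, mul_le_mul_of_nonneg_right K2 (mul_nonneg d1 f0),
    mul_le_mul_of_nonneg_left e1 (mul_nonneg (mul_nonneg E0 (by linarith : 0 ≤ C + 2)) d1)]

theorem km_le {Z m : ℝ} (h : 2500 ≤ Z) (k : Z / 25 ≤ m) : ‖km m‖ ≤ 1 / Z := by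
  have e : ‖km m‖ = Real.exp (-m ^ 2 / 4) := by simp [km, Complex.norm_exp, ← Complex.ofReal_pow]
  rw [e, neg_div, Real.exp_neg, one_div]
  exact inv_anti₀ (by linarith) (by nlinarith [Real.add_one_le_exp (m ^ 2 / 4)])

variable {k : ℕ} {G : GD M k} {p : Pt (Fin M.n₁)}

theorem ds_ge (Z0 : 0 < p.Z) (U : G.XX p.W) : 0 ≤ G.ds p U ∧ 1 / p.Z ≤ G.ds p U ∧
    tri (G.ph' p.W 0) (U - G.US p.W p.z₃) ≤ G.ds p U := by
  have := (norm_nonneg _).trans (le_tri (G.ph' p.W 0) (U - G.US p.W p.z₃)).1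
  have := norm_nonneg p.c
  have := one_div_pos.2 Z0
  rw [ds]
  exact ⟨by linarith, by linarith, by linarith⟩

theorem par_le {Z : Fin M.n₁ → ℝ} (U : G.XX Z) (m c v) {a : ℝ} (h : zn U ≤ a)
    (k : ∀ j, ‖km (m j)‖ ≤ a) : ‖par m (U, bs c v)‖ ≤ a :=
  have a0 := (norm_nonneg _).trans h
  max_le (((norm_snd_le (G.coo Z U).2.2).trans ((norm_snd_le _).trans ((norm_snd_le _).trans
    (norm_fst_le (G.coo Z U, U.2.2.2))))).trans h) (max_le ((norm_snd_le (G.coo Z U, U.2.2.2)).trans h)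
    (max_le (norm_zero.trans_le a0) (max_le (norm_zero.trans_le a0)
      ((pi_norm_le_iff_of_nonneg a0).2 k))))

theorem near (tub : TUB) (adn : ADN) (evj : EVJ) (jth : JTH) (zon : ZON) (uzl : UZL) :
    RowP fun M _ G p => ∀ U, G.Nn p U < p.r → ∀ x ∈ M.S, ‖x‖ ≤ G.ρ + 5 →
      ‖Ii p.z₃ p.m (U, bs p.c p.v) x - rh0 x‖ ≤ p.K ^ 2 * G.ds p U * Real.exp (-‖x‖ ^ 2 / 8) := by
  intro M g
  obtain ⟨z₁, H⟩ := ((adn.and evj).and (jth.and (Row.and zon uzl))) M g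
  refine ⟨z₁, fun k G hz o => ?_⟩
  obtain ⟨⟨adn, C, C0, evj⟩, jth, zon, uzl⟩ := H k G hz o
  have lo := o.ld.lo
  have hi := o.ld.hi
  obtain ⟨r₁, E, r1, E0, tub⟩ := tub _ _ (G.ad fun _ => G.ρ + 12) _
    ((isCompact_closedBall 0 (G.ρ + 5)).inter_left g.isClosed_S) fun x hx =>
      ((adn _ _ (fun _ => le_rfl) le_rfl).2 x hx.1).1 (by linarith [mem_closedBall_zero_iff.1 hx.2])
  filter_upwards [zon, ev_c0 zon, uzl, ev_W fun _ => G.ρ + 12, ev_cs (ev₀_z fun _ _ => G.ρ + 9),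
    ev_cs (ev₀_K 1), ev_cs (ev₀_K (E * (C + 2) * Real.exp ((G.ρ + 5) ^ 2 / 8))), ev_ad,
    ev_Z fun _ _ _ => max 2500 (4 / r₁), ev_cs (ev₀_r (f := fun K => r₁ / (2 * (C + 1) * K))
      ((eventually_gt_atTop 0).mono fun _ _ => by positivity))]
    with p z1 z2 uz hW h3 K1 K2 a hZ hr U hU x hx h
  have hW := fun j => (hW j).1
  obtain ⟨Z1, Z2⟩ := max_le_iff.1 hZ
  have Z0 : 0 < 1 / p.Z := by positivity
  obtain ⟨d0, d1, d2⟩ := ds_ge (by linarith) U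
  have sw : x ∈ SW p.W := ⟨hx, fun k => by
    obtain ⟨j, k⟩ := mem_iUnion.1 k
    obtain ⟨z, a, b, -⟩ := g.norm_En (fun z (a : _ ≤ z) => show M.R < z by linarith [hW j]) k
    linarith [mem_Ici.1 a, hW j]⟩
  have n0 : 0 ≤ zn U := norm_nonneg _
  have n1 : zn U ≤ p.K * G.ds p U := by
    have : zn U ≤ zn (U - G.US p.W p.z₃) + zn (G.US p.W p.z₃) := by
      refine le_trans (le_of_eq ?_) (norm_add_le _ _)
      simp [zn, ← map_add]
    rw [uz.2.1, add_zero] at this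
    exact this.trans ((z2.1 _).2.trans (mul_le_mul_of_nonneg_left d2 (zero_le_one.trans K1)))
  have n2 : (C + 1) * zn U + 1 / p.Z < r₁ := by
    have := mul_le_mul_of_nonneg_left ((z1.1 U).1.trans (mul_le_mul_of_nonneg_left
      (hU.le.trans hr.2) (zero_le_one.trans K1))) (show 0 ≤ C + 1 by linarith)
    rw [show (C + 1) * (p.K * (r₁ / (2 * (C + 1) * p.K))) = r₁ / 2 by field_simp] at this
    have b := (div_le_iff₀ r1).1 Z2
    have : 1 / p.Z ≤ r₁ / 4 := by rw [div_le_iff₀ (by linarith only [Z1])]; linarith only [b]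
    linarith
  have n3 : ∀ i, ‖jt (uu U) x none i‖ ≤ (C + 1) * zn U + 1 / p.Z := fun i =>
    (norm_le_pi_norm _ i).trans ((norm_le_pi_norm (jt (uu U) x) none).trans
      ((((evj _ hW).2 U).2.2.2 x hx (by linarith)).2.1.trans (by linarith only [n0, Z0])))
  have n4 : ‖par p.m (U, bs p.c p.v)‖ ≤ (C + 1) * zn U + 1 / p.Z :=
    par_le U _ _ _ (by linarith only [mul_nonneg C0 n0, Z0]) fun j =>
      (km_le Z1 (by linarith only [(a.hW j).1, (a.hm j).1])).trans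
        (by linarith only [mul_nonneg C0 n0, n0])
  have n5 := (tub x ⟨hx, mem_closedBall_zero_iff.2 h⟩ _ _ (fun i => (n3 i).trans_lt n2)
    (n4.trans_lt n2)).2.2.2 _ n3 n4
  have e := (Rp.ad_sh (G.ad fun _ => G.ρ + 12) (G.ad p.W).sh
    (((adn _ _ (fun _ => le_rfl) le_rfl).2 x hx).1 (by linarith)).sh
    (((adn _ _ hW le_rfl).2 x hx).1 (by linarith)).sh (jt (uu U) x)
    (par p.m (U, bs p.c p.v)) 0).2.1
  rw [Ii, Rp.jt_congr (((jth _ _ hW h3 x sw).1 _ 0).2.2 (by linarith)).1]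
  refine (congrArg (‖· - _‖) e).trans_le (n5.trans (ar E0 C0 K1 n0 n1 d1 d0 ?_
    (Real.exp_pos _).le K2))
  rw [← Real.exp_add]
  exact Real.one_le_exp (by linarith only [pow_le_pow_left₀ (norm_nonneg x) h 2])

end Mpn

open Mpn in
/-- **the integrand is close to the Gaussian**, near zone and conical ends -/
theorem mpn (tub : TUB) (adn : ADN) (evj : EVJ) (jth : JTH) (stk : STK) (smk : SMK) (zon : ZON)
    (uzl : UZL) : MPN := by
  refine (Row.and (near tub adn evj jth zon uzl) (stk.and smk)).mono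
    fun M k G o ⟨nr, stk, r₀, r0, smk⟩ => ?_
  choose D cone using cone o.ld.geo
  have lo := o.ld.lo
  have hi := o.ld.hi
  filter_upwards [nr, ev_W fun _ => G.ρ + 12, ev_cs (ev₀_z fun _ _ => G.ρ + 9), ev_cs (ev₀_K 1),
    eventually_all.2 fun l => ev_cs (ev₀_K (D l)), ev_Z fun _ _ _ => 1,
    ev_cs (ev₀_r (f := fun _ => r₀) (.of_forall fun _ => r0))]
    with p nr hW h3 K1 K3 hZ hr U hU x hx h
  refine h.elim (nr U hU x hx) ?_
  rintro ⟨l, q, hq, rfl⟩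
  have hq : G.ρ + 4 < q.1 := hq.1
  have s := smk _ U l q (((norm_le_pi_norm U.2.1.2 l).trans ((le_prs U.2.1).2.trans
    (le_tri (G.pn p.W p.c) U).2.1)).trans_lt (hU.trans_le hr.2)) (by linarith)
  refine (cone l k G _ U q (by linarith) s (smk _ 0 l q (by simpa using r0) (by linarith)) _
    (stk _ _ (fun j => (hW j).1) h3 p.m (U, bs p.c p.v) l q hq s).2.2.2.1).trans ?_
  have e := (norm_le_pi_norm (U - G.US p.W p.z₃).2.1.2 l).trans
    ((le_prs (U - G.US p.W p.z₃).2.1).2.trans (le_tri (G.ph' p.W 0) (U - G.US p.W p.z₃)).2.1)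
  rw [show (U - G.US p.W p.z₃).2.1.2 = U.2.1.2 from sub_zero _] at e
  exact mul_le_mul_of_nonneg_right (mul_le_mul ((K3 l).trans (le_self_pow₀ K1 two_ne_zero))
    (e.trans (ds_ge (by linarith) U).2.2) (norm_nonneg _) (sq_nonneg _)) (Real.exp_pos _).le

end Vale.Agent.P218I
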