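import Vale.Agent.P218N.Spec
import Vale.Agent.P218H.Basic
import Mathlib.Analysis.Calculus.ContDiff.RCLike

/-! Block NL: row NEMH, composition operators on Hölder spaces (helper39). -/

open Set Filter Topology Metric
open Vale.Agent.P272.K.LIN (Hol)

noncomputable section

namespace Vale.Agent.P218N

open Vale.Agent.P218H (HH HM mkH norm_le_hm hm_hol hw hw_coe)

section
variable {Y : Type} [PseudoMetricSpace Y] {α : ℝ}

/-- evaluation of a Hölder function -/
def evH (α : ℝ) (t : Y) : HH α Y →L[ℂ] ℂ :=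
  LinearMap.mkContinuous ⟨⟨fun f => f t, fun _ _ => rfl⟩, fun _ _ => rfl⟩ 1
    fun f => (one_mul ‖f‖).symm ▸ f.norm_apply_le t

@[simp] theorem evH_apply (t : Y) (f : HH α Y) : evH α t f = f t := rfl

/-- the unit ball is closed for uniform convergence -/
theorem hh_closed (f : Y → ℂ)
    (h : ∀ ε > (0 : ℝ), ∃ y : HH α Y, ‖y‖ ≤ 1 ∧ ∀ t, ‖f t - y t‖ ≤ ε) :
    ∃ y : HH α Y, ‖y‖ ≤ 1 ∧ ∀ t, y t = f t := by
  have a : ∀ (y : HH α Y) (ε : ℝ), (∀ t, ‖f t - y t‖ ≤ ε) → ∀ t, ‖f t‖ ≤ y.N0 + ε :=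
    fun y ε e t => (norm_le_insert' (f t) (y t)).trans (add_le_add (y.le_N0 t) (e t))
  have b : ∀ B : ℝ, (∀ ε > (0 : ℝ), ∀ y : HH α Y, ‖y‖ ≤ 1 → (∀ t, ‖f t - y t‖ ≤ ε) →
      y.N1 ≤ B + ε) → ∀ s t, ‖f s - f t‖ ≤ B * hw α Y s t := fun B hB s t => by
    have w0 : (0 : ℝ) ≤ hw α Y s t := NNReal.coe_nonneg _
    refine le_of_forall_pos_le_add fun ε hε => ?_
    obtain ⟨y, h1, h2⟩ := h (ε / (hw α Y s t + 2)) (by positivity)
    have h3 := mul_le_mul_of_nonneg_right (hB _ (by positivity) y h1 h2) w0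
    have h4 : ε / (hw α Y s t + 2) * (hw α Y s t + 2) = ε := by field_simp
    have h5 : f s - f t = (f s - y s) + (y s - y t) - (f t - y t) := by ring
    rw [h5]
    refine (norm_sub_le _ _).trans ((add_le_add_left (norm_add_le _ _) _).trans ?_)
    linarith [h2 s, h2 t, y.le_N1 s t]
  let F : HH α Y := ⟨f, let ⟨y, _, e⟩ := h 1 one_pos; ⟨_, a y 1 e⟩,
    1, b 1 fun ε hε y e _ => by linarith [y.N1_le_norm]⟩
  have c : ∀ ε > (0 : ℝ), ∀ y : HH α Y, (∀ t, ‖f t - y t‖ ≤ ε) → F.N0 ≤ y.N0 + ε :=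
    fun ε hε y e => Hol.N0_le (add_nonneg y.N0_nonneg hε.le) (a y ε e)
  have d : F.N0 ≤ 1 := le_of_forall_pos_le_add fun ε hε => by
    obtain ⟨y, h1, h2⟩ := h ε hε
    linarith [c ε hε y h2, y.N0_le_norm]
  have e : F.N1 ≤ 1 - F.N0 := Hol.N1_le (sub_nonneg.2 d) (b _ fun ε hε y h1 h2 => by
    linarith [c ε hε y h2, y.norm_def])
  exact ⟨F, by linarith [F.norm_def], fun _ => rfl⟩

end

/-- **row NEMH** -/
theorem nemh (holy : HOLY) : NEMH := by
  intro K ι P _ _ _ _ α Φ hK h0 h1 hc hd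
  haveI : ProperSpace ((ι → ℂ) × P) := FiniteDimensional.proper ℂ _
  obtain ⟨r, hr, hb⟩ := nhds_basis_closedBall.eventually_iff.1
    (hK.eventually_forall_of_forall_eventually (x₀ := (0 : (ι → ℂ) × P))
      (P := fun ζ p => ContDiffAt ℝ 1 Φ (p, ζ) ∧ DifferentiableAt ℂ (fun y => Φ (p, y)) ζ)
      fun p hp => (continuous_swap.tendsto (0, p)).eventually
        (((hc p hp).eventually (by simp)).and (hd p hp)))
  have hQ := hK.prod (isCompact_closedBall (0 : (ι → ℂ) × P) r)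
  obtain ⟨L, hL⟩ := LocallyLipschitzOn.exists_lipschitzOnWith_of_compact (f := Φ) hQ
    fun z hz => let ⟨L, t, ht, e⟩ := (hb hz.2 z.1 hz.1).1.exists_lipschitzOnWith
      ⟨L, t, nhdsWithin_le_nhds ht, e⟩
  obtain ⟨A, hA⟩ := hQ.exists_bound_of_continuousOn hL.continuousOn
  obtain ⟨D, hD⟩ := isBounded_iff.1 hK.isBounded
  let j : K → ((ι → HH α K) × P) →L[ℂ] (ι → ℂ) × P := fun t =>
    (ContinuousLinearMap.pi fun i => evH α t ∘L ContinuousLinearMap.proj i).prodMap 1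
  have j1 : ∀ x ∈ ball (0 : (ι → HH α K) × P) r, ∀ t, j t x ∈ closedBall 0 r := fun x hx t => by
    rw [mem_ball_zero_iff] at hx
    refine mem_closedBall_zero_iff.2 (max_le ((pi_norm_le_iff_of_nonneg hr.le).2 fun i => ?_)
      ((norm_snd_le x).trans hx.le))
    exact ((x.1 i).norm_apply_le t).trans
      ((norm_le_pi_norm x.1 i).trans ((norm_fst_le x).trans hx.le))
  have hm : ∀ x ∈ ball (0 : (ι → HH α K) × P) r, HM α (fun t : K => Φ (t, j t x)) |A|
      (L * (|D| ^ (1 - α) + r)) := fun x hx => by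
    refine ⟨fun t => (hA (t, j t x) (mk_mem_prod t.2 (j1 x hx t))).trans (le_abs_self A), fun s t => ?_⟩
    have w0 : 0 ≤ dist s t ^ α := Real.rpow_nonneg dist_nonneg _
    have w1 : 0 ≤ |D| ^ (1 - α) := Real.rpow_nonneg (abs_nonneg _) _
    rw [← dist_eq_norm, mul_assoc]
    refine (hL.dist_le_mul (s, j s x) (mk_mem_prod s.2 (j1 x hx s)) (t, j t x)
      (mk_mem_prod t.2 (j1 x hx t))).trans
      (mul_le_mul_of_nonneg_left (max_le ?_ (max_le ?_ ?_)) L.2)
    · calc dist s t = dist s t ^ (1 - α) * dist s t ^ α := by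
            rw [← Real.rpow_add' dist_nonneg (by simp), sub_add_cancel, Real.rpow_one]
        _ ≤ _ := mul_le_mul_of_nonneg_right ((Real.rpow_le_rpow dist_nonneg
            ((hD s.2 t.2).trans (le_abs_self D)) (by linarith)).trans (by linarith)) w0
    · refine (dist_pi_le_iff (by positivity)).2 fun i => ?_
      rw [dist_eq_norm]
      refine ((hm_hol (x.1 i)).hol s t).trans (mul_le_mul_of_nonneg_right ?_ w0)
      linarith [(norm_le_pi_norm x.1 i).trans (norm_fst_le x), mem_ball_zero_iff.1 hx]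
    · exact (dist_self x.2).trans_le (by positivity)
  have ex : ∀ x, ∃ y : HH α K, x ∈ ball (0 : (ι → HH α K) × P) r →
      ‖y‖ ≤ |A| + L * (|D| ^ (1 - α) + r) ∧ ∀ t : K, y t = Φ (t, j t x) := fun x => by
    by_cases hx : x ∈ ball (0 : (ι → HH α K) × P) r
    · exact ⟨mkH _ ⟨_, _, hm x hx⟩, fun _ =>
        ⟨norm_le_hm (hm x hx) (abs_nonneg _) (by positivity), fun _ => rfl⟩⟩
    · exact ⟨0, fun h => absurd h hx⟩
  choose N hN using ex
  refine ⟨r, _, N, hr, holy _ _ K (evH α) 1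
    (fun t y => (one_mul ‖y‖).symm ▸ y.norm_apply_le t) (fun y h => Hol.ext h) hh_closed _ N _
    isOpen_ball (fun x hx => (hN x hx).1) fun t => ?_, hN⟩
  refine DifferentiableOn.congr (f := fun x => Φ (t, j t x)) (fun x hx => ?_)
    fun x hx => (hN x hx).2 t
  exact ((hb (j1 x hx t) t t.2).2.comp x (j t).differentiableAt).differentiableWithinAt

end Vale.Agent.P218N
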