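import Vale.Agent.P218N.Spec

/-! Block NL: composition operators on the algebras `W` (rows `NEMW`, `LEC`). -/

open MeasureTheory Set Filter Topology Metric Complex
open scoped ContDiff Real

noncomputable section

namespace Vale.Agent.P218N

open Vale.Agent.P218W

namespace Nw

variable {s : Set ℝ} {ρ : ℝ → ℝ}

/-- bounded maps into `W` with holomorphic values are holomorphic -/
theorem holw (holy : HOLY) {X : Type} [NormedAddCommGroup X] [NormedSpace ℂ X] {U : Set X}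
    {F : X → W ρ} {M : ℝ} (hU : IsOpen U) (hb : ∀ x ∈ U, ‖F x‖ ≤ M)
    (hd : ∀ p, DifferentiableOn ℂ (fun x => F x p) U) : DifferentiableOn ℂ F U := by
  refine holy X (W ρ) (ℝ × ℝ) (fun p => (W.ev p).toContinuousLinearMap) 1
    (fun p y => (y.apply_le p).trans (by linarith [norm_nonneg y])) (fun y h => W.ext h)
    (fun f h => ?_) U F M hU hb hd
  have eq : ∀ p q, (∀ y : W ρ, y p = y q) → f p = f q := fun p q e =>
    eq_of_forall_dist_le fun ε hε => by
      obtain ⟨y, -, b⟩ := h (ε / 2) (by positivity)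
      have := dist_triangle_right (f p) (f q) (y p)
      rw [dist_eq_norm (f p) (y p), e y, dist_eq_norm (f q)] at this
      have h1 : ‖f p - y q‖ ≤ ε / 2 := e y ▸ b p
      linarith [show ‖f q - y q‖ ≤ ε / 2 from b q]
  have c : Continuous f := continuous_of_uniform_approx_of_continuous fun u hu => by
    obtain ⟨ε, hε, hu⟩ := mem_uniformity_dist.1 hu
    obtain ⟨y, -, b⟩ := h (ε / 2) (by positivity)
    exact ⟨y, y.cont, fun p => hu ((dist_eq_norm _ _).trans_lt ((b p).trans_lt (half_lt_self hε)))⟩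
  have l : Le univ f (fun _ => 1) 1 := le_of_approx (fun z _ => ⟨by fun_prop, fun θ =>
    eq _ _ fun y => y.per z θ⟩) fun ε hε => (h ε hε).elim fun y b =>
      ⟨y, y.le_norm.mono subset_rfl (fun _ _ => le_rfl) b.1, fun z _ θ => by simpa using b.2 (z, θ)⟩
  exact ⟨⟨f, c, fun z θ => eq _ _ fun y => y.fix z θ, 1, l⟩, W.norm_le l, fun _ => rfl⟩

theorem res (h : Ret s ρ) {x : W ρ} {t : ℂ} (h0 : t ≠ 0) (hx : ‖x‖ ≤ ‖t‖ / 2) :
    IsUnit (algebraMap ℂ (W ρ) t - x) ∧ ‖Ring.inverse (algebraMap ℂ (W ρ) t - x)‖ ≤ ‖t‖⁻¹ * 5 := by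
  have p := norm_pos_iff.2 h0
  have b : Le s (fun p => -x p) (fun _ => ‖t‖) (‖t‖⁻¹ * ‖x‖) :=
    (x.le_on s).neg.wt (by positivity) (by simp) (by simp [h0])
  have m : ‖t‖⁻¹ * ‖x‖ ≤ 1 / 2 := by
    rw [inv_mul_le_iff₀ p]; linarith
  have u := h.isUnit_of_le (x := algebraMap ℂ (W ρ) t - x) (ρ := fun _ => t) p (fun _ _ => le_rfl)
    (b.congr fun z _ θ => by simp) m
  exact ⟨u, h.norm_le (((b.inv_add (ρ := fun _ => t) m fun _ _ => h0).2.wt (by positivity) (by simp)
    (by simp)).congr fun z _ θ => by rw [W.inverse_apply u]; simp [sub_eq_add_neg])⟩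

/-- substitution of one variable -/
theorem sub1 (holy : HOLY) (h : Ret s ρ) {r M : ℝ} (hr : 0 < r) {Ψ : ℂ → W ρ}
    (hb : ∀ t ∈ ball (0 : ℂ) r, ‖Ψ t‖ ≤ M) (hd : ∀ p, DifferentiableOn ℂ (fun t => Ψ t p) (ball 0 r))
    {x : W ρ} (hx : ‖x‖ ≤ r / 4) : ∃ y : W ρ, ‖y‖ ≤ 5 * M ∧ ∀ p, y p = Ψ (x p) p := by
  have sb : closedBall (0 : ℂ) (r / 2) ⊆ ball 0 r := closedBall_subset_ball (half_lt_self hr)
  have k : ∀ t ∈ sphere (0 : ℂ) (r / 2), IsUnit (algebraMap ℂ (W ρ) t - x) ∧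
      ‖Ring.inverse (algebraMap ℂ (W ρ) t - x)‖ ≤ (r / 2)⁻¹ * 5 := fun t ht => by
    rw [mem_sphere_zero_iff_norm] at ht
    exact ht ▸ res h (norm_pos_iff.1 (by linarith)) (by linarith)
  let g : ℂ → W ρ := fun t => Ring.inverse (algebraMap ℂ (W ρ) t - x) * Ψ t
  have c : ContinuousOn g (sphere 0 (r / 2)) := ContinuousOn.mul (fun t ht =>
    ((W.analyticAt_inverse (k t ht).1).continuousAt.comp (f := fun t => algebraMap ℂ (W ρ) t - x)
      ((continuous_algebraMap _ _).sub continuous_const).continuousAt).continuousWithinAt)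
    ((holw holy isOpen_ball hb hd).continuousOn.mono (sphere_subset_closedBall.trans sb))
  refine ⟨(2 * π * I : ℂ)⁻¹ • ∮ t in C(0, r / 2), g t,
    (circleIntegral.norm_two_pi_i_inv_smul_integral_le_of_norm_le_const (C := (r / 2)⁻¹ * 5 * M)
      (by positivity) fun t ht => (norm_mul_le _ _).trans (mul_le_mul (k t ht).2
        (hb t (sb (sphere_subset_closedBall ht))) (norm_nonneg _) (by positivity))).trans
      (le_of_eq (by field_simp)), fun p => ?_⟩
  have e := (W.ev (r := ρ) p).toContinuousLinearMap.intervalIntegral_comp_comm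
    (c.circleIntegrable (by positivity)).out
  rw [W.smul_apply, show (∮ t in C(0, r / 2), g t) p = _ from e.symm, ← smul_eq_mul,
    ← (((hd p).mono sb).diffContOnCl_ball subset_rfl).two_pi_i_inv_smul_circleIntegral_sub_inv_smul
      (mem_ball_zero_iff.2 ((x.apply_le p).trans_lt (by linarith)))]
  congr 1
  refine intervalIntegral.integral_congr fun θ _ => ?_
  simp [g, W.inverse_apply (k _ (circleMap_mem_sphere 0 (by positivity) θ)).1]

end Nw

open Nw

theorem nemw (holy : HOLY) : NEMW := fun ι P _ _ _ => by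
  classical
  refine ⟨4 * 5 ^ Fintype.card ι, by positivity, fun s ρ r M Φ h hr hc hd hl => ?_⟩
  have o : (1 : ℝ) ≤ 5 ^ Fintype.card ι := one_le_pow₀ (by norm_num)
  have M0 := (hl 0 (mem_ball_self hr)).M0
  have hρ : ∀ p : ℝ × ℝ, (ρ p.1, p.2) ∈ s ×ˢ (univ : Set ℝ) := fun p => ⟨h.mem _, trivial⟩
  have key : ∀ x : ι → W ρ, ‖x‖ ≤ r / 4 → ∀ I : Finset ι, ∀ ζ ∈ ball (0 : (ι → ℂ) × P) r,
      ∃ y : W ρ, ‖y‖ ≤ 5 ^ I.card * M ∧
        ∀ p, y p = Φ ((ρ p.1, p.2), I.piecewise (fun i => x i p) ζ.1, ζ.2) := fun x hx I => by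
    have mem : ∀ (I : Finset ι) p, ∀ ζ ∈ ball (0 : (ι → ℂ) × P) r,
        (I.piecewise (fun i => x i p) ζ.1, ζ.2) ∈ ball (0 : (ι → ℂ) × P) r := fun I p ζ hζ => by
      rw [mem_ball_zero_iff, Prod.norm_def, max_lt_iff, pi_norm_lt_iff hr] at hζ ⊢
      refine ⟨fun i => ?_, hζ.2⟩
      by_cases hi : i ∈ I
      · simpa [hi] using ((x i).apply_le p).trans_lt (by linarith [norm_le_pi_norm x i])
      · simpa [hi] using hζ.1 i
    induction I using Finset.induction_on with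
    | empty =>
      exact fun ζ hζ => ⟨h.mk' (fun y => Φ (y, ζ)) (hc.comp (by fun_prop) fun y hy => ⟨hy, hζ⟩)
        ⟨_, hl ζ hζ⟩, by simpa using h.norm_le (h.mk'_le _ _ subset_rfl (hl ζ hζ)), fun p => by
          rw [Finset.piecewise_empty]; rfl⟩
    | insert j I hj ih =>
      intro ζ hζ
      have up : ∀ t ∈ ball (0 : ℂ) r, (Function.update ζ.1 j t, ζ.2) ∈ ball (0 : (ι → ℂ) × P) r :=
        fun t ht => by
          rw [mem_ball_zero_iff, Prod.norm_def, max_lt_iff, pi_norm_lt_iff hr] at hζ ⊢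
          exact ⟨Function.forall_update_iff ζ.1 (fun _ a => ‖a‖ < r) |>.2
            ⟨mem_ball_zero_iff.1 ht, fun i _ => hζ.1 i⟩, hζ.2⟩
      choose! Ψ h1 h2 using fun t ht => ih _ (up t ht)
      have hj' := (norm_le_pi_norm x j).trans hx
      obtain ⟨y, a, b⟩ := sub1 holy h hr h1 (fun p => (((hd _ (hρ p)).comp (f := fun t =>
        (I.piecewise (fun i => x i p) (Function.update ζ.1 j t), ζ.2)) (by
          simp only [← Finset.update_piecewise_of_notMem _ _ _ hj]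
          exact fun t _ => ((hasDerivAt_update _ j t).differentiableAt.prodMk
            (differentiableAt_const _)).differentiableWithinAt)
        fun t ht => (mem I p _ (up t ht) :))).congr fun t ht => h2 t ht p) hj'
      refine ⟨y, by rw [Finset.card_insert_of_notMem hj, pow_succ', mul_assoc]; exact a, fun p => ?_⟩
      rw [b, h2 _ (mem_ball_zero_iff.2 (((x j).apply_le p).trans_lt (by linarith))),
        Finset.piecewise_insert, Finset.update_piecewise_of_notMem _ _ _ hj]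
  have sm : ∀ x ∈ ball (0 : (ι → W ρ) × P) (r / (4 * 5 ^ Fintype.card ι)), ‖x‖ < r / 4 :=
    fun x hx => (mem_ball_zero_iff.1 hx).trans_le (by gcongr; linarith)
  have ex : ∀ x ∈ ball (0 : (ι → W ρ) × P) (r / (4 * 5 ^ Fintype.card ι)), ∃ y : W ρ,
      ‖y‖ ≤ 4 * 5 ^ Fintype.card ι * M ∧ ∀ p, y p = Φ ((ρ p.1, p.2), (fun i => x.1 i p), x.2) :=
    fun x hx => by
      obtain ⟨y, a, b⟩ := key x.1 ((norm_fst_le x).trans (sm x hx).le) Finset.univ (0, x.2) (by
        simpa using (norm_snd_le x).trans_lt ((sm x hx).trans (by linarith)))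
      exact ⟨y, a.trans (by rw [Finset.card_univ]; nlinarith), by simpa using b⟩
  choose! N h1 h2 using ex
  refine ⟨N, holw holy isOpen_ball h1 fun p => (((hd _ (hρ p)).comp
    (f := fun x : (ι → W ρ) × P => ((fun i => x.1 i p), x.2)) (Differentiable.differentiableOn
      (.prodMk (differentiable_pi.2 fun i => (W.ev (r := ρ) p).toContinuousLinearMap.differentiable.comp
        (by fun_prop)) differentiable_snd)) fun x hx => ?_).congr fun x hx => h2 x hx p),
    fun x hx => ⟨h1 x hx, fun z hz θ => by rw [h2 x hx, h.fix z hz]⟩⟩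
  rw [mem_ball_zero_iff, Prod.norm_def, max_lt_iff, pi_norm_lt_iff hr]
  have := sm x hx
  exact ⟨fun i => ((x.1 i).apply_le p).trans_lt
    (by linarith [norm_le_pi_norm x.1 i, norm_fst_le x]), (norm_snd_le x).trans_lt (by linarith)⟩

theorem lec : LEC := fun J _ _ _ a b Φ hp h => by
  have := FiniteDimensional.proper ℂ J
  let D : ((ℝ × ℝ) × J → ℂ) → (ℝ × ℝ) × J → ℂ := fun f q => fderiv ℝ f q ((0, 1), 0)
  have d1 : ∀ {f : (ℝ × ℝ) × J → ℂ} {q} {n : ℕ}, ContDiffAt ℝ (n + 1) f q → ContDiffAt ℝ n (D f) q :=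
    fun h => (h.fderiv_right le_rfl).clm_apply contDiffAt_const
  have d2 : ∀ {f : (ℝ × ℝ) × J → ℂ} {z θ ζ}, DifferentiableAt ℝ f ((z, θ), ζ) →
      HasDerivAt (fun θ => f ((z, θ), ζ)) (D f ((z, θ), ζ)) θ := fun h =>
    h.hasFDerivAt.comp_hasDerivAt _
      (((hasDerivAt_const _ _).prodMk (hasDerivAt_id _)).prodMk (hasDerivAt_const _ _))
  have d3 : ∀ {f : (ℝ × ℝ) × J → ℂ} {w}, Function.Periodic f w → Function.Periodic (D f) w :=
    fun {f w} h q => by simp only [D, ← fderiv_comp_add_right, h _]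
  have hK := (isCompact_Icc (a := a) (b := b)).prod (isCompact_Icc (a := 0) (b := 2 * π))
  obtain ⟨r, hr, h1⟩ := nhds_basis_closedBall.eventually_iff.1
    (hK.eventually_forall_of_forall_eventually (x₀ := (0 : J)) (P := fun ζ y =>
      ContDiffAt ℝ 2 Φ (y, ζ) ∧ DifferentiableAt ℂ (fun ζ => Φ (y, ζ)) ζ) fun y hy =>
      (continuous_swap.tendsto (0, y)).eventually
        (((h y.1 hy.1 y.2).1.eventually (by simp)).and (h y.1 hy.1 y.2).2))
  have c2 : ∀ {q}, ContDiffAt ℝ 2 Φ q → ContinuousAt (D (D Φ)) q := fun h =>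
    (d1 (n := 0) (d1 (n := 1) h)).continuousAt
  obtain ⟨K, hb⟩ := (hK.prod (isCompact_closedBall (0 : J) r)).exists_bound_of_continuousOn
    (f := fun q => (Φ q, D (D Φ) q)) fun q hq =>
      ((h1 hq.2 _ hq.1).1.continuousAt.prodMk (c2 (h1 hq.2 _ hq.1).1)).continuousWithinAt
  have key : ∀ z ∈ Icc a b, ∀ θ, ∀ ζ ∈ ball (0 : J) r, ContDiffAt ℝ 2 Φ ((z, θ), ζ) ∧
      DifferentiableAt ℂ (fun ζ => Φ ((z, θ), ζ)) ζ ∧
      ‖(Φ ((z, θ), ζ), D (D Φ) ((z, θ), ζ))‖ ≤ K := fun z hz θ ζ hζ => by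
    obtain ⟨n, hn, -⟩ := existsUnique_add_zsmul_mem_Ico Real.two_pi_pos θ 0
    have m : (z, θ + n • (2 * π)) ∈ Icc a b ×ˢ Icc 0 (2 * π) :=
      ⟨hz, hn.1, hn.2.le.trans_eq (zero_add _)⟩
    have p : Function.Periodic Φ ((0, n • (2 * π)), 0) := by
      simpa using Function.Periodic.zsmul (f := Φ) (c := ((0, 2 * π), 0))
        (fun q => by simpa [Prod.add_def] using hp q.1.1 q.1.2 q.2) n
    have e : ∀ ζ : J, ((z, θ + n • (2 * π)), ζ) = ((z, θ), ζ) + ((0, n • (2 * π)), 0) := by simp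
    obtain ⟨h2, h3⟩ := h1 (ball_subset_closedBall hζ) _ m
    have h4 := hb (_, ζ) ⟨m, ball_subset_closedBall hζ⟩
    simp only [e, p _, d3 (d3 p) _] at h2 h3 h4
    refine ⟨?_, h3, h4⟩
    rw [← funext p]
    exact h2.comp _ (f := fun q => q + _) (contDiffAt_id.add contDiffAt_const)
  refine ⟨r, 16 * max K 0, hr, fun q hq => (key _ hq.1.1 _ _ hq.2).1.continuousAt.continuousWithinAt,
    fun y hy ζ hζ => (key _ hy.1 _ _ hζ).2.1.differentiableWithinAt, fun ζ hζ =>
    le_of_c2 (F₁ := fun y => D Φ (y, ζ)) (F₂ := fun y => D (D Φ) (y, ζ)) (le_max_right _ _) (by simp)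
      (fun z _ θ => hp z θ ζ) (fun z hz θ => d2 ((key z hz θ ζ hζ).1.differentiableAt (by simp)))
      (fun z hz θ => d2 ((d1 (n := 1) (key z hz θ ζ hζ).1).differentiableAt (by simp)))
      (fun z hz => continuous_iff_continuousAt.2 fun θ => (c2 (key z hz θ ζ hζ).1).comp
        (f := fun θ => ((z, θ), ζ)) (by fun_prop)) (fun z hz θ => ?_) fun z hz θ => ?_⟩
  · exact (((norm_fst_le _).trans (key z hz θ ζ hζ).2.2).trans (le_max_left _ _)).trans_eq
      (mul_one _).symm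
  · exact (((norm_snd_le _).trans (key z hz θ ζ hζ).2.2).trans (le_max_left _ _)).trans_eq
      (mul_one _).symm

end Vale.Agent.P218N
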