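import Vale.Agent.P218N.Spec2
import Vale.Agent.P218N.Nemh
import Vale.Agent.P218N.Nemw
import Vale.Agent.P218N.Hol

/-! Block NL: rows QH, QW, the remainder on Hölder spaces and on strips. -/

open MeasureTheory Set Filter Topology Metric
open scoped ContDiff Real

set_option linter.unusedSectionVars false

noncomputable section

namespace Vale.Agent.P218N

open Vale.Agent.P218H (J1 sa HH)
open Vale.Agent.P218T (Per)
open Vale.Agent.P218W (W cl)
open Vale.Agent.P218.H63 (hessSq)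

namespace Qhw

theorem cd_hessSq {w : E3 → ℝ} {x : E3} (h : ContDiffAt ℝ ∞ w x) : ContDiffAt ℝ ∞ (hessSq w) x := by
  have h1 : ContDiffAt ℝ ∞ (fderiv ℝ (gradient w)) x := (cd_grad h).fderiv_right (by simp)
  let T : (E3 →L[ℝ] E3) →ₗ[ℝ] ℝ := LinearMap.trace ℝ E3 ∘ₗ ContinuousLinearMap.coeLM ℝ
  exact (LinearMap.toContinuousLinearMap T).contDiff.contDiffAt.comp x (h1.clm_comp h1)

theorem cd_sa {w : E3 → ℝ} {x : E3} (h : ContDiffAt ℝ ∞ w x) (i j : J1 3) :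
    ContDiffAt ℝ ∞ (sa w i j) x := by
  have hg := fun i => (EuclideanSpace.proj (𝕜 := ℝ) i).contDiff.contDiffAt.comp x (cd_grad h)
  rcases i with _ | i <;> rcases j with _ | j
  exacts [(cd_hessSq h).add contDiffAt_const,
    ((EuclideanSpace.proj (𝕜 := ℝ) j).contDiff.neg.div_const 2).contDiffAt, contDiffAt_const,
    contDiffAt_const.sub ((hg i).mul (hg j))]

/-- quadratic smallness from the values -/
theorem qd_of {X Y T : Type} [NormedAddCommGroup X] [NormedSpace ℂ X] [NormedAddCommGroup Y]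
    [NormedSpace ℂ Y] [CompleteSpace Y] (ev : T → Y →L[ℂ] ℂ)
    (sep : ∀ y, (∀ t, ev t y = 0) → y = 0) {N : X → Y} {r M : ℝ} (hr : 0 < r)
    (hd : DifferentiableOn ℂ N (ball 0 r)) (hM : ∀ x ∈ ball (0 : X) r, ‖N x‖ ≤ M)
    (F : T → X → ℂ) (e : ∀ x ∈ ball (0 : X) r, ∀ t, ev t (N x) = F t x) (h0 : ∀ t, F t 0 = 0)
    (h1 : ∀ t, HasFDerivAt (F t) (0 : X →L[ℂ] ℂ) 0) : Qd N (r / 2) (64 * M / r ^ 2) := by
  have m := mem_ball_self (x := (0 : X)) hr
  have M0 := (norm_nonneg _).trans (hM 0 m)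
  have n0 : N 0 = 0 := sep _ fun t => (e 0 m t).trans (h0 t)
  have n1 : fderiv ℂ N 0 = 0 := ContinuousLinearMap.ext fun v => sep _ fun t => by
    have a := (ev t).hasFDerivAt.comp 0 (hd.differentiableAt (ball_mem_nhds 0 hr)).hasFDerivAt
    exact congrArg (· v) (a.unique ((h1 t).congr_of_eventuallyEq
      (mem_of_superset (ball_mem_nhds 0 hr) fun x hx => e x hx t)))
  refine ⟨half_pos hr, by positivity, hd.mono (ball_subset_ball (half_le_self hr.le)),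
    fun x hx => ?_⟩
  obtain ⟨-, a, b⟩ := cau X Y N r M hr hd hM x hx
  rw [n1] at a b
  rw [n0] at b
  exact ⟨by simpa using b, by simpa using a⟩

variable {ι α : Type} [Fintype ι] [Fintype α] (D : AD ι α)

/-- the part of the remainder which does not see the Lagrange terms -/
def R0 (x : E3) (j : Jt) (t : Pi' ι α) : ℂ :=
  ee (D.th x t (dt (D.XX (x, j none none, t)) (D.XX (x, j none none, t))))
      (D.XX (x, j none none, t)) (jA D.XX x j t) (jA2 D.XX x j t) (nu D.w x) (pd (nu D.w) x) / 2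
    - dt (dF D.XX (x, j none none, t)) (cr (nn (jA D.XX x j t) (nu D.w x))
      (rr (D.lw x t (dt (D.XX (x, j none none, t)) (D.XX (x, j none none, t)))) (jA D.XX x j t)
        (nu D.w x))) / D.fn x j t
    - ∑ i, ∑ i', sa D.w i i' x * j i i'

/-- the factor of the Lagrange terms -/
def Cf (x : E3) (j : Jt) (t : Pi' ι α) : ℂ := D.Wj x j t * rh0 x /
  (D.Om x t (dt (D.XX (x, j none none, t)) (D.XX (x, j none none, t))) * D.fn x j t)

/-- the other linear terms -/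
def Lb (x : E3) (t : Pi' ι α) : ℂ := ∑ i, t.1 i * D.b i x - ∑ i, t.2.1 i * D.ψ i x

theorem Rm_eq (x : E3) (j : Jt) (t : Pi' ι α) :
    D.Rm x j t = R0 D x j t + (Cf D x j t * D.lag x t - Lb D x t) := by
  simp only [AD.Rm, AD.E, AD.Ln, R0, Cf, Lb, AD.fn, AD.Wj, Complex.real_smul]
  ring

theorem Rm_sub {x : E3} {c : ℝ} (h : c = 1 ∨ (∀ i, D.b i x = 0) ∧ ∀ i, D.ψ i x = 0) (j : Jt)
    (t : Pi' ι α) : D.Rm x j t - c * D.Rm x (mix j 0) t = R0 D x j t - c * R0 D x (mix j 0) t := by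
  have e : Cf D x (mix j 0) t = Cf D x j t := rfl
  rw [Rm_eq, Rm_eq, e]
  rcases h with rfl | ⟨h1, h2⟩
  · push_cast; ring
  · simp [AD.lag, Lb, h1, h2]

variable {D}

section

variable {E' P : Type*} [NormedAddCommGroup E'] [NormedSpace ℝ E'] [NormedAddCommGroup P]
  [NormedSpace ℝ P] [NormedSpace ℂ P] [IsScalarTower ℝ ℂ P] {z : E' × P} {g : E' → E3}
  {j : E' × P → Jt} {u : E' × P → Pi' ι α}

theorem sh_fn (h : D.Gd (g z.1) (j z) (u z)) (hg : ContDiffAt ℝ ∞ g z.1) (hj : SH j z)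
    (hu : SH u z) : SH (fun q => D.fn (g q.1) (j q) (u q)) z :=
  (h.rg.XX.dF.comp hg (((hj.ap none).ap none).prodMk hu)).dt
    ((h.rg.XX.jA hg hj hu).nn (.fst ((cd_nu h.rg.w).comp _ hg)))

theorem sh_R0 (h : D.Gd (g z.1) (j z) (u z)) (n : D.fn (g z.1) (j z) (u z) ≠ 0)
    (hg : ContDiffAt ℝ ∞ g z.1) (hj : SH j z) (hu : SH u z) :
    SH (fun q => R0 D (g q.1) (j q) (u q)) z := by
  have x := h.rg.sX hg hj hu
  have a := h.rg.XX.jA hg hj hu
  have m : SH (fun q : E' × P => nu D.w (g q.1)) z := .fst ((cd_nu h.rg.w).comp _ hg)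
  have m1 : SH (fun q : E' × P => pd (nu D.w) (g q.1)) z :=
    .fst ((cd_pd (cd_nu h.rg.w) (k := ∞) (by simp)).comp _ hg)
  exact ((((h.rg.th h.rw hg hu (x.dt x)).ee x a (h.rg.XX.jA2 hg hj hu) m m1
    (Complex.slitPlane_ne_zero h.sl)).div (.const 2) two_ne_zero).sub
    (((h.rg.XX.dF.comp hg (((hj.ap none).ap none).prodMk hu)).dt ((a.nn m).cr
      ((h.rg.lw h.rw hg hu (x.dt x)).rr a m))).div (sh_fn h hg hj hu) n)).sub
    (.sum _ fun i => .sum _ fun i' => (SH.real ((cd_sa h.rg.w i i').comp _ hg)).mul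
      ((hj.ap i).ap i'))

theorem sh_Cf (h : D.Gd (g z.1) (j z) (u z)) (n : D.fn (g z.1) (j z) (u z) ≠ 0)
    (hg : ContDiffAt ℝ ∞ g z.1) (hj : SH j z) (hu : SH u z) :
    SH (fun q => Cf D (g q.1) (j q) (u q)) z := by
  have x := h.rg.sX hg hj hu
  exact ((h.rg.Wj hg hj hu h.sl).mul (.fst (cd_rh0.comp _ hg))).div
    ((h.rg.Om h.rw hg hu (x.dt x)).mul (sh_fn h hg hj hu))
    (mul_ne_zero (mul_ne_zero (Complex.exp_ne_zero _) h.rw.g) n)

theorem sh_jet {z' : E' × ((J1 3 × J1 3 → ℂ) × P)} :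
    SH (fun q : E' × ((J1 3 × J1 3 → ℂ) × P) => (fun i i' => q.2.1 (i, i') : Jt)) z' :=
  .pi fun _ => .pi fun _ => SH.snd.p1.ap _

end

theorem mix_diff {X : Type*} [NormedAddCommGroup X] [NormedSpace ℂ X] {j : X → Jt} {x : X}
    (h : ∀ i i', DifferentiableAt ℂ (fun y => j y i i') x) :
    DifferentiableAt ℂ (fun y => mix (j y) 0) x :=
  differentiableAt_pi.2 fun i => differentiableAt_pi.2 fun i' => by
    rcases i with _ | c <;> rcases i' with _ | b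
    exacts [h _ _, h _ _, h _ _, differentiableAt_const _]

theorem der_zero {X : Type*} [NormedAddCommGroup X] [NormedSpace ℂ X] {p : E3}
    (h : HasFDerivAt (fun z : Jt × Pi' ι α => D.Rm p z.1 z.2) (0 : Jt × Pi' ι α →L[ℂ] ℂ) 0)
    {j : X → Jt} {u : X → Pi' ι α} (hj : DifferentiableAt ℂ j 0) (hu : DifferentiableAt ℂ u 0)
    (j0 : j 0 = 0) (u0 : u 0 = 0) :
    HasFDerivAt (fun x => D.Rm p (j x) (u x)) (0 : X →L[ℂ] ℂ) 0 := by
  have e : (0 : Jt × Pi' ι α) = (j 0, u 0) := by rw [j0, u0]; rfl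
  rw [e] at h
  exact (HasFDerivAt.comp (f := fun x => (j x, u x)) 0 h
    (hj.prodMk hu).hasFDerivAt).congr_fderiv (ContinuousLinearMap.zero_comp _)

theorem sh_strip (h : LIN0) {P : ℝ × ℝ → E3} {χ : E3 → ℝ} {g : ℝ × ℝ → ℂ} {y : ℝ × ℝ}
    (c1 : ContDiffAt ℝ ∞ P y) (c2 : ContDiffAt ℝ ∞ g y) (c3 : ContDiffAt ℝ ∞ χ (P y))
    (c4 : D.Nr (P y)) : SH (fun q : (ℝ × ℝ) × ((J1 3 × J1 3 → ℂ) × Pi' ι α) => g q.1 *
      (R0 D (P q.1) (fun i i' => q.2.1 (i, i')) q.2.2 -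
        χ (P q.1) * R0 D (P q.1) (mix (fun i i' => q.2.1 (i, i')) 0) q.2.2)) (y, 0) := by
  obtain ⟨-, -, a1, a2, -⟩ := h ι α D _ c4
  have a3 : D.fn (P y) 0 0 ≠ 0 := a2.trans_ne one_ne_zero
  have s1 : SH (fun q : (ℝ × ℝ) × ((J1 3 × J1 3 → ℂ) × Pi' ι α) =>
      R0 D (P q.1) (fun i i' => q.2.1 (i, i')) q.2.2) (y, 0) :=
    sh_R0 (g := P) a1 a3 c1 sh_jet SH.snd.p2
  have s2 : SH (fun q : (ℝ × ℝ) × ((J1 3 × J1 3 → ℂ) × Pi' ι α) =>
      R0 D (P q.1) (mix (fun i i' => q.2.1 (i, i')) 0) q.2.2) (y, 0) := by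
    refine sh_R0 (g := P) ?_ ?_ c1 (sh_jet.mix (.const 0)) SH.snd.p2
    · change D.Gd (P y) (mix 0 0) 0
      rwa [mix_self]
    · change D.fn (P y) (mix 0 0) 0 ≠ 0
      rwa [mix_self]
  have s3 : SH (fun q : (ℝ × ℝ) × ((J1 3 × J1 3 → ℂ) × Pi' ι α) => (χ (P q.1) : ℂ)) (y, 0) :=
    SH.real (g := fun y => χ (P y)) (c3.comp y c1)
  exact (SH.fst c2).mul (s1.sub (s3.mul s2))

end Qhw

open Qhw

/-- **row QH** -/
theorem qh (h : LIN0) : QH := by
  intro ι α _ _ D K a hK h0 h1 hN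
  have sh : ∀ p ∈ K,
      SH (fun q : E3 × ((J1 3 × J1 3 → ℂ) × Pi' ι α) =>
        R0 D q.1 (fun i i' => q.2.1 (i, i')) q.2.2) (p, 0) ∧
      SH (fun q : E3 × ((J1 3 × J1 3 → ℂ) × Pi' ι α) =>
        Cf D q.1 (fun i i' => q.2.1 (i, i')) q.2.2) (p, 0) := fun p hp => by
    obtain ⟨-, -, a1, a2, -⟩ := h ι α D p (hN p hp)
    exact ⟨sh_R0 (g := id) a1 (a2.trans_ne one_ne_zero) contDiffAt_id sh_jet SH.snd.p2,
      sh_Cf (g := id) a1 (a2.trans_ne one_ne_zero) contDiffAt_id sh_jet SH.snd.p2⟩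
  obtain ⟨r, M, N, hr, hd, hb⟩ := nemh holy K (J1 3 × J1 3) (Pi' ι α) a
    (fun q => D.Rm q.1 (fun i i' => q.2.1 (i, i')) q.2.2) hK h0 h1 (fun p hp => by
      have b : ∀ i, ContDiffAt ℝ 1 (fun q : E3 × ((J1 3 × J1 3 → ℂ) × Pi' ι α) => D.b i q.1)
        (p, 0) := fun i => ((hN p hp).b i).comp _ contDiffAt_fst
      have c : ∀ i, ContDiffAt ℝ 1 (fun q : E3 × ((J1 3 × J1 3 → ℂ) × Pi' ι α) => (D.ψ i q.1 : ℂ))
        (p, 0) := fun i => Complex.ofRealCLM.contDiff.contDiffAt.comp _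
          (((hN p hp).ψ i).comp _ contDiffAt_fst)
      simp only [Rm_eq, AD.lag, Lb]
      refine ((sh p hp).1.ev 1).self_of_nhds.add ((((sh p hp).2.ev 1).self_of_nhds.mul ?_).sub ?_)
      all_goals
        exact (ContDiffAt.sum fun i _ => ContDiffAt.mul (by fun_prop) (b _)).sub
          (ContDiffAt.sum fun i _ => ContDiffAt.mul (by fun_prop) (c _))) fun p hp => by
      filter_upwards [(sh p hp).1.hol, (sh p hp).2.hol] with q a1 a2
      simp only [Rm_eq, AD.lag, Lb]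
      exact a1.add ((a2.mul (by fun_prop)).sub (by fun_prop))
  refine ⟨_, _, N, qd_of (evH a) (fun y k => P272.K.LIN.Hol.ext k) hr hd (fun x hx => (hb x hx).1)
    (fun p x => D.Rm p (fun i i' => x.1 (i, i') p) x.2) (fun x hx => (hb x hx).2)
    (fun p => (h ι α D p (hN p p.2)).2.2.2.2.2.1) fun p => ?_,
    fun x hx => (hb x (ball_subset_ball (half_le_self hr.le) hx)).2⟩
  exact der_zero (h ι α D p (hN p p.2)).2.2.2.2.2.2
    (differentiableAt_pi.2 fun i => differentiableAt_pi.2 fun i' =>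
      (evH a p).differentiableAt.comp _ (by fun_prop)) differentiableAt_snd rfl rfl

/-- **row QW** -/
theorem qw (h : LIN0) : QW := by
  intro ι α _ _ D P χ g R a b hR hab pP pg hN
  classical
  let Φ : (ℝ × ℝ) × ((J1 3 × J1 3 → ℂ) × Pi' ι α) → ℂ := fun q => g q.1 *
    (R0 D (P q.1) (fun i i' => q.2.1 (i, i')) q.2.2 -
      χ (P q.1) * R0 D (P q.1) (mix (fun i i' => q.2.1 (i, i')) 0) q.2.2)
  have sh : ∀ z ∈ Icc a b, ∀ θ, SH (fun q => if R < q.1.1 then Φ q else 0) ((z, θ), 0) := by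
    intro z hz θ
    obtain ⟨c1, c2, c3, c4, -⟩ := hN (z, θ) hz
    have s : SH Φ ((z, θ), 0) := sh_strip h c1 c2 c3 c4
    exact s.congr ((continuousAt_fst.fst.eventually (lt_mem_nhds (hR.trans_le hz.1))).mono
      fun q k => if_pos k)
  obtain ⟨r, M, hr, l1, l2, l3⟩ := lec _ a b (fun q => if R < q.1.1 then Φ q else 0)
    (fun z θ ζ => by
      by_cases k : R < z
      · simp only [k, if_true, Φ, pP z θ k, pg z θ k]
      · simp only [k, if_false])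
    fun z hz θ => ⟨by exact_mod_cast ((sh z hz θ).ev 2).self_of_nhds, (sh z hz θ).hol⟩
  obtain ⟨C, hC, hw⟩ := nemw holy (J1 3 × J1 3) (Pi' ι α)
  obtain ⟨N, hd, hb⟩ := hw _ _ r M _ (P218W.ret_cl hab) hr l1 l2 l3
  have e : ∀ x ∈ ball (0 : (J1 3 × J1 3 → W (cl a b)) × Pi' ι α) (r / C), ∀ y : ℝ × ℝ,
      y.1 ∈ Icc a b → N x y = g y * (D.Rm (P y) (fun i i' => x.1 (i, i') y) x.2
        - χ (P y) * D.Rm (P y) (mix (fun i i' => x.1 (i, i') y) 0) x.2) := fun x hx y hy => by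
    rw [Rm_sub D (hN y hy).2.2.2.2]
    exact ((hb x hx).2 y.1 hy y.2).trans (if_pos (hR.trans_le hy.1))
  refine ⟨_, _, N, qd_of (T := {y : ℝ × ℝ // y.1 ∈ Icc a b})
    (fun y => (W.ev y.1).toContinuousLinearMap)
    (fun y k => (P218W.ret_cl hab).ext fun z hz θ => k ⟨(z, θ), hz⟩) (div_pos hr hC) hd
    (fun x hx => (hb x hx).1) _ (fun x hx y => e x hx y.1 y.2) (fun y => ?_) fun y => ?_,
    fun x hx => e x (ball_subset_ball (half_le_self (div_pos hr hC).le) hx)⟩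
  · have a1 := (h ι α D _ (hN y.1 y.2).2.2.2.1).2.2.2.2.2.1
    change _ * (D.Rm _ 0 0 - _ * D.Rm _ (mix 0 0) 0) = 0
    rw [mix_self, a1]
    simp
  · have a1 := (h ι α D _ (hN y.1 y.2).2.2.2.1).2.2.2.2.2.2
    have d : ∀ i i', DifferentiableAt ℂ
        (fun x : (J1 3 × J1 3 → W (cl a b)) × Pi' ι α => x.1 (i, i') y.1) 0 := fun i i' =>
      (W.ev y.1).toContinuousLinearMap.differentiableAt.comp _ (by fun_prop)
    exact (((der_zero a1 (differentiableAt_pi.2 fun i => differentiableAt_pi.2 (d i))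
      differentiableAt_snd rfl rfl).sub ((der_zero a1 (mix_diff d) differentiableAt_snd
        (mix_self 0) rfl).const_mul (χ (P y.1) : ℂ))).const_mul (g y.1)).congr_fderiv
      (ContinuousLinearMap.ext fun v => by simp)

end Vale.Agent.P218N
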