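import Vale.Agent.P218N.Spec3
import Vale.Agent.P218N.AmbB
import Vale.Agent.P218N.Qhw
import Vale.Agent.P218N.Jc
import Vale.Agent.P218I.Bas

/-! Block NL: the remainders in the compact zone. -/

open Set Filter Topology Metric
open scoped ContDiff

noncomputable section

namespace Vale.Agent.P218I

open Vale.Agent.P218T Vale.Agent.P218L
open Vale.Agent.P218H (J1 HH st_one st_zero)
open Vale.Agent.P218N (Qd Pi' Jt jt mix km AD)
open Vale.Agent.P218W (W cl ret_cl ret_max)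

theorem Qd.pi {κ A P Y : Type} [Fintype κ] [NormedAddCommGroup A] [NormedSpace ℂ A]
    [NormedAddCommGroup P] [NormedSpace ℂ P] [NormedAddCommGroup Y] [NormedSpace ℂ Y]
    {N : κ → A × P → Y} {r C : κ → ℝ} (h : ∀ e, Qd (N e) (r e) (C e)) : ∃ r₀ C₀, (∀ e, r₀ ≤ r e) ∧
    Qd (fun (x : (κ → A) × P) e => N e (x.1 e, x.2)) r₀ C₀ := by
  obtain ⟨r₀, h0, h1⟩ := Pi.exists_forall_pos_add_lt (x := fun _ => (0 : ℝ)) fun e => (h e).1
  obtain ⟨C₀, h2⟩ := Finite.exists_le C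
  let p : κ → (κ → A) × P →L[ℂ] A × P := fun e => (ContinuousLinearMap.proj e).prodMap (.id ℂ P)
  have n : ∀ e x, ‖p e x‖ ≤ ‖x‖ := fun e x =>
    max_le_max (norm_le_pi_norm x.1 e) le_rfl
  have m : ∀ x ∈ ball 0 r₀, ∀ e, p e x ∈ ball 0 (r e) := fun x hx e => mem_ball_zero_iff.2
    ((n e x).trans_lt ((mem_ball_zero_iff.1 hx).trans (by simpa using h1 e)))
  have d : ∀ x ∈ ball 0 r₀, HasFDerivAt (fun (x : (κ → A) × P) e => N e (x.1 e, x.2)) _ x :=
    fun x hx => hasFDerivAt_pi.2 fun e => (((h e).2.2.1.differentiableAt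
      (isOpen_ball.mem_nhds (m x hx e))).hasFDerivAt.comp x (p e).hasFDerivAt)
  have c : ∀ e, C e ≤ max C₀ 0 := fun e => le_max_of_le_left (h2 e)
  have c0 := le_max_right C₀ 0
  refine ⟨r₀, max C₀ 0, fun e => by simpa using (h1 e).le, h0, c0,
    fun x hx => (d x hx).differentiableAt.differentiableWithinAt, fun x hx =>
    ⟨(pi_norm_le_iff_of_nonneg (by positivity)).2 fun e => ((h e).2.2.2 _ (m x hx e)).1.trans
      (by gcongr; exacts [c e, n e x]), ?_⟩⟩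
  rw [(d x hx).fderiv]
  refine ContinuousLinearMap.opNorm_le_bound _ (by positivity) fun v =>
    (pi_norm_le_iff_of_nonneg (by positivity)).2 fun e => ((fderiv ℂ (N e) (p e x)).le_opNorm
      (p e v)).trans ?_
  refine mul_le_mul (((h e).2.2.2 _ (m x hx e)).2.trans ?_) (n e v) (norm_nonneg _) (by positivity)
  gcongr
  exacts [c e, n e x]

theorem km_small {r : ℝ} (hr : 0 < r) : ∃ Z, ∀ m, Z ≤ m → ‖km m‖ < r := by
  have : Tendsto (fun m : ℝ => Real.exp (-m ^ 2 / 4)) atTop (𝓝 0) :=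
    Real.tendsto_exp_atBot.comp ((tendsto_neg_atTop_atBot.comp
      (tendsto_pow_atTop two_ne_zero)).atBot_div_const (by norm_num))
  obtain ⟨Z, h⟩ := eventually_atTop.1 (this.eventually (gt_mem_nhds hr))
  refine ⟨Z, fun m hm => (le_of_eq ?_).trans_lt (h m hm)⟩
  rw [km, Complex.norm_exp]
  norm_cast

theorem mix_mix (j j' j'' : Jt) : mix (mix j j') j'' = mix j j'' := by
  funext i i'
  rcases i with _ | c <;> rcases i' with _ | b <;> rfl

theorem cl_cl' {R a b Z : ℝ} (h : R ≤ a) (h' : a ≤ b) (h'' : b ≤ Z) (z : ℝ) :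
    cl a b (cl R Z z) = cl a b z ∧ cl a b (max R z) = cl a b z := by
  simp only [cl, max_def, min_def]
  constructor <;> split_ifs <;> linarith

namespace GD

variable {M : Mod} {k : ℕ} {G : GD M k}

theorem le_zn {Z : Fin M.n₁ → ℝ} (U : G.XX Z) :
    ‖U.1‖ ≤ zn U ∧ ‖U.2.2.1‖ ≤ zn U ∧ ‖U.2.2.2‖ ≤ zn U :=
  ⟨(norm_fst_le (G.coo Z U)).trans (norm_fst_le (G.coo Z U, U.2.2.2)),
    (((norm_snd_le (G.coo Z U).2.2).trans (norm_snd_le (G.coo Z U).2)).trans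
      (norm_snd_le (G.coo Z U))).trans (norm_fst_le (G.coo Z U, U.2.2.2)),
    norm_snd_le (G.coo Z U, U.2.2.2)⟩

theorem near_of {B : (Fin M.n₁ → ℝ) → Type} [∀ Z, NormedAddCommGroup (B Z)]
    [∀ Z, NormedSpace ℂ (B Z)] {F : ∀ Z, (Fin M.n₁ → ℝ) → G.XX Z × Pm (Fin M.n₁) → B Z}
    {V : ∀ Z, (Fin M.n₁ → ℝ) → G.XX Z × Pm (Fin M.n₁) → Prop} {A Y : Type} [NormedAddCommGroup A]
    [NormedSpace ℂ A] [NormedAddCommGroup Y] [NormedSpace ℂ Y]
    {N : A × Pi' (Fin M.n₁) (Fin k) → Y} {r C D Z₀ : ℝ} (hN : Qd N r C) (d1 : 1 ≤ D)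
    (h : ∀ Z, (∀ j, Z₀ ≤ Z j) → ∃ (T : G.XX Z →L[ℂ] A) (L : Y →L[ℂ] B Z),
      (∀ U, ‖T U‖ ≤ D * zn U) ∧ (∀ g, ‖L g‖ ≤ D * ‖g‖) ∧ ∀ m y t, (T y.1, t) ∈ ball 0 r →
        (t = (par m y).z ∨ y.2.2.2.1 = 0 ∧ t = (par m y).o) →
        F Z m y = L (N (T y.1, t)) ∧ V Z m y) : Near F V := by
  obtain ⟨r0, c0, hd, hb⟩ := hN
  obtain ⟨Z₁, hk⟩ := km_small r0
  have rD : r / D ≤ r := div_le_self r0.le d1
  refine ⟨r / D, D * C * (r ^ 2 + D ^ 2), max Z₀ Z₁, by positivity, fun Z m hZ y h1 h2 => ?_⟩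
  obtain ⟨T, L, hT, hL, hF⟩ := h Z fun j => le_of_max_le_left (hZ j).1
  let o : G.XX Z × Pm (Fin M.n₁) →L[ℂ] A × Pi' (Fin M.n₁) (Fin k) :=
    (T.prod (.prod (.fst ℂ _ _ ∘L .snd ℂ _ _ ∘L .snd ℂ _ _)
      (.prod (.snd ℂ _ _ ∘L .snd ℂ _ _ ∘L .snd ℂ _ _) 0))) ∘L .fst ℂ _ _
  have z0 : ∀ U : G.XX Z, 0 ≤ zn U := fun U => norm_nonneg _
  have zD : ∀ U : G.XX Z, zn U ≤ D * zn U := fun U => le_mul_of_one_le_left (z0 U) d1
  have ho : ∀ y, ‖o y‖ ≤ D * zn y.1 := fun y => max_le (hT _) (max_le ((le_zn _).2.1.trans (zD _))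
    (max_le ((le_zn _).2.2.trans (zD _)) (norm_zero.le.trans ((z0 _).trans (zD _)))))
  have h3 : D * zn y.1 < r := (lt_div_iff₀' (by linarith)).1 h1
  have m1 : (T y.1, (par m y).z) ∈ ball 0 r := mem_ball_zero_iff.2 (max_lt ((hT _).trans_lt h3)
    (max_lt (((le_zn _).2.1.trans (zD _)).trans_lt h3) (max_lt (((le_zn _).2.2.trans
      (zD _)).trans_lt h3) (max_lt (norm_zero.trans_lt r0) (max_lt (h2.trans_le rD)
        ((pi_norm_lt_iff r0).2 fun j => hk _ (le_of_max_le_right (hZ j).2)))))))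
  have m2 : o y ∈ ball 0 r := mem_ball_zero_iff.2 ((ho y).trans_lt h3)
  have dz : Differentiable ℂ fun y : G.XX Z × Pm (Fin M.n₁) => (T y.1, (par m y).z) := by
    unfold P218N.Pi'.z par
    fun_prop
  have dF : DifferentiableAt ℂ (F Z m) y := (L.differentiableAt.comp y
    ((hd.differentiableAt (isOpen_ball.mem_nhds m1)).comp y (dz y))).congr_of_eventuallyEq
      ((dz.continuous.continuousAt.eventually (isOpen_ball.mem_nhds m1)).mono fun y hy =>
        (hF m y _ hy (.inl rfl)).1)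
  refine ⟨dF, ?_, (hF m y _ m1 (.inl rfl)).2, fun e => ⟨fun e0 => ?_, fun y' e' => ?_⟩⟩
  · rw [(hF m y _ m1 (.inl rfl)).1]
    refine (hL _).trans (mul_assoc D C _ ▸ mul_le_mul_of_nonneg_left ((hb _ m1).1.trans ?_)
      (by linarith))
    gcongr
    exact (pow_le_pow_left₀ (norm_nonneg _) (mem_ball_zero_iff.1 m1).le 2).trans
      (le_add_of_nonneg_right (sq_nonneg _))
  · have : o y = 0 := norm_le_zero_iff.1 (by simpa [e0] using ho y)
    have : N (o y) = 0 := norm_le_zero_iff.1 (by simpa [this] using (hb _ m2).1)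
    rw [(hF m y _ m2 (.inr ⟨e, rfl⟩)).1]
    exact (congrArg L this).trans (map_zero L)
  · have l : HasDerivAt (fun s : ℂ => y + s • y') y' 0 := (P218N.L0.hd_line y').const_add y
    have a := dF.hasFDerivAt.comp_hasDerivAt_of_eq 0 l (by simp)
    have b := ((L.hasFDerivAt.comp y ((hd.differentiableAt (isOpen_ball.mem_nhds m2)).hasFDerivAt.comp
      y o.hasFDerivAt)).comp_hasDerivAt_of_eq 0 l (by simp)).congr_of_eventuallyEq
      (f₁ := F Z m ∘ fun s : ℂ => y + s • y')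
      (((o.continuous.continuousAt.comp l.continuousAt).eventually
        (isOpen_ball.mem_nhds (by simpa using m2))).mono fun s hs =>
          (hF m _ _ hs (.inr ⟨by simp [e, e'], rfl⟩)).1)
    rw [a.unique b]
    refine (hL _).trans ((mul_le_mul_of_nonneg_left (((fderiv ℂ N (o y)).le_opNorm (o y')).trans
      (mul_le_mul ((hb _ m2).2.trans (mul_le_mul_of_nonneg_left (ho y) c0)) (ho y') (norm_nonneg _)
        (mul_nonneg c0 ((norm_nonneg _).trans (ho y))))) (by linarith)).trans ?_)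
    exact le_of_sub_nonneg ((mul_nonneg (mul_nonneg (mul_nonneg (zero_le_one.trans d1) c0)
      (sq_nonneg r)) (mul_nonneg (z0 y.1) (z0 y'.1))).trans_eq (by ring))

/-- the fields in the compact zone -/
abbrev a0 (G : GD M k) : AD (Fin M.n₁) (Fin k) := (G.ad fun _ => G.ρ + 12).z

theorem Rm_a0 {Z : Fin M.n₁ → ℝ} {x : E3} (h : (G.ad Z).Nr x) {m} {y : G.XX Z × Pm (Fin M.n₁)} {t}
    (e : t = (par m y).z ∨ y.2.2.2.1 = 0 ∧ t = (par m y).o) (j : Jt) :
    (G.ad Z).Rm x j (par m y) = G.a0.Rm x j t := by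
  rcases e with rfl | ⟨e, rfl⟩
  exacts [AD.Rm_z h.sh, AD.Rm_o h.sh e]

end GD

open GD

/-- **QC** -/
theorem qc (adn : ADN) (evj : EVJ) : QC := (Row.and adn evj).mono fun M k G o ⟨hA, C, c0, hE⟩ => by
  have ok := o.cor.toOk0
  have g := o.ld.geo
  have nr := fun Z hZ x hx (h : ‖x‖ ≤ G.ρ + 9) => ((hA Z _ hZ le_rfl).2 x hx).1 h
  have mK : ∀ x ∈ G.cor.K, ‖x‖ ≤ G.ρ + 9 := fun x hx =>
    (mem_closedBall_zero_iff.1 hx.2).trans (show G.ρ + 2 + 6 ≤ _ by linarith)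
  obtain ⟨r, C', N, hN, hv⟩ := P218N.qh P218N.lin0 _ _ G.a0 G.cor.K α₀
    ((isCompact_closedBall _ _).inter_left g.isClosed_S) (by norm_num) (by norm_num)
    fun x hx => (nr _ (fun _ => le_rfl) x hx.1 (mK x hx)).z
  obtain ⟨C₁, c1, hJ⟩ := P218N.jc' k _ G.cor ok α₀ β₀ (by norm_num) (by norm_num)
  obtain ⟨-, ⟨L, hL⟩, -⟩ := P218H.kit' 3 k _ G.cor ok α₀ (by norm_num) (by norm_num)
  refine near_of (D := 1 + C₁ * (C + 1) + ‖L‖) (Z₀ := G.ρ + 12) hN
    (by linarith [norm_nonneg L, mul_nonneg c1 (add_nonneg c0 zero_le_one)]) fun Z hZ => ?_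
  obtain ⟨e1, e2⟩ := hE Z hZ
  have e3 := fun U x hx (h1 : G.ρ - 1 ≤ ‖x‖) (h2 : ‖x‖ ≤ G.ρ + 2 + 7) =>
    ((e2 U).2.2.2 x hx (by linarith)).2.2 h1
  obtain ⟨T, hT, hb⟩ := hJ (G.ed 0 Z 0) e1 (fun v x hx h1 h2 => (e3 (0, v, 0) x hx h1 h2).1)
    ⟨C, fun v x hx h1 h2 => (e3 (0, v, 0) x hx h1 h2).2.trans (mul_le_mul_of_nonneg_left
      ((e2 _).1.trans (by simp)) c0)⟩
  have z0 : ∀ U : G.XX Z, 0 ≤ zn U := fun U => norm_nonneg _
  refine ⟨T, L, fun U => (hb U ((C + 1) * zn U) (by nlinarith [(le_zn U).1, z0 U])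
    fun x hx h1 h2 => (e3 U x hx h1 h2).2.trans (by nlinarith [z0 U])).trans
      (by nlinarith [z0 U, mul_nonneg (norm_nonneg L) (z0 U)]), fun f => (L.le_opNorm f).trans
      (mul_le_mul_of_nonneg_right (by linarith [mul_nonneg c1 (add_nonneg c0 zero_le_one)])
        (norm_nonneg _)), fun m y t hy ht => ?_⟩
  have v : ∀ x, L (N (T y.1, t)) x = G.cor.ext (Qc m y) x := fun x => by
    classical
    rw [hL _ (fun p => if h : p ∈ G.cor.K then N (T y.1, t) ⟨p, h⟩ else 0) fun p => dif_pos p.2]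
    unfold P218H.Core.ext
    rcases le_or_gt (G.cor.r + 5 + 1) ‖G.cor.pr x‖ with h | h
    · simp [st_one (show 0 ≤ G.cor.r + 5 by linarith [ok.one_le, ok.r_le]) h]
    rcases le_or_gt (G.cor.de / 2) |G.cor.ta x| with h' | h'
    · simp [ok.ker.eh0 _ h']
    have s := (ok.tube.foot x (by linarith [ok.tube.pos])).1
    have mk : G.cor.pr x ∈ G.cor.K := ⟨s, mem_closedBall_zero_iff.2 (by linarith)⟩
    beta_reduce
    rw [dif_pos mk, hv _ hy, Qc, Rm_a0 (nr Z hZ _ s (mK _ mk)) ht]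
    congr 2
    funext i i'
    exact hT y.1 ⟨_, mk⟩ (by linarith) i i'
  exact ⟨toH_eq v, fun x => (congrArg (· x) (toH_eq v)).trans (v x)⟩

/-- **QN** -/
theorem qn (adn : ADN) (jn : JN) : QN := (Row.and adn jn).mono fun M k G o ⟨hA, C, c0, hJ⟩ => by
  have g := o.ld.geo
  have lo := o.ld.lo
  have hi := o.ld.hi
  have one := g.one.1
  have nr := fun Z hZ e (y : ℝ × ℝ) (hy : y.1 ∈ Icc (G.ρ - 1) (G.ρ + 6)) =>
    (hA Z _ hZ le_rfl).2 _ (g.mem e y (by linarith [hy.1]))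
  have rad := fun e (y : ℝ × ℝ) (hy : y.1 ∈ Icc (G.ρ - 1) (G.ρ + 6)) =>
    (g.cht e).rad y (by linarith [hy.1])
  choose r C' N hN hv using fun e => P218N.qw P218N.lin0 _ _ G.a0 (M.P e) G.cor.cc
    (fun p => (G.chn p.1 * cut (G.ρ - 1) p.1 / kp M e p : ℝ)) M.R (G.ρ - 1) (G.ρ + 6) (by linarith)
    (by linarith) (g.perP e) ((g.per_kn e).comp₂ (per_z id) fun a z : ℝ =>
      ((G.chn z * cut (G.ρ - 1) z / a : ℝ) : ℂ)) fun y hy => by
    have h : M.R < y.1 := by linarith [hy.1]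
    have a := nr _ (fun _ => le_rfl) e y hy
    refine ⟨g.cdP e h, cd_ofReal ((((contDiff_const.sub (cd_cut _)).contDiffAt.comp y
      contDiffAt_fst).mul ((cd_cut _).contDiffAt.comp y contDiffAt_fst)).div
        (g.cd_kn e h) (g.kn_ne e h)), o.cor.scc.contDiffAt,
      (a.1 (by linarith [(rad e y hy).2, hy.2])).z, ?_⟩
    rcases le_or_gt ‖M.P e y‖ (G.ρ + 3) with h3 | h3
    · exact .inl (by simp [LD.core, st_zero (show 0 ≤ G.ρ + 3 by linarith) h3])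
    · exact .inr ⟨a.2.2.2 h3, fun i => o.ld.supp i _ (by linarith)⟩
  obtain ⟨r₀, C₀, hr, hN'⟩ := Qd.pi hN
  refine near_of (D := C + 1) (Z₀ := G.ρ + 12) hN' (by linarith) fun Z hZ => ?_
  choose T hT using hJ Z hZ
  have cc := fun Z h => cl_cl' (R := G.z₀) (a := G.ρ - 1) (b := G.ρ + 6) (Z := Z) (by linarith)
    (by linarith) h
  have ct := (ret_cl (show G.ρ - 1 ≤ G.ρ + 6 by linarith)).cont
  let L : (M.I → W (cl (G.ρ - 1) (G.ρ + 6))) →L[ℂ] G.Y' Z := .prod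
    (.pi fun j => .inl ℂ _ _ ∘L (P218W.W.res _ ct fun z =>
      (cc (Z j) (by linarith [hZ j]) z).1).toContinuousLinearMap ∘L .proj (.inl j))
    (.pi fun l => (P218W.W.res _ ct fun z => (cc _ le_rfl z).2).toContinuousLinearMap ∘L
      .proj (.inr l))
  refine ⟨.pi T, L, fun U => (pi_norm_le_iff_of_nonneg (mul_nonneg (by linarith)
    (norm_nonneg _))).2 fun e => (hT e U).1.trans (mul_le_mul_of_nonneg_right (by linarith)
      (norm_nonneg _)), fun f => le_trans ?_ (le_mul_of_one_le_left (norm_nonneg _) (by linarith)),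
    fun m y t hy ht => ?_⟩
  · exact max_le ((pi_norm_le_iff_of_nonneg (norm_nonneg _)).2 fun j => max_le
      ((P218W.W.norm_res _ ct (fun z => (cc (Z j) (by linarith [hZ j]) z).1) _).trans
        (norm_le_pi_norm f _)) (norm_zero.le.trans (norm_nonneg _)))
      ((pi_norm_le_iff_of_nonneg (norm_nonneg _)).2 fun l =>
        (P218W.W.norm_res _ ct (fun z => (cc _ le_rfl z).2) _).trans (norm_le_pi_norm f _))
  have v : ∀ e z θ, N e (T e y.1, t) (cl (G.ρ - 1) (G.ρ + 6) z, θ) =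
      G.chn z * cut (G.ρ - 1) z * Qn m y (M.P e (z, θ)) / kp M e (z, θ) := fun e z θ => by
    have b : (T e y.1, t) ∈ ball 0 (r e) := mem_ball_zero_iff.2 (((max_le_max
      (norm_le_pi_norm (fun e => T e y.1) e) le_rfl).trans_lt (mem_ball_zero_iff.1 hy)).trans_le
        (hr e))
    have R := ret_cl (show G.ρ - 1 ≤ G.ρ + 6 by linarith)
    rw [hv e _ b _ (R.mem z)]
    rcases le_total z (G.ρ - 1) with h | h
    · simp [cl, min_eq_right (show z ≤ G.ρ + 6 by linarith), max_eq_left h, cut_zero h,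
        cut_zero le_rfl]
    rcases le_total (G.ρ + 6) z with h' | h'
    · simp [cl, min_eq_left h', max_eq_right (show G.ρ - 1 ≤ G.ρ + 6 by linarith), chn_eq,
        cut_one (show G.ρ + 5 + 1 ≤ z by linarith),
        cut_one (show G.ρ + 5 + 1 ≤ G.ρ + 6 by linarith)]
    have a := (nr Z hZ e (z, θ) ⟨h, h'⟩).1 (by linarith [(rad e (z, θ) ⟨h, h'⟩).2])
    rw [R.fix z ⟨h, h'⟩, Qn, Rm_a0 a ht, Rm_a0 a ht, show (fun i i' => T e y.1 (i, i') (z, θ)) =
      jN y.1 (M.P e (z, θ)) from funext₂ ((hT e y.1).2 (z, θ) ⟨h, h'⟩), jN, mix_mix,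
      Complex.real_smul]
    push_cast
    ring
  have e : N2 m y = L fun e => N e (T e y.1, t) := by
    unfold N2 LD.toY
    refine Prod.ext (funext fun j => Prod.ext ?_ rfl) (funext fun l => ?_) <;> dsimp only
    · refine toW_eq (ret_cl (by linarith [hZ j])) fun z _ θ => ?_
      exact v (.inl j) z θ
    · refine toW_eq (ret_max _) fun z _ θ => ?_
      exact v (.inr l) z θ
  refine ⟨e, fun i z θ _ _ => ?_⟩
  rw [e]
  cases i <;> exact v _ z θ

end Vale.Agent.P218I
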