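import Vale.Agent.P218N.Spec
import Vale.Agent.P218R.Base

/-! Block NL: integration by parts on the surface. -/

open MeasureTheory Set Filter Topology
open scoped ContDiff RealInnerProductSpace Manifold

noncomputable section

namespace Vale.Agent.P218N

open Vale.Agent.P218R (Srf FV LOW)
open Vale.Agent.P366W (dvg dvg_eq trc)

namespace Sibp

/-- the flux -/
def fl (X Y v M : E3 → V3) (x : E3) : V3 := fun c => dt (Y x) (tt (v x) (pd X x) (M x) c)

variable {X Y v M : E3 → V3} {x : E3}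

theorem fl_cd (hX : ContDiffAt ℝ 2 X x) (hY : ContDiffAt ℝ 1 Y x) (hv : ContDiffAt ℝ 1 v x)
    (hM : ContDiffAt ℝ 1 M x) : ContDiffAt ℝ 1 (fl X Y v M) x :=
  contDiffAt_pi.2 fun c => contDiffWithinAt_univ.1 (cd_dt hY.contDiffWithinAt (cd_tt
    hv.contDiffWithinAt (cd_pd hX (by norm_num)).contDiffWithinAt hM.contDiffWithinAt c))

theorem fl_tan (x : E3) : dt (fl X Y v M x) (M x) = 0 := by
  simp only [fl, tt0, tt1, tt2, dt, Pi.sub_apply, Pi.smul_apply, smul_eq_mul]
  ring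

theorem fl_div (hX : ContDiffAt ℝ 2 X x) (hY : ContDiffAt ℝ 1 Y x) (hv : ContDiffAt ℝ 1 v x)
    (hM : ContDiffAt ℝ 1 M x) (hc : ∀ b c, pd M x b c = pd M x c b) :
    ∑ c, pd (fl X Y v M) x c c =
      dt (v x) (kk (pd X x) (pd Y x) (M x)) - dt (Y x) (kk (pd v x) (pd X x) (M x)) := by
  have d := (fl_cd hX hY hv hM).differentiableAt one_ne_zero
  have k : ∀ c, pd (fl X Y v M) x c c = dt (pd Y x c) (tt (v x) (pd X x) (M x) c) + dt (Y x)
      (tt (pd v x c) (pd X x) (M x) c + tt (v x) (pd (pd X) x c) (M x) c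
        + tt (v x) (pd X x) (pd M x c) c) := fun c => by
    rw [pd_apply d]
    refine pd_eq (differentiableAt_pi.1 d c) ?_
    simpa [fl] using hd_dt (hd_pd (hY.differentiableAt one_ne_zero) c)
      (hd_tt (hd_pd (hv.differentiableAt one_ne_zero) c)
        (hd_pd ((cd_pd hX (k := 1) (by norm_num)).differentiableAt one_ne_zero) c)
        (hd_pd (hM.differentiableAt one_ne_zero) c) c)
  have a1 := congrArg (dt (Y x)) (tt_div (pd v x) (pd X x) (M x))
  have a2 := congrArg (dt (Y x)) (tt_div_A (v x) (pd (pd X) x) (M x) (pd_symm hX))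
  have a3 := congrArg (dt (Y x)) (tt_div_m (v x) (pd X x) (pd M x) hc)
  rw [← neg_one_smul ℂ, dt_smul] at a1
  rw [← zero_smul ℂ (0 : V3), dt_smul] at a2 a3
  simp only [dt_add] at a1 a2 a3
  simp only [Fin.sum_univ_three, k, dt_kk (v x), dt_add]
  linear_combination a1 + a2 + a3

/-- real or imaginary parts of complex vectors -/
def pt (l : ℂ →L[ℝ] ℝ) : V3 →L[ℝ] E3 :=
  (EuclideanSpace.equiv (Fin 3) ℝ).symm.toContinuousLinearMap ∘L
    ContinuousLinearMap.pi fun c => l ∘L .proj c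

theorem pt_apply (l : ℂ →L[ℝ] ℝ) (a : V3) (c : Fin 3) : pt l a c = l (a c) := rfl

theorem inner_pt (l : ℂ →L[ℝ] ℝ) (n : E3) (a : V3) : ⟪n, pt l a⟫ = l (dt a (cx n)) := by
  simp only [P218R.inner3, pt_apply, dt, cx, map_add, mul_comm (a _), ← Complex.real_smul,
    map_smul, smul_eq_mul]

theorem sdiv (fv : FV) {T : Srf} (h : T.Ok) [IsFiniteMeasureOnCompacts T.μ]
    (hn : ∀ x, T.w x = 0 → fderiv ℝ T.n x (T.n x) = 0) {g : E3 → V3} (hg : ContDiff ℝ 1 g)
    (hc : HasCompactSupport g) (ht : ∀ x, dt (g x) (cx (T.n x)) = 0) :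
    ∫ x, ∑ c, pd g x c c ∂T.μ = 0 := by
  have i : Integrable (fun x => ∑ c, pd g x c c) T.μ := integrable_finsetSum _ fun c _ =>
    ((continuous_apply c).comp ((hg.continuous_fderiv one_ne_zero).clm_apply continuous_const)
      ).integrable_of_hasCompactSupport ((hc.fderiv_apply ℝ _).comp_left rfl)
  have k : ∀ l : ℂ →L[ℝ] ℝ, l (∫ x, ∑ c, pd g x c c ∂T.μ) = 0 := fun l => by
    have t : ∀ x, ⟪T.n x, pt l (g x)⟫ = 0 := fun x => by rw [inner_pt, ht, map_zero]
    have := fv T (fun x => pt l (g x)) h ((pt l).contDiff.comp hg) (hc.comp_left (map_zero _))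
    simp only [t, mul_zero, integral_zero] at this
    rw [← l.integral_comp_comm i, ← this]
    refine h.int_congr fun x hx => ?_
    have d : HasFDerivAt (fun x => pt l (g x)) _ x :=
      (pt l).hasFDerivAt.comp x (hg.differentiable one_ne_zero x).hasFDerivAt
    have e := fderiv_inner_apply ℝ (h.dn x) d.differentiableAt (T.n x)
    simp only [t, hn x hx, inner_zero_left, add_zero] at e
    rw [Srf.dv_eq, ← e, dvg_eq, d.fderiv]
    simp [trc, pd, pt_apply]
  exact Complex.ext (k Complex.reCLM) (k Complex.imCLM)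

theorem int_G {T : Srf} (h : T.Ok) [IsFiniteMeasureOnCompacts T.μ] {K : Set E3} (hK : IsCompact K)
    {f : E3 → ℂ} (hc : ∀ x ∈ T.G ∩ K, ContDiffWithinAt ℝ 0 f univ x)
    (h0 : ∀ x ∈ T.G, x ∉ K → f x = 0) : Integrable f T.μ :=
  (ContinuousOn.integrableOn_compact (hK.inter_left h.closed) fun x hx =>
    (contDiffWithinAt_univ.1 (hc x hx)).continuousAt.continuousWithinAt
    ).integrable_of_ae_notMem_eq_zero (h.ae.mono fun x hx hx' => h0 x hx fun k => hx' ⟨hx, k⟩)

theorem cut {f : E3 → V3} {A : Set E3} (hA : IsCompact A) (hf : ∀ x ∈ A, ContDiffAt ℝ 1 f x) :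
    ∃ χ : E3 → ℝ, ContDiff ℝ 1 (fun x => χ x • f x) ∧ HasCompactSupport (fun x => χ x • f x) ∧
      ∀ x ∈ A, ∀ᶠ y in 𝓝 x, χ y = 1 := by
  obtain ⟨L, hL, h1, h2⟩ := exists_compact_between hA (U := {x | ContDiffAt ℝ 1 f x})
    (isOpen_iff_mem_nhds.2 fun x hx => ContDiffAt.eventually hx (by simp)) hf
  obtain ⟨χ, c1, c2, -⟩ := exists_contMDiffMap_one_nhds_of_subset_interior (n := 1) 𝓘(ℝ, E3)
    hA.isClosed h1
  refine ⟨χ, contDiff_iff_contDiffAt.2 fun x => ?_, HasCompactSupport.intro hL fun x hx => by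
    simp [c2 x hx], fun x hx => c1.filter_mono (nhds_le_nhdsSet hx)⟩
  by_cases hx : x ∈ L
  · exact χ.contMDiff.contDiff.contDiffAt.smul (h2 hx)
  · exact contDiffAt_const.congr_of_eventuallyEq (eventually_of_mem
      (hL.isClosed.isOpen_compl.mem_nhds hx) fun y hy => by simp only [c2 y hy, zero_smul]; rfl)

end Sibp

open Sibp

theorem sibp (fv : FV) (low : LOW) : SIBP := by
  intro S w δ C hS hw
  let T : Srf := ⟨w, gradient w⟩
  have h1 : ∀ x, w x = 0 → ∀ᶠ y in 𝓝 x, ‖gradient w y‖ = 1 := fun x hx =>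
    (hw.continuous.abs.continuousAt.eventually_lt continuousAt_const
      (by simpa [hx] using hS.pos)).mono fun y => hS.norm_grad y
  have h : T.Ok := ⟨hw, P366W.smooth_gradient hw, fun x hx e => by
    simpa [show gradient w x = 0 from e] using (h1 x hx).self_of_nhds,
    fun x hx => (h1 x hx).mono fun y hy => by simp [T, hy]⟩
  have := (low T h).1
  have fin : IsFiniteMeasureOnCompacts T.μ := inferInstance
  refine ⟨fin, fun K X Y v hK hY hr => ?_⟩
  replace hY : ∀ x ∈ T.G, x ∉ K → Y =ᶠ[𝓝 x] fun _ => 0 := fun x hx => hY x ((hS.mem_iff x).2 hx)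
  replace hr := fun x (hx : x ∈ T.G ∩ K) => hr x ⟨(hS.mem_iff x).2 hx.1, hx.2⟩
  have hM : ContDiff ℝ 1 (nu w) := contDiff_pi.2 fun i => Complex.ofRealCLM.contDiff.comp
    ((EuclideanSpace.proj (𝕜 := ℝ) i).contDiff.comp (h.sn.of_le P218R.one_le))
  have sy := fun x => P218R.fderiv_grad_sym (hw.of_le P218R.two_le).contDiffAt (x := x)
  have hc : ∀ x b c, pd (nu w) x b c = pd (nu w) x c b := fun x b c => by
    have e : ∀ b c, pd (nu w) x b c =
        (fderiv ℝ (gradient w) x (EuclideanSpace.single b 1) c : ℝ) := fun b c => by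
      rw [pd_apply (hM.differentiable one_ne_zero x)]
      exact congrArg (· (EuclideanSpace.single b 1)) ((Complex.ofRealCLM ∘L EuclideanSpace.proj c
        ).hasFDerivAt.comp x (h.dn x).hasFDerivAt).fderiv
    simpa [e, EuclideanSpace.inner_single_left, EuclideanSpace.inner_single_right] using
      sy x (EuclideanSpace.single b 1) (EuclideanSpace.single c 1)
  have z1 : ∀ x ∈ T.G, x ∉ K → dt (v x) (kk (pd X x) (pd Y x) (nu w x)) = 0 := fun x hx k => by
    rw [pd_congr (hY x hx k), pd_const, kk_zero']; simp [dt]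
  have z2 : ∀ x ∈ T.G, x ∉ K → dt (Y x) (kk (pd v x) (pd X x) (nu w x)) = 0 := fun x hx k => by
    rw [(hY x hx k).self_of_nhds]; simp [dt]
  have m0 := fun x => (hM.of_le zero_le_one).contDiffAt.contDiffWithinAt (s := univ) (x := x)
  have i1 := int_G h hK (fun x hx => cd_dt ((hr x hx).2.2.of_le zero_le_one).contDiffWithinAt
    (cd_kk (cd_pd (hr x hx).1 (by norm_num)).contDiffWithinAt
      (cd_pd (hr x hx).2.1 (by norm_num)).contDiffWithinAt (m0 x))) z1
  have i2 := int_G h hK (fun x hx => cd_dt ((hr x hx).2.1.of_le zero_le_one).contDiffWithinAt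
    (cd_kk (cd_pd (hr x hx).2.2 (by norm_num)).contDiffWithinAt
      (cd_pd (hr x hx).1 (by norm_num)).contDiffWithinAt (m0 x))) z2
  refine ⟨i1, i2, ?_⟩
  obtain ⟨χ, c1, c2, c3⟩ := cut (hK.inter_left h.closed) fun x hx =>
    fl_cd (hr x hx).1 (hr x hx).2.1 (hr x hx).2.2 hM.contDiffAt
  rw [← sub_eq_zero]
  refine (integral_sub i1 i2).symm.trans (Eq.trans (h.int_congr fun x hx => ?_)
    (sdiv fv h (fun x hx => ext_inner_right ℝ fun u => ?_) c1 c2 fun x => ?_))
  · by_cases k : x ∈ K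
    · rw [pd_congr (f := fun x => χ x • fl X Y v (nu w) x) (g := fl X Y v (nu w))
        ((c3 x ⟨hx, k⟩).mono fun y hy => by simp only [hy, one_smul]),
        fl_div (hr x ⟨hx, k⟩).1 (hr x ⟨hx, k⟩).2.1 (hr x ⟨hx, k⟩).2.2 hM.contDiffAt (hc x)]
    · rw [z1 x hx k, z2 x hx k, pd_congr (g := fun _ => 0) ((hY x hx k).mono fun y hy => by
        funext c; simp [fl, hy, dt]), pd_const]
      simp
  · exact (sy x _ u).trans ((h.n_dn hx u).trans (inner_zero_left u).symm)
  · rw [← Complex.coe_smul, smul_dt]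
    exact mul_eq_zero_of_right _ (fl_tan x)

end Vale.Agent.P218N
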