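import Vale.Agent.P218N.Spec3
import Vale.Agent.P218I.Bt
import Vale.Agent.P218I.AsmA
import Vale.Agent.P218L.Coef
import Vale.Agent.P218L.Lq

/-!
# P218, block NL: smallness on the cylindrical ends
-/

open Set Filter Topology
open scoped ContDiff

noncomputable section

namespace Vale.Agent.P218I

open Vale.Agent.P218T Vale.Agent.P218L Vale.Agent.P218M Vale.Agent.P218W
open Vale.Agent.P218N (Cj rj cx)

namespace Smc

variable {R Z z r e A : ℝ} {c c' l : ℂ}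

theorem dcut : ∃ A, 0 ≤ A ∧ ∀ a z, |deriv (cut a) z| ≤ A := by
  have c : Continuous (deriv (cut 0)) := (cd_cut 0).continuous_deriv (by simp)
  obtain ⟨A, hA⟩ := c.bounded_above_of_compact_support (HasCompactSupport.intro
    (isCompact_Icc (a := 0) (b := 1)) fun x hx => by
      rcases lt_or_ge x 0 with h | h
      · simp [(cut_ev h).deriv_eq]
      · simp [(cut_ev' (a := 0) (z := x) (by simpa [h] using hx)).deriv_eq])
  refine ⟨A, (norm_nonneg _).trans (hA 0), fun a z => ?_⟩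
  rw [show cut a = fun z => cut 0 (z - a) from funext fun z => by simp [cut], deriv_comp_sub_const]
  exact hA _

theorem cj_of {ρ : ℂ} {V : Fin 6 → ℂ} (x0 : 0 < ρ.re) (d : ‖ρ‖ ^ 2 ≤ 6 * ρ.re)
    (h0 : ‖V 0 - ρ‖ ≤ ρ.re / 6) (h1 : ‖V 1‖ ≤ ‖ρ‖ / 3) (h3 : ‖V 3‖ ≤ √ρ.re) : Cj V := by
  have xn : ρ.re ≤ ‖ρ‖ := Complex.re_le_norm _
  have n6 : ‖ρ‖ ≤ 6 := by nlinarith
  have a := abs_le.1 ((Complex.abs_re_le_norm _).trans h0)
  have b := abs_le.1 ((Complex.abs_im_le_norm _).trans h0)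
  have n := abs_le.1 ((abs_norm_sub_norm_le _ _).trans h0)
  have i : |ρ.im| ≤ 3 := by
    rw [Complex.sq_norm, Complex.normSq_apply] at d
    exact abs_le_of_sq_le_sq' (by nlinarith [sq_nonneg (ρ.re - 3)]) (by norm_num) |> abs_le.2
  have i' := abs_le.1 i
  have s := pow_le_pow_left₀ (norm_nonneg _) h3 2
  rw [Real.sq_sqrt x0.le] at s
  simp only [Complex.sub_re, Complex.sub_im] at a b
  exact ⟨by linarith, by linarith, abs_le.2 ⟨by linarith, by linarith⟩, by linarith, by linarith⟩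

theorem l2_apply {s : Set ℝ} {F : ℝ × ℝ → ℂ} {o n : ℝ → ℝ} (h : L2 s F o n r) (hz : z ∈ s)
    (θ : ℝ) : ‖F (z, θ)‖ ≤ r / 2 * (o z + n z) := by
  rw [← p0_add_pn F, mul_add]
  exact (norm_add_le _ _).trans (add_le_add (h.1.apply hz θ) (h.2.apply hz θ))

/-- pointwise bounds from the natural seminorm -/
theorem wts (h : Cyl 1 R Z c) (R1 : 1 ≤ R) {J : XE R Z} (hJ : pN c R Z J ≤ r) (hz : z ∈ Icc R Z)
    (θ : ℝ) : ‖J.1 0 (z, θ)‖ ≤ 2000 * r * (rh c z).re ∧ ‖J.1 1 (z, θ)‖ ≤ 2000 * r * ‖rh c z‖ ∧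
      ‖J.1 3 (z, θ)‖ ≤ 2000 * r * √(rh c z).re := by
  have r0 : 0 ≤ r := (apply_nonneg _ _).trans hJ
  have s : Sa 1 1 R Z 1 c (wK (31 / 16) c) :=
    ⟨h, le_rfl, (adw h R1).1, ((pw_all h le_rfl).1 _).c, one_pos, le_rfl, by simp⟩
  have x := fun i => l2_apply ((s.xw_le r0).1 hJ i) hz θ
  have p := pt_cyl h le_rfl s.adw zero_le_one le_rfl s.ηY hz
  have x0 := x 0
  have x1 := x 1
  have x3 := x 3
  simp only [omW, P218W.om, P218W.nu, ta, Matrix.cons_val, sg_eq, gO_eq h one_pos hz] at x0 x1 x3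
  generalize (rh c z).re = a, ‖rh c z‖ = n, rr c z = ρ, ll c Z z = L, wK (31 / 16) c z = w,
    gW (wK (31 / 16) c) c Z z = G at *
  have a0 := p.x0
  have n0 := p.n0
  have z0 := p.z0
  have b1 : √(w * G / (a / n ^ 2)) ≤ 2000 * n := Real.sqrt_le_iff.2 ⟨by positivity, by
    have ρ0 := p.r0
    have G0 := p.G0
    have L0 := one_pos.trans_le p.l1
    calc _ = n ^ 2 / a * (w * G) := by field_simp
      _ ≤ n ^ 2 / a * (1296 * ρ ^ 14 * a * (1296 * (L * ρ ^ 14))) := by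
        gcongr _ * (?_ * ?_); exacts [p.wx, p.GG]
      _ = 1296 ^ 2 * n ^ 2 * (L * ρ ^ 24 * ρ ^ 4) := by field_simp
      _ ≤ 1296 ^ 2 * n ^ 2 * (2 * 1) := by gcongr; exacts [p.l2, p.rp 4]
      _ ≤ _ := by nlinarith [sq_nonneg n]⟩
  have b3 : hH ρ L / z ≤ 3 * √a := by
    refine abs_le_of_sq_le_sq' ?_ (by positivity) |>.2
    rw [mul_pow, Real.sq_sqrt a0.le, div_pow, div_le_iff₀ (by positivity)]
    nlinarith [mul_le_mul_of_nonneg_right p.HH (mul_pos (pow_pos z0 2) a0).le, p.rt]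
  have a3 := p.a3
  have s0 := Real.sqrt_nonneg a
  simp only [one_mul] at a3
  exact ⟨x0.trans (by nlinarith [mul_le_mul_of_nonneg_left p.a0 r0, mul_nonneg r0 a0.le]),
    x1.trans (by nlinarith [mul_le_mul_of_nonneg_left b1 r0]), x3.trans (by
      nlinarith [mul_le_mul_of_nonneg_left (a3.trans (mul_le_mul_of_nonneg_left b3
        (by norm_num))) r0, mul_nonneg r0 s0])⟩

/-- the change of the opening and the shift -/
theorem shift (hA : ∀ a z, |deriv (cut a) z| ≤ A) (h : Cyl 1600 R Z c) (R1 : 40 ≤ R)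
    (hz : z ∈ Icc R Z) (hc : ‖c' - c‖ ≤ e) (hl : ‖l‖ ≤ e) (he : e * Z ^ 4 ≤ 1)
    (eA : e * A ≤ 1 / 10) : ‖c'‖ * Z ^ 2 ≤ 9 ∧ ‖zt₁ Z l z - 1‖ ≤ 1 / 10 ∧
      ‖zt Z l z ^ 2 - z ^ 2‖ ≤ 1 ∧
      ‖rj c' (zt Z l z) (zt₁ Z l z) (zt₂ Z l z) 0 - rh c z‖ ≤ (rh c z).re / 18 ∧
      ‖rj c' (zt Z l z) (zt₁ Z l z) (zt₂ Z l z) 3‖ ≤ √(rh c z).re / 2 := by
  have e0 := (norm_nonneg _).trans hl
  have z1 : 40 ≤ z := R1.trans hz.1
  have zZ := hz.2
  have Z1 := z1.trans zZ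
  have Z2 : 1600 ≤ Z ^ 2 := by nlinarith
  have x0 := h.re0 (by norm_num) hz
  have tp : 1600 ≤ Z ^ 2 * (rh c z).re := (h.tip z hz).trans (by gcongr)
  have e2 : e * Z ^ 2 ≤ 1 / 1600 := by nlinarith [mul_nonneg e0 (sq_nonneg Z)]
  have e1 : e * Z ≤ 1 / 1600 := by nlinarith [mul_nonneg e0 (show 0 ≤ Z by linarith)]
  have e1' : e ≤ 1 / 1600 := by nlinarith
  have cZ := h.cZ
  have c1 : ‖c‖ ≤ 1 := by nlinarith [norm_nonneg c]
  have t : ‖zt₁ Z l z - 1‖ ≤ 1 / 10 := by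
    simp only [zt₁, add_sub_cancel_left, norm_mul, Complex.norm_real, Real.norm_eq_abs]
    exact (mul_le_mul hl (hA _ _) (abs_nonneg _) e0).trans eA
  have s : ‖zt Z l z - z‖ ≤ e := by
    have := cut_mem (Z - 2) z
    simp only [zt, add_sub_cancel_left, norm_mul, Complex.norm_real, Real.norm_of_nonneg this.1]
    nlinarith [norm_nonneg l]
  have cc : ‖c'‖ * Z ^ 2 ≤ 9 := by
    nlinarith [mul_le_mul_of_nonneg_right ((norm_le_norm_add_norm_sub' c' c).trans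
      (add_le_add le_rfl hc)) (sq_nonneg Z)]
  have nz : ‖(z : ℂ)‖ = z := by simp [abs_of_pos (show 0 < z by linarith)]
  simp only [rj, rh, Matrix.cons_val] at *
  generalize zt Z l z = ζ, zt₁ Z l z = ζ₁ at *
  have n1 : ‖ζ‖ ≤ Z + e := by linarith [norm_le_norm_add_norm_sub' ζ z]
  have n2 : ‖ζ₁‖ ≤ 11 / 10 := by linarith [norm_le_norm_add_norm_sub' ζ₁ 1, norm_one (α := ℂ)]
  have n3 : ‖ζ ^ 2 - z ^ 2‖ ≤ 3 * (e * Z) := by
    rw [sq_sub_sq, norm_mul]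
    nlinarith [mul_le_mul (norm_add_le ζ z) s (norm_nonneg _) (by positivity)]
  have n4 : ‖ζ ^ 2 - 2‖ ≤ 2 * Z ^ 2 := by
    have := norm_sub_le (ζ ^ 2) 2
    rw [norm_pow, Complex.norm_two] at this
    nlinarith [pow_le_pow_left₀ (norm_nonneg _) n1 2]
  refine ⟨cc, t, by linarith, ?_, ?_⟩
  · rw [show 2 + c' * (ζ ^ 2 - 2) - (2 + c * (z ^ 2 - 2)) =
      (c' - c) * (ζ ^ 2 - 2) + c * (ζ ^ 2 - z ^ 2) by ring]
    refine (norm_add_le _ _).trans ?_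
    rw [norm_mul, norm_mul]
    have a := mul_le_mul hc n4 (norm_nonneg _) e0
    have b := mul_le_mul c1 n3 (norm_nonneg _) zero_le_one
    have d : e * Z ≤ e * Z ^ 2 := by gcongr; nlinarith
    have f : 90 * (e * Z ^ 2) ≤ (2 + c * (z ^ 2 - 2)).re :=
      le_of_mul_le_mul_left (by nlinarith) (show 0 < Z ^ 2 by positivity)
    linarith
  · have a : ‖2 * c' * ζ * ζ₁‖ * Z ^ 2 ≤ 20 * Z := by
      simp only [norm_mul, Complex.norm_two]
      nlinarith [mul_le_mul cc (mul_le_mul n1 n2 (norm_nonneg _) (by positivity))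
        (by positivity) (by norm_num)]
    have b : ‖2 * c' * ζ * ζ₁‖ * Z ≤ 20 := le_of_mul_le_mul_right (by nlinarith) (by linarith : 0 < Z)
    rw [le_div_iff₀ two_pos]
    refine Real.le_sqrt_of_sq_le (le_of_mul_le_mul_left ?_ (show 0 < Z ^ 2 by positivity))
    nlinarith [pow_le_pow_left₀ (by positivity) b 2]

theorem norm_cx (v : E3) : ‖cx v‖ ≤ ‖v‖ :=
  (pi_norm_le_iff_of_nonneg (norm_nonneg _)).2 fun i => by
    simpa [cx] using PiLp.norm_apply_le v i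

theorem norm_om (Q : E3 ≃ₗᵢ[ℝ] E3) : ‖P218L.om Q 1‖ ≤ 1 ∧ ‖P218L.om Q 2‖ ≤ 1 :=
  ⟨(norm_cx _).trans (by simp [eR, EuclideanSpace.norm_eq, Fin.sum_univ_three]),
    (norm_cx _).trans (by simp [eT, EuclideanSpace.norm_eq, Fin.sum_univ_three])⟩

variable {M : Mod} {k : ℕ} {G : GD M k}

theorem norm_ro {Z : Fin M.n₁ → ℝ} (U : G.XX Z) (j : Fin M.n₁) : ‖GD.ro U j‖ ≤ 2 * ‖U.2.2‖ := by
  have a := fun i => (norm_le_pi_norm U.2.2.1 i).trans (norm_fst_le U.2.2)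
  refine (norm_add_le _ _).trans ?_
  rw [norm_smul, norm_smul]
  nlinarith [mul_le_mul (a (j, 1)) (norm_om (M.Q j)).1 (norm_nonneg _) (norm_nonneg _),
    mul_le_mul (a (j, 2)) (norm_om (M.Q j)).2 (norm_nonneg _) (norm_nonneg _)]

/-- the parameters in the box -/
theorem box {ι : Type} [Fintype ι] {t : Pm ι} {c : ι → ℂ} {v : ℝ} (h : ‖t - bs c v‖ < e) (j : ι) :
    ‖t.1 j - c j‖ ≤ e ∧ ‖t.2.1 j‖ ≤ e ∧ ‖t.2.2.1 j‖ ≤ e := by
  have a := (norm_snd_le _).trans h.le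
  exact ⟨(norm_le_pi_norm (t - bs c v).1 j).trans ((norm_fst_le _).trans h.le),
    by simpa [bs] using (norm_le_pi_norm (t - bs c v).2.1 j).trans ((norm_fst_le _).trans a),
    by simpa [bs] using (norm_le_pi_norm (t - bs c v).2.2.1 j).trans ((norm_fst_le _).trans
      ((norm_snd_le _).trans a))⟩

/-- the jets of `bt` -/
theorem bt_le {Y K K' z₃ θ t : ℝ} {j : Fin M.n₁} (h : Cyl Y G.z₀ Z c) (hz : z ∈ Icc G.z₀ Z)
    (s : SD (Ici R) (jet (G.bt z₃ j c')) (K + ‖c'‖ * K')) (R1 : 1 ≤ R) (K0 : 0 ≤ K) (K1 : 0 ≤ K')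
    (hR : R + 9 * K + 40 ≤ G.z₀) (z3 : |G.ρ| + 7 ≤ z₃) (hZ : 6 * z₃ + 9 * K' ≤ Z)
    (cc : ‖c'‖ * Z ^ 2 ≤ 9) (i : Fin 6) (t0 : 0 ≤ t) (t1 : 1 ≤ (rh c z).re → 1 ≤ t) :
    ‖jet (G.bt z₃ j c') i (z, θ)‖ ≤ t / 18 := by
  have z7 : 7 ≤ z₃ := by linarith [abs_nonneg G.ρ]
  have z1 : 1 ≤ z := by linarith [hz.1]
  rcases lt_or_ge (2 * z₃) z with k | k
  · rw [bt_zero G j _ (by linarith [le_abs_self G.ρ]) (by linarith) k, norm_zero]
    positivity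
  · have z9 : 9 * z ^ 2 ≤ Z ^ 2 := by nlinarith
    have := t1 (re_rh (by linarith [h.cZ, mul_le_mul_of_nonneg_left z9 (norm_nonneg c)]) z1)
    have b : omH od i z ≤ z⁻¹ := by
      rw [Sdec.omH_eq, ← Real.rpow_neg_one]
      exact (mul_le_of_le_one_right (by positivity) (Sdec.om_le le_rfl i z1)).trans
        (Real.rpow_le_rpow_of_exponent_le z1 (by norm_num))
    have d : ‖c'‖ * K' ≤ 1 := by
      have : 9 * K' ≤ Z ^ 2 := by nlinarith
      linarith [mul_le_mul_of_nonneg_left this (norm_nonneg c')]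
    refine ((s i).apply (show R ≤ z by linarith [hz.1]) θ).trans
      ((mul_le_mul_of_nonneg_left b (by positivity)).trans ?_)
    rw [← div_eq_mul_inv, div_le_iff₀ (by linarith)]
    nlinarith [hz.1]

theorem pw_le {W : ℝ} (Z1 : 10 ≤ Z) (h : W ∈ Icc Z (10 * Z)) (hA : 10 * A ≤ Z) :
    (Z ^ 100)⁻¹ * W ^ 4 ≤ 1 ∧ (Z ^ 100)⁻¹ * A ≤ 1 / 10 ∧ (Z ^ 100)⁻¹ ≤ 1 / 2 := by
  have Z0 : 0 < Z ^ 100 := by positivity
  have Za : Z ≤ Z ^ 100 := le_self_pow₀ (by linarith) (by simp)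
  rw [inv_mul_le_iff₀ Z0, inv_mul_le_iff₀ Z0, inv_le_comm₀ Z0 (by norm_num), mul_one]
  refine ⟨?_, by linarith, by linarith⟩
  calc _ ≤ (Z * Z) ^ 4 := by gcongr; linarith [h.1]; nlinarith [h.2]
    _ = Z ^ 8 := by ring
    _ ≤ _ := pow_le_pow_right₀ (by linarith) (by norm_num)

end Smc

open Smc in
/-- **smallness in the box, cylindrical ends** -/
theorem smc : SMC := fun M g => by
  obtain ⟨R, K, R1, K0, h⟩ := sd_bt eqs (sdec coef) g
  obtain ⟨A, A0, hA⟩ := dcut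
  refine ⟨R + 9 * K + 40, fun k G hz _ => ?_⟩
  obtain ⟨K', K0', h⟩ := h k G
  have z40 : 40 ≤ G.z₀ := by linarith
  filter_upwards [ev_cyl (R := G.z₀) (Y := 1600) (by linarith) (by nlinarith), ev_ad,
    ev_cs (ev₀_z fun _ _ => |G.ρ| + 7), ev_cs (ev₀_r (f := fun _ => 1 / 36000) (by simp)),
    ev_Z fun q _ _ => 6 * q.z₃ + 9 * K' + 10 * A + 10] with p cy ad z3 hr hZ y hy j q hq
  obtain ⟨z, θ⟩ := q
  have c := cy j
  have c1 : Cyl 1 G.z₀ (p.W j) (p.c j) :=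
    ⟨c.R0, c.RZ, c.cZ, fun z hz => le_trans (by norm_num) (c.tip z hz), c.dsc⟩
  have W1 := ad.hW j
  have z7 : 7 ≤ p.z₃ := by linarith [abs_nonneg G.ρ]
  obtain ⟨e1, e2, e3⟩ := pw_le (A := A) (by linarith) W1 (by linarith)
  obtain ⟨b1, b2, b3⟩ := box hy.2 j
  obtain ⟨s0, s1, s2, s3, s4⟩ := shift hA c z40 hq b1 b2 e1 e2
  obtain ⟨j0, j1, j3⟩ := wts c1 (by linarith) (((GD.le_Nn y.1).1 j).trans hy.1.le) hq θ
  have x0 := c.re0 (by norm_num) hq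
  have xn : (rh (p.c j) z).re ≤ ‖rh (p.c j) z‖ := Complex.re_le_norm _
  have bt := fun t => bt_le (θ := θ) (t := t) c hq (h p.z₃ (by linarith) j (y.2.1 j)) R1 K0 K0' hz
    z3 (by linarith [W1.1]) s0
  have q0 := Real.sqrt_nonneg (rh (p.c j) z).re
  have nr : ‖y.1.2.2‖ ≤ p.r := (P218H.le_tri _ y.1).2.2.trans hy.1.le
  refine ⟨cj_of x0 (c.dsc z hq) ?_ ?_ ?_, s1, s2, b3.trans e3,
    (norm_ro _ _).trans (by linarith only [nr, hr.2])⟩
  · rw [GD.Vt, GD.Vj, add_assoc, add_sub_right_comm]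
    refine (norm_add_le _ _).trans ((add_le_add s3 ((norm_add_le _ _).trans
      (add_le_add (bt _ 0 x0.le id) j0))).trans ?_)
    linarith only [mul_le_mul_of_nonneg_right hr.2 x0.le]
  · refine (norm_add_le _ _).trans ((add_le_add ((congrArg norm (zero_add _)).trans_le
      (bt _ 1 (norm_nonneg _) fun h => h.trans xn)) j1).trans ?_)
    linarith only [mul_le_mul_of_nonneg_right hr.2 (x0.le.trans xn), x0, xn]
  · rw [GD.Vt, GD.Vj]
    refine norm_add₃_le.trans ((add_le_add (add_le_add s4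
      (bt _ 3 q0 Real.one_le_sqrt.2)) j3).trans ?_)
    linarith only [mul_le_mul_of_nonneg_right hr.2 q0, q0]

end Vale.Agent.P218I
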