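import Vale.Agent.P218N.Spec3
import Vale.Agent.P218N.Ch
import Vale.Agent.P218N.Bv
import Vale.Agent.P218N.Elp
import Vale.Agent.P218I.RpD

/-! Block NL: the far zone of a cylindrical end. -/

set_option linter.all false

open Set Filter Topology
open scoped ContDiff

noncomputable section

namespace Vale.Agent.P218I

open Vale.Agent.P218T Vale.Agent.P218L GD
open Vale.Agent.P218N (V3 AD Pi' SH jt cx cay dt av rj lk km te Wf Gf fl pd yv chc cyb orth_cay
  hd_cay hd_sqrt hd_smul)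
open Vale.Agent.P218W (jet Jet DD DL)
open Vale.Agent.P218T.Frm (lj lj_z)

namespace Stc

open Rp

theorem two_le : (2 : WithTop ℕ∞) ≤ ∞ := by norm_cast

theorem jet_eq {s : Set ℝ} {u : Fin 6 → ℝ × ℝ → ℂ} (h : Jet s u) {p : ℝ × ℝ}
    (hp : p.1 ∈ interior s) (i : Fin 6) : jet (u 0) i p = u i p := by
  have e : fderiv ℝ (u 0) =ᶠ[𝓝 p] fun q => DL (u 3 q, u 1 q) := by
    filter_upwards [(isOpen_interior.preimage continuous_fst).mem_nhds hp] with q hq
    exact (h.d0 q hq).fderiv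
  have e2 := (DL.hasFDerivAt.comp p ((h.d3 p hp).prodMk (h.d1 p hp))).fderiv
  have e3 : ∀ v w, fderiv ℝ (fderiv ℝ (u 0)) p v w =
      DD (DD (u 5 p) (u 4 p) v) (DD (u 4 p) (u 2 p) v) w := fun v w => by
    rw [e.fderiv_eq]
    exact congrArg (fun L : ℝ × ℝ →L[ℝ] ℝ × ℝ →L[ℝ] ℂ => L v w) e2
  fin_cases i <;> simp [jet, e3, (h.d0 p hp).fderiv]

theorem jet_cont {F : ℝ × ℝ → ℂ} (h : ContDiff ℝ ∞ F) (i : Fin 6) : Continuous (jet F i) := by
  have h1 := h.fderiv_right (m := ∞) le_rfl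
  have h2 := (h1.fderiv_right (m := ∞) le_rfl).continuous
  have h3 := h1.continuous
  fin_cases i
  exacts [h.continuous, h3.clm_apply continuous_const,
    (h2.clm_apply continuous_const).clm_apply continuous_const, h3.clm_apply continuous_const,
    (h2.clm_apply continuous_const).clm_apply continuous_const,
    (h2.clm_apply continuous_const).clm_apply continuous_const]

section zt

variable (Z : ℝ) (l : ℂ)

theorem cd_zt : ContDiff ℝ ∞ (zt Z l) ∧ ContDiff ℝ ∞ (zt₁ Z l) ∧ ContDiff ℝ ∞ (zt₂ Z l) :=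
  have o := Complex.ofRealCLM.contDiff (n := ∞)
  ⟨o.add (contDiff_const.mul (o.comp (cd_cut _))),
    contDiff_const.add (contDiff_const.mul (o.comp (cd_cut1 _))),
    contDiff_const.mul (o.comp (cd_cut2 _))⟩

theorem hd_zt (z : ℝ) : HasDerivAt (zt Z l) (zt₁ Z l z) z := by
  have := (hasDerivAt_id z).ofReal_comp.fun_add
    ((((cd_cut (Z - 2)).differentiable (by simp)) z).hasDerivAt.ofReal_comp.const_mul l)
  exact this.congr_deriv (by simp [zt₁])

theorem hd_zt₁ (z : ℝ) : HasDerivAt (zt₁ Z l) (zt₂ Z l z) z :=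
  ((((cd_cut1 (Z - 2)).differentiable (by simp)) z).hasDerivAt.ofReal_comp.const_mul l).const_add 1

/-- the jet of the reference profile -/
theorem jet_rj (c : ℂ) (i : Fin 6) (y : ℝ × ℝ) :
    jet (fun q : ℝ × ℝ => 2 + c * (zt Z l q.1 ^ 2 - 2)) i y =
      rj c (zt Z l y.1) (zt₁ Z l y.1) (zt₂ Z l y.1) i := by
  have d : ∀ z, HasDerivAt (fun z => 2 + c * (zt Z l z ^ 2 - 2)) (2 * c * zt Z l z * zt₁ Z l z) z :=
    fun z => (((((hd_zt Z l z).fun_pow 2).sub_const 2).const_mul c).const_add 2).congr_deriv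
      (by push_cast; ring)
  have d' := ((hd_zt Z l y.1).const_mul (2 * c)).fun_mul (hd_zt₁ Z l y.1)
  rw [(lj_z (.of_forall d) d').jet]
  fin_cases i <;> simp [rj]
  ring

end zt

variable {M : Mod} {k : ℕ} {G : GD M k} {Z : Fin M.n₁ → ℝ} {j : Fin M.n₁} {p : ℝ × ℝ} {z₃ : ℝ}

theorem cd_bt (g : M.Geo) (G : GD M k) (z₃ : ℝ) (j : Fin M.n₁) (c : ℂ) :
    ContDiff ℝ ∞ (G.bt z₃ j c) := by
  have := g.cd_VS j
  have h := Complex.ofRealCLM.contDiff (n := ∞)
  exact ((h.comp (contDiff_const.sub ((cd_cut 1).comp (contDiff_fst.div_const z₃)))).mul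
    (this.sub contDiff_const)).sub ((h.comp (contDiff_const.sub ((cd_cut _).comp contDiff_fst))).mul
      (contDiff_const.mul (((h.comp contDiff_fst).pow 2).sub contDiff_const)))

theorem cont_Vt (g : M.Geo) (y : G.XX Z × Pm (Fin M.n₁)) (i : Fin 6) :
    Continuous fun p => Vt z₃ y j p i := by
  obtain ⟨a, b, c⟩ := cd_zt (Z j) (y.2.2.1 j)
  have a := a.continuous
  have b := b.continuous
  have c := c.continuous
  refine (Continuous.add ?_ (jet_cont (cd_bt g G z₃ j _) i)).add (P218W.W.cont _)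
  fin_cases i <;> simp only [rj, Matrix.cons_val, Fin.zero_eta, Fin.mk_one, Fin.reduceFinMk] <;>
    fun_prop

/-- the squared radius is `C²` and `Vt` is its jet -/
theorem jet_Vt (g : M.Geo) (y : G.XX Z × Pm (Fin M.n₁)) (hp : p.1 ∈ Ioo G.z₀ (Z j)) :
    ContDiffAt ℝ 2 (fun p => Vt z₃ y j p 0) p ∧
      ∀ i, jet (fun p => Vt z₃ y j p 0) i p = Vt z₃ y j p i := by
  have hi : p.1 ∈ interior (Icc G.z₀ (Z j)) := by rwa [interior_Icc]
  have J := (y.1.2.1.1 j).2.1
  have c1 : ContDiffAt ℝ 2 (fun q : ℝ × ℝ => 2 + y.2.1 j * (zt (Z j) (y.2.2.1 j) q.1 ^ 2 - 2)) p :=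
    (contDiff_const.add (contDiff_const.mul ((((cd_zt _ _).1.comp contDiff_fst).pow 2).sub
      contDiff_const))).contDiffAt.of_le two_le
  have c2 := (cd_bt g G z₃ j (y.2.1 j)).contDiffAt.of_le two_le (x := p)
  have c3 := (J.contDiffAt (fun i => (P218W.W.cont _).continuousOn) hi).1
  refine ⟨(c1.add c2).add c3, fun i => ?_⟩
  exact (jet_add (c1.add c2) c3 i).trans (congrArg₂ (· + ·)
    ((jet_add c1 c2 i).trans (congrArg (· + _) (jet_rj _ _ _ i p))) (jet_eq J hi i))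

theorem cay_ne {u : V3} (h : ‖u‖ ≤ 1) : 4 + dt u u ≠ 0 := by
  have b := fun i => mul_le_one₀ ((norm_le_pi_norm u i).trans h) (norm_nonneg (u i))
    ((norm_le_pi_norm u i).trans h)
  rw [Ne, add_eq_zero_iff_eq_neg]
  intro n
  have := (congrArg norm n).trans_le ((norm_neg _).trans_le ((norm_add_le _ _).trans
    (add_le_add (norm_add_le _ _) le_rfl)))
  simp only [norm_mul, Complex.norm_ofNat] at this
  linarith [b 0, b 1, b 2]

section

variable (o : G.Ok) (hp : G.ρ + 4 < p.1)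
include o hp

theorem far_ov' (t : Pi' (Fin M.n₁) (Fin k)) : (G.ad Z).ov (M.P (.inl j) p) t =
    t.1 (j, 1) • om (M.Q j) 1 + t.1 (j, 2) • om (M.Q j) 2 := by
  simp [AD.ov, ad, fun i => (far_rot (j := j) o hp i).self_of_nhds, apply_ite Complex.ofReal,
    Finset.sum_add_distrib]

/-- the ansatz at a point of the end, for all heights and parameters -/
theorem far_XX (a : ℂ) (t : Pi' (Fin M.n₁) (Fin k)) : (G.ad Z).XX (M.P (.inl j) p, a, t) =
    cay (t.1 (j, 1) • om (M.Q j) 1 + t.1 (j, 2) • om (M.Q j) 2) (FQ (M.Q j) p.2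
      ![Complex.sqrt (VS (M.f j) p + a / q M (.inl j) p), 0, zt (Z j) (t.2.2.1 j) p.1]) := by
  have l := far_lo o hp
  have g := o.ld.geo
  rw [AD.XX, far_ov' o hp, AD.X0, (far_a o hp).self_of_nhds,
    Finset.sum_eq_single j (fun i _ n => by
      simp [ad, (far_lam o hp (.inl i) (.inl j)).self_of_nhds, n]) (by simp),
    Finset.sum_eq_single j (fun i _ n => by
      simp [ad, (g.lift_other (e := .inl i) (e' := .inl j) (by simpa using n) l).self_of_nhds])
      (by simp)]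
  simp only [ad, (far_lam o hp (.inl j) (.inl j)).self_of_nhds, g.lift_P (per_r o).1 l,
    g.lift_P (per_r o).2 l, g.lift_P (per_z (cut (Z j - 2))) l, g.lift_P (g.per_VS j _) l,
    g.lift_P ((g.per_qn (.inl j)).comp Complex.ofReal) l]
  rw [show cx (M.P (.inl j) p) = _ from (cylj _).2.1 _ _]
  congr 1
  simp only [FQ, P218N.fr, zt, Matrix.cons_val, if_true]
  push_cast
  module

theorem far_fd (y y' : G.XX Z × Pm (Fin M.n₁)) : fd y y' (M.P (.inl j) p) =
    q M (.inl j) p * ((y'.1.2.1.1 j).1 0 p + Vd y y' j p.1) := by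
  have l := far_lo o hp
  have g := o.ld.geo
  have e : we y'.1 (M.P (.inl j) p) = _ := Finset.sum_eq_single (s := Finset.univ) (.inl j)
    (fun e _ n => (g.lift_other (F := fun p => q M e p * LD.jx y'.1.2.1 e 0 p) n l).self_of_nhds)
    (by simp)
  rw [fd, uu, e, Finset.sum_eq_single j (fun i _ n => (g.lift_other (e := .inl i) (e' := .inl j)
    (by simpa using n) l).self_of_nhds) (by simp), g.lift_P (fun z θ h => by
      simp only [g.per_qn _ z θ h, LD.jx, P218W.W.per]) l,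
    g.lift_P (fun z θ h => by simp only [g.per_qn _ z θ h]) l]
  simp only [LD.core, (far_st o hp (.inl j) (a := G.ρ + 1) (by norm_num)).self_of_nhds,
    (far_st o hp (.inl j) (a := G.ρ + 3) (by norm_num)).self_of_nhds, sub_self, zero_smul, one_smul,
    zero_add, LD.jx]
  ring

theorem far_ze (l : Fin M.n₁) : (G.ad Z).ze l (M.P (.inl j) p) = if l = j then 1 else 0 :=
  (far_lam o hp (.inl l) (.inl j)).self_of_nhds.trans (by simp)

theorem far_sum (ε : Fin M.n₁ → ℂ) (F : Fin M.n₁ → ℂ) :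
    ∑ l, ε l * ((G.ad Z).ze l (M.P (.inl j) p) * F l) = ε j * F j := by
  rw [Finset.sum_eq_single j (fun i _ n => by simp [far_ze o hp, n]) (by simp)]
  simp [far_ze o hp]

end

end Stc

open Stc Rp

theorem stc (adn : ADN) : STC := fun M g => by
  obtain ⟨z₁, h⟩ := adn M g
  refine ⟨z₁, fun k G hz o Z z₃ hZ h3 m y j => ⟨fun i => (cont_Vt g y i).continuousOn,
    fun p hp hp' sm => ?_⟩⟩
  have l := far_lo o hp
  have far := ((h k G hz o Z z₃ hZ h3).2 _ (g.mem (.inl j) p l)).2.2.1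
    (by linarith [((g.cht (.inl j)).rad p l).1]) m y
  obtain ⟨cV, jV⟩ := jet_Vt (z₃ := z₃) g y (j := j) (p := p) ⟨by linarith [o.ld.hi], hp'⟩
  have jV' : (fun i => jet (fun p => Vt z₃ y j p 0) i p) = Vt z₃ y j p := funext jV
  have sl : Vt z₃ y j p 0 ∈ Complex.slitPlane := .inl sm.cj.re
  have eX : ∀ᶠ p' in 𝓝 p, Xs z₃ m y (M.P (.inl j) p') = cay (ro y.1 j) (FQ (M.Q j) p'.2
      ![Complex.sqrt (Vt z₃ y j p' 0), 0, zt (Z j) (y.2.2.1 j) p'.1]) :=
    (ev_ht hp).mono fun p' h' => far_X o h' m y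
  have cn := cay_ne sm.ro
  have r0 := far_rg (z₃ := z₃) (j := j) o hp m ((y.1.1, y.1.2.1, 0, y.1.2.2.2), y.2) (by simp) sl
  have rg : (G.ad Z).Rg (M.P (.inl j) p) (ft z₃ y (M.P (.inl j) p)) (par m y) :=
    ⟨r0.w, r0.a, r0.lam, r0.rot, r0.sh, r0.ze, r0.cyl, by rw [far_ov' o hp]; exact cn⟩
  have cf : ContDiffAt ℝ 2 (ft z₃ y) (M.P (.inl j) p) :=
    (g.lift_cd (far_per o hp y) l two_le (((cd_ofReal (g.cd_qn _ l)).of_le two_le).mul
      (cV.sub ((g.cd_VS j).contDiffAt.of_le two_le)))).congr_of_eventuallyEq (far_ft o hp y)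
  have df := cf.differentiableAt two_ne_zero
  have hS : SH (G.ad Z).XX (M.P (.inl j) p, ft z₃ y (M.P (.inl j) p), par m y) := rg.XX
  have cX : ContDiffAt ℝ 2 (Xs z₃ m y) (M.P (.inl j) p) := SH.cd (φ := ft z₃ y) (n := 2) hS cf
  obtain ⟨b1, -, b3, -, b5, -⟩ := cyb _ p.1 (m j) _ _ _ sm.cj sm.z1 sm.z2 sm.ep
  obtain ⟨c1, c2, c3, c4, c5⟩ := chc M g j p l (Xs z₃ m y) (cay (ro y.1 j)) (fun p => Vt z₃ y j p 0)
    (zt (Z j) (y.2.2.1 j)) (zt₁ (Z j) (y.2.2.1 j)) _ cX (orth_cay cn) cV sl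
    (.of_forall (hd_zt _ _)) ((cd_zt _ _).2.1.contDiffAt.of_le (by norm_cast)) (hd_zt₁ _ _ _)
    (jV' ▸ b1) eX
  rw [jV'] at c3 c4 c5
  have c1' : dt ((G.ad Z).XX (M.P (.inl j) p, jt (ft z₃ y) (M.P (.inl j) p) none none, par m y))
      ((G.ad Z).XX (M.P (.inl j) p, jt (ft z₃ y) (M.P (.inl j) p) none none, par m y)) = _ := c1
  have gw : ∀ s, (G.ad Z).gw (M.P (.inl j) p) (par m y) s = 1 + y.2.2.2.1 j * lk (km (m j)) s :=
    fun s => by rw [AD.gw, far_sum o hp]; rfl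
  have gd : (G.ad Z).Gd (M.P (.inl j) p) (jt (ft z₃ y) (M.P (.inl j) p)) (par m y) := by
    refine ⟨rg, ⟨fun i => ?_, ?_⟩, (SH.pd (φ := ft z₃ y) hS df) ▸ c2⟩
    · rcases eq_or_ne i j with rfl | n
      · exact .inr (c1' ▸ b3)
      · exact .inl ((far_lam o hp (.inl i) (.inl j)).trans (by simp [n]))
    · rw [gw, c1']
      exact b5
  have wj := (congrArg (· * (M.JS (.inl j) p : ℂ)) (gd.Wj df)).trans c3
  refine ⟨cV, jV, eX, gd, ?_, ?_, ?_, fun i n => ?_, fun y' => ?_⟩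
  · rw [Ee, gd.E_far cf far.1 far.2, c1, AD.th, gw, far_sum o hp]
    refine (congrArg (· / 2) (c4 (y.2.2.2.1 j) (km (m j)))).trans ?_
    simp only [Ec, kp, Mod.kn]
    push_cast
    ring
  · rw [Ii, AD.If, c1', AD.Om, gw, mul_assoc, wj, Oc]
  · rw [Io, AD.IO]
    simp only [c1', far_ze o hp, if_true]
    rw [mul_assoc, wj]
    simp [par]
  · rw [Io, AD.IO]
    simp [far_ze o hp, n]
  · have n := Complex.ofReal_ne_zero.2 (g.qn_ne (.inl j) l)
    have e0 : VS (M.f j) p + ft z₃ y (M.P (.inl j) p) / q M (.inl j) p = Vt z₃ y j p 0 := by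
      rw [(far_ft o hp y).self_of_nhds, g.lift_P (far_per o hp y) l]
      field_simp
      ring
    have h1 := hS.hd (hd_line (ft z₃ y (M.P (.inl j) p)) (fd y y' (M.P (.inl j) p)))
      (hd_line (par m y) (pad y')) (by simp) (by simp)
    simp only [far_XX o hp] at h1
    have h2 : HasDerivAt (fun s : ℂ => (par m y + s • pad y').1 (j, 1) • om (M.Q j) 1 +
        (par m y + s • pad y').1 (j, 2) • om (M.Q j) 2) (ro y'.1 j) 0 :=
      ((hd_line (y.1.2.2.1 (j, 1)) (y'.1.2.2.1 (j, 1))).smul_const _).fun_add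
        ((hd_line (y.1.2.2.1 (j, 2)) (y'.1.2.2.1 (j, 2))).smul_const _)
    have h3 := (hd_sqrt sl).comp_of_eq (0 : ℂ) (((hd_line (ft z₃ y (M.P (.inl j) p))
      (fd y y' (M.P (.inl j) p))).div_const (q M (.inl j) p : ℂ)).const_add (VS (M.f j) p))
      (by simp [e0])
    have h4 := ((hd_line (y.2.2.1 j) (y'.2.2.1 j)).mul_const (cut (Z j - 2) p.1 : ℂ)).const_add
      (p.1 : ℂ)
    have h5 : HasDerivAt (fun s : ℂ => FQ (M.Q j) p.2 ![Complex.sqrt (VS (M.f j) p +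
        (ft z₃ y (M.P (.inl j) p) + s • fd y y' (M.P (.inl j) p)) / q M (.inl j) p), 0,
        zt (Z j) ((par m y + s • pad y').2.2.1 j) p.1]) (FQ (M.Q j) p.2
        ![((y'.1.2.1.1 j).1 0 p + Vd y y' j p.1) / (2 * Complex.sqrt (Vt z₃ y j p 0)), 0,
          y'.2.2.1 j * cut (Z j - 2) p.1]) 0 := by
      refine (((h3.smul_const (cx (eR (M.Q j) p.2))).add_const ((0 : ℂ) • cx (eT (M.Q j) p.2))
        ).fun_add (h4.smul_const (cx (axis (M.Q j))))).congr_deriv ?_
      simp only [FQ, P218N.fr, Matrix.cons_val, zero_smul, add_zero, far_fd o hp]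
      congr 2
      field_simp
    have h6 := h1.unique (hd_cay h2 h5 (by simp only [zero_smul, add_zero]; exact cn))
    simp only [zero_smul, add_zero, e0] at h6
    refine (c5 _ (Ys z₃ m y y') _ _ _ h6).trans ?_
    rw [c1, AD.Om, gw, Oc]
    rfl

end Vale.Agent.P218I
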