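import Vale.Agent.P218N.Spec3
import Vale.Agent.P218N.Ch
import Vale.Agent.P218N.Elp
import Vale.Agent.P218I.RpD

/-! Block NL: the far zone of a conical end. -/

open Set Filter Topology
open scoped ContDiff Real

noncomputable section

namespace Vale.Agent.P218I

open Vale.Agent.P218T Vale.Agent.P218L GD
open Vale.Agent.P218N (V3 AD SH jt cx cay dt dF dT yv kD pd cay_zero chk)
open Vale.Agent.P218W (jet wj omK)

namespace Stk

open Rp

variable {M : Mod} {k : ℕ} {G : GD M k} {Z : Fin M.n₁ → ℝ} {l : Fin M.n₂} {p : ℝ × ℝ} {z₃ : ℝ}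

/-- the normalised total jet -/
theorem jk_ut (U : G.XX Z) (hp : G.z₀ ≤ p.1) : jk p.1 (ut U l p) =
    jk p.1 (fun i => jet (uS (M.g l)) i p) + fun i => (U.2.1.2 l).1 i p := by
  have z : (p.1 : ℂ) ≠ 0 := by exact_mod_cast (G.hz.trans_le hp).ne'
  have e := (U.2.1.2 l).2.2.1 p.1 hp p.2
  funext i
  fin_cases i <;> simp [jk, ut, LD.jx, wj, omK, e] <;> field_simp
  ring

section

variable (o : G.Ok) (hp : G.ρ + 4 < p.1)
include o hp

theorem oth {V : Type*} [NormedAddCommGroup V] (j : Fin M.n₁) (F : ℝ × ℝ → V) :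
    M.lift (.inl j) F =ᶠ[𝓝 (M.P (.inr l) p)] fun _ => 0 :=
  o.ld.geo.lift_other (by simp) (far_lo o hp)

theorem lam0 (j : Fin M.n₁) : G.lam (.inl j) =ᶠ[𝓝 (M.P (.inr l) p)] fun _ => 0 := by
  simpa using far_lam o hp (.inl j) (.inr l)

theorem rot0 (j : Fin M.n₁) : G.rot j =ᶠ[𝓝 (M.P (.inr l) p)] fun _ => 0 :=
  (oth o hp j fun _ => (1 : ℝ)).mono fun x h => by simp [LD.rot, h]

theorem a_eq : (G.ad Z).a =ᶠ[𝓝 (M.P (.inr l) p)]
    M.lift (.inr l) fun y => ((q M (.inr l) y : ℂ))⁻¹ • cx (M.n l y.2) := by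
  filter_upwards [eventually_all.2 fun e => far_lam o hp e (.inr l)] with x a
  simp [ad, a, apply_ite Complex.ofReal]

omit hp in
theorem per_a : Per M.R fun y => ((q M (.inr l) y : ℂ))⁻¹ • cx (M.n l y.2) := fun z θ h => by
  simp only [o.ld.geo.per_qn _ z θ h, (o.ld.geo.link l).per_n]

theorem a_P : (G.ad Z).a (M.P (.inr l) p) = ((q M (.inr l) p : ℂ))⁻¹ • cx (M.n l p.2) := by
  rw [(a_eq o hp).self_of_nhds, o.ld.geo.lift_P (per_a o) (far_lo o hp)]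

theorem uu_eq (U : G.XX Z) : uu U =ᶠ[𝓝 (M.P (.inr l) p)] we U := by
  filter_upwards [far_st o hp (.inr l) (a := G.ρ + 1) (by norm_num),
    far_st o hp (.inr l) (a := G.ρ + 3) (by norm_num)] with x a b
  simp only [uu, LD.core, a, b, sub_self, zero_smul, one_smul, zero_add]

theorem ft_eq (y : G.XX Z × Pm (Fin M.n₁)) : ft z₃ y =ᶠ[𝓝 (M.P (.inr l) p)] we y.1 := by
  filter_upwards [uu_eq o hp y.1, eventually_all.2 fun j => oth o hp j fun p =>
    (q M (.inl j) p : ℂ) * (G.Vj z₃ j (Z j) (y.2.1 j) (y.2.2.1 j) 0 p - VS (M.f j) p)] with x a b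
  simp only [ft, a, b, Finset.sum_const_zero, add_zero]

theorem fd_eq (y y' : G.XX Z × Pm (Fin M.n₁)) :
    fd y y' (M.P (.inr l) p) = we y'.1 (M.P (.inr l) p) := by
  rw [fd, (uu_eq o hp y'.1).self_of_nhds,
    Finset.sum_eq_zero fun j _ => (oth o hp j _).self_of_nhds, add_zero]

theorem we_P (U : G.XX Z) :
    we U (M.P (.inr l) p) = q M (.inr l) p * LD.jx U.2.1 (.inr l) 0 p := by
  have h := far_lo o hp
  refine (Finset.sum_eq_single (s := Finset.univ) (.inr l) (fun e _ n =>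
    (o.ld.geo.lift_other n h).self_of_nhds) (by simp)).trans (o.ld.geo.lift_P (fun z θ h => ?_) h)
  simp only [o.ld.geo.per_qn _ z θ h, LD.jx, wj, P218W.W.per]

theorem sh0 (j : Fin M.n₁) : (G.ad Z).sh j =ᶠ[𝓝 (M.P (.inr l) p)] fun _ => 0 :=
  oth o hp j fun y => cut (Z j - 2) y.1

theorem rs0 (j : Fin M.n₁) :
    (G.ad Z).rot j (M.P (.inr l) p) = 0 ∧ (G.ad Z).sh j (M.P (.inr l) p) = 0 :=
  ⟨(rot0 o hp j).self_of_nhds, (sh0 o hp j).self_of_nhds⟩

theorem XX_eq (s : ℂ) (t) : (G.ad Z).XX (M.P (.inr l) p, s, t) =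
    cx (M.P (.inr l) p) + s • (G.ad Z).a (M.P (.inr l) p) := by
  have e : ∀ j, (G.ad Z).lam j (M.P (.inr l) p) = 0 := fun j => (lam0 o hp j).self_of_nhds
  simp only [AD.XX, AD.ov_zero _ _ fun j => .inl (rs0 o hp j).1, cay_zero, AD.X0, e, (rs0 o hp _).2,
    Complex.ofReal_zero, mul_zero, zero_mul, zero_smul, Finset.sum_const_zero, add_zero]

theorem rg (s : ℂ) (t) : (G.ad Z).Rg (M.P (.inr l) p) s t := by
  have g := o.ld.geo
  have h := far_lo o hp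
  refine ⟨g.smw.contDiffAt, (g.lift_cd (per_a o) h le_rfl ?_).congr_of_eventuallyEq (a_eq o hp),
    fun j => contDiffAt_const.congr_of_eventuallyEq (lam0 o hp j),
    fun j => contDiffAt_const.congr_of_eventuallyEq (rot0 o hp j),
    fun j => contDiffAt_const.congr_of_eventuallyEq (sh0 o hp j),
    fun j => contDiffAt_const.congr_of_eventuallyEq (lam0 o hp j), fun j => .inl (lam0 o hp j),
    by simp [AD.ov_zero _ _ fun j => .inl (rs0 o hp j).1, dt]⟩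
  exact contDiffWithinAt_univ.1 (P218N.cd_smul ((cd_ofReal (g.cd_qn _ h)).inv
    (Complex.ofReal_ne_zero.2 (g.qn_ne _ h))).contDiffWithinAt
    (cd_cxv ((g.link l).smooth_n.contDiffAt.comp p contDiffAt_snd)).contDiffWithinAt)

theorem dF_eq (s : ℂ) (t) :
    dF (G.ad Z).XX (M.P (.inr l) p, s, t) = (G.ad Z).a (M.P (.inr l) p) := by
  have := (rg (Z := Z) (l := l) o hp s t).XX.hd (hasDerivAt_id s) (hasDerivAt_const s t) rfl rfl
  simp only [XX_eq o hp, (rg o hp s t).dT_zero (rs0 o hp), one_smul, add_zero] at this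
  simpa using this.unique (((hasDerivAt_id s).smul_const _).const_add _)

theorem ze0 (j : Fin M.n₁) : (G.ad Z).ze j (M.P (.inr l) p) = 0 := (lam0 o hp j).self_of_nhds

theorem gw1 (t s) : (G.ad Z).gw (M.P (.inr l) p) t s = 1 := by simp [AD.gw, ze0 o hp]

theorem FK_n (u : ℂ) : (q M (.inr l) p * u) • (G.ad Z).a (M.P (.inr l) p) =
    FK (M.γ l) (M.n l) p.2 ![0, 0, u] := by
  have n := Complex.ofReal_ne_zero.2 (o.ld.geo.qn_ne (.inr l) (far_lo o hp))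
  rw [a_P o hp, smul_smul, mul_right_comm, mul_inv_cancel₀ n, one_mul]
  simp [FK, P218N.fr]

/-- **the ansatz in the chart** -/
theorem X_eq (m) (y : G.XX Z × Pm (Fin M.n₁)) : Xs z₃ m y (M.P (.inr l) p) =
    FK (M.γ l) (M.n l) p.2 ![(p.1 : ℂ), 0, ut y.1 l p 0] := by
  have g := o.ld.geo
  rw [Xs, AD.Xm, XX_eq o hp, (ft_eq o hp y).self_of_nhds, we_P o hp, FK_n o hp,
    show cx (M.P (.inr l) p) = _ from (conj' _ _ (g.link l)).2.2.2.2.2.2.1 _ _
      (one_pos.trans (g.pos (far_lo o hp))), ← (g.orthK l p.2).add]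
  simp [ut, jet]

end

theorem kD_near {l : ℝ} {κ a b c : ℂ} (h0 : ‖κ * a‖ ≤ 1 / 10) (h1 : ‖b‖ ≤ l / 10)
    (h3 : ‖c‖ ≤ 1 / 10) : ‖kD (l : ℂ) κ a b c - l ^ 2‖ ≤ l ^ 2 / 2 := by
  have e : kD (l : ℂ) κ a b c - l ^ 2 =
      l ^ 2 * (κ * a * (κ * a - 2) * (1 + c ^ 2) + c ^ 2) + b ^ 2 := by unfold kD; ring
  have c2 : ‖c ^ 2‖ ≤ 1 / 100 := by rw [norm_pow]; nlinarith [norm_nonneg c]
  have n1 : ‖κ * a - 2‖ ≤ 21 / 10 := (norm_sub_le _ _).trans (by rw [Complex.norm_two]; linarith)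
  have n2 : ‖1 + c ^ 2‖ ≤ 101 / 100 := (norm_add_le _ _).trans (by rw [norm_one]; linarith)
  have n3 : ‖κ * a * (κ * a - 2) * (1 + c ^ 2) + c ^ 2‖ ≤ 1 / 10 * (21 / 10) * (101 / 100) + 1 / 100 :=
    (norm_add_le _ _).trans (add_le_add (norm_mul_le_of_le (norm_mul_le_of_le h0 n1) n2) c2)
  rw [e]
  refine (norm_add_le _ _).trans ?_
  rw [norm_mul, norm_pow, norm_pow, Complex.norm_real, Real.norm_eq_abs, sq_abs]
  nlinarith [mul_le_mul_of_nonneg_left n3 (sq_nonneg l), pow_le_pow_left₀ (norm_nonneg b) h1 2,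
    sq_nonneg l]

end Stk

open Stk Rp in
theorem stk (adn : ADN) (evj : EVJ) (_ : JTH) : STK := by
  intro M g
  obtain ⟨z₁, h₁⟩ := adn M g
  obtain ⟨z₂, h₂⟩ := evj M g
  refine ⟨max z₁ z₂, fun k G hz o Z z₃ hZ h3 m y l p hp s => ?_⟩
  obtain ⟨-, A⟩ := h₁ k G ((le_max_left _ _).trans hz) o Z z₃ hZ h3
  obtain ⟨_, -, E⟩ := h₂ k G ((le_max_right _ _).trans hz) o
  have h := far_lo o hp
  have z0 : G.z₀ < p.1 := by linarith [o.ld.hi]
  obtain ⟨-, c1, j1, -, c2, -⟩ := ((E Z hZ).2 y.1).2.1 (.inr l) p z0 (by simp)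
  have far := (A _ (g.mem (.inr l) p h)).2.2.1 (by linarith [((g.cht (.inr l)).rad p h).1]) m y
  have cf : ContDiffAt ℝ 2 (ft z₃ y) (M.P (.inr l) p) := c2.congr_of_eventuallyEq (ft_eq o hp y)
  have df := cf.differentiableAt (by norm_num)
  have R := rg (Z := Z) (l := l) o hp (ft z₃ y (M.P (.inr l) p)) (par m y)
  have ev : ∀ᶠ p' in 𝓝 p, Xs z₃ m y (M.P (.inr l) p') =
      FK (M.γ l) (M.n l) p'.2 ![(p'.1 : ℂ), 0, ut y.1 l p' 0] :=
    (ev_ht hp).mono fun p' hp' => X_eq o hp' m y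
  have cu : ContDiffAt ℝ 2 (uS (M.g l)) p := (g.cd_uS h).of_le (by norm_cast)
  have ju : ∀ i, jet (fun p' => ut y.1 l p' 0) i p = ut y.1 l p i := fun i =>
    (jet_add cu c1 i).trans (by rw [j1, ut])
  have sp := g.spd_pos l
  obtain ⟨k1, k2, k3, k4, k5⟩ := chk M g l p h (Xs z₃ m y) (fun p' => ut y.1 l p' 0) (gk y.1 l p)
    (R.XX.cd (n := 2) cf) (cu.add c1) (by rw [ju, ju, gk])
    (.inl (lt_of_lt_of_le (by positivity) s.lo)) ev
  have gd : (G.ad Z).Gd (M.P (.inr l) p) (jt (ft z₃ y) (M.P (.inr l) p)) (par m y) :=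
    ⟨R, ⟨fun j => .inl (lam0 o hp j), by rw [gw1 o hp]; exact one_ne_zero⟩, R.XX.pd df ▸ k2⟩
  refine ⟨ev, gd, ?_, ?_, fun j => by simp [Io, AD.IO, ze0 o hp], fun y' => ?_⟩
  · have t : ∀ s, (G.ad Z).th (M.P (.inr l) p) (par m y) s = 1 := fun s => by
      simp [AD.th, ze0 o hp]
    have n : (spd (M.γ l) : ℂ) ≠ 0 := by exact_mod_cast sp.ne'
    rw [Ee, gd.E_far cf far.1 far.2, t, show (G.ad Z).w = M.w from rfl, k4, funext ju,
      jk_ut y.1 z0.le, Ek]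
    simp only [kp, Mod.kn]
    push_cast
    field_simp
  · rw [Ii, AD.If, gd.Wj df, mul_assoc, show (G.ad Z).w = M.w from rfl, k3, AD.Om,
      gw1 o hp, mul_one]
    exact congrArg (fun s => Complex.exp (-s / 4) * _) k1
  · refine (k5 _ _ (LD.jx y'.1.2.1 (.inr l) 0 p) ?_).trans ?_
    · rw [Ys, yv, dF_eq o hp, R.dT_zero (rs0 o hp), add_zero, fd_eq o hp, we_P o hp, FK_n o hp]
    · rw [k1, AD.Om, gw1 o hp, mul_one, ju]

theorem smk : SMK := by
  intro M g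
  have hK : ∀ l, ∃ K, ∀ θ, ‖kap (M.γ l) (M.n l) θ‖ ≤ K := fun l => by
    obtain ⟨-, -, s, pr, -⟩ := conj' _ _ (g.link l)
    obtain ⟨K, hK⟩ := (Function.Periodic.isBounded_of_continuous pr (by positivity)
      s.continuous).exists_norm_le
    exact ⟨K, fun θ => hK _ ⟨θ, rfl⟩⟩
  choose K hK using hK
  have t : ∀ a b : ℝ, 0 < b → ∀ᶠ η in 𝓝[>] (0 : ℝ), a * η ≤ b := fun a b hb =>
    mem_nhdsWithin_of_mem_nhds ((Continuous.tendsto' (f := fun η : ℝ => a * η) (by fun_prop) 0 0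
      (by simp)).eventually (ge_mem_nhds hb))
  obtain ⟨η, η0, η1, η2⟩ := ((eventually_mem_nhdsWithin (a := (0 : ℝ)) (s := Ioi 0)).and
    ((t 1 (1 / 10) (by norm_num)).and (eventually_all.2 fun l => (t (K l) (1 / 10) (by norm_num)).and
      (t 1 (spd (M.γ l) / 10) (by have := g.spd_pos l; positivity))))).exists
  choose R R0 hR using fun l =>
    (conw conj' _ _ _ (g.link l) (g.ended.cone l)).2.1 η η0
  refine ⟨∑ l, R l, fun k G hz _ => ⟨η, η0, fun Z U l q hU hq => ?_⟩⟩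
  have q0 : 0 < q.1 := G.hz.trans_le hq
  have b : ∀ i : Fin 6, ‖jk q.1 (ut U l q) i.castSucc‖ ≤ η := fun i => by
    have h1 := (hR l i).apply (((Finset.single_le_sum (fun l _ => (R0 l).le)
      (Finset.mem_univ l)).trans hz).trans hq) q.2
    have h2 := (((U.2.1.2 l).1 i.castSucc).apply_le q).trans (div_le_div_of_nonneg_right
      ((norm_le_pi_norm _ _).trans hU.le) zero_le_two)
    rw [Stk.jk_ut U hq]
    exact (norm_add_le _ _).trans ((add_le_add h1 h2).trans_eq (by ring))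
  have b0 : ‖ut U l q 0 / q.1‖ ≤ η := b 0
  have b1 : ‖ut U l q 1 / q.1‖ ≤ η := b 1
  have b3 : ‖ut U l q 3‖ ≤ η := b 3
  have bk : ‖(kap (M.γ l) (M.n l) q.2 : ℂ) * (ut U l q 0 / q.1)‖ ≤ 1 / 10 :=
    (norm_mul_le_of_le ((Complex.norm_real _).trans_le (hK l _)) b0).trans (η2 l).1
  have d : ‖gk U l q - (spd (M.γ l) : ℂ) ^ 2‖ ≤ spd (M.γ l) ^ 2 / 2 :=
    Stk.kD_near bk (by linarith [(η2 l).2]) (by linarith)
  have nq : ‖(q.1 : ℂ)‖ = q.1 := by rw [Complex.norm_real, Real.norm_of_nonneg q0.le]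
  have ns : ‖(spd (M.γ l) : ℂ) ^ 2‖ = spd (M.γ l) ^ 2 := by
    rw [norm_pow, Complex.norm_real, Real.norm_eq_abs, sq_abs]
  rw [norm_div, nq, div_le_iff₀ q0] at b0
  rw [← mul_div_assoc, norm_div, nq, div_le_iff₀ q0] at bk
  refine ⟨by nlinarith, by linarith, by linarith, ?_, ?_⟩
  · have := (abs_le.1 ((Complex.abs_re_le_norm _).trans d)).1
    rw [Complex.sub_re, ← Complex.ofReal_pow, Complex.ofReal_re] at this
    nlinarith [sq_nonneg (spd (M.γ l))]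
  · nlinarith [norm_sub_norm_le (gk U l q) ((spd (M.γ l) : ℂ) ^ 2), sq_nonneg (spd (M.γ l))]

end Vale.Agent.P218I
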