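import Mathlib

/-! Block NL: pointwise algebra of the parametric area integrand in three variables.

`A b` is the partial derivative `∂_b X` of a map `X` of three variables into `R³`, `m` a conormal.
`nn A m` is the normal of the restriction of `X` to the surface with conormal `m`. -/

noncomputable section

namespace Vale.Agent.P218N

section ring

variable {R : Type*} [CommRing R]

/-- bilinear dot product -/
def dt (a b : Fin 3 → R) : R := a 0 * b 0 + a 1 * b 1 + a 2 * b 2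

/-- cross product -/
def cr (a b : Fin 3 → R) : Fin 3 → R :=
  ![a 1 * b 2 - a 2 * b 1, a 2 * b 0 - a 0 * b 2, a 0 * b 1 - a 1 * b 0]

/-- `∑ ε_{abc} m_a (A_b × B_c)` -/
def kk (A B : Fin 3 → Fin 3 → R) (m : Fin 3 → R) : Fin 3 → R :=
  m 0 • (cr (A 1) (B 2) - cr (A 2) (B 1)) + m 1 • (cr (A 2) (B 0) - cr (A 0) (B 2))
    + m 2 • (cr (A 0) (B 1) - cr (A 1) (B 0))

/-- the unnormalised normal -/
def nn (A : Fin 3 → Fin 3 → R) (m : Fin 3 → R) : Fin 3 → R :=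
  m 0 • cr (A 1) (A 2) + m 1 • cr (A 2) (A 0) + m 2 • cr (A 0) (A 1)

/-- the squared area element -/
def gg (A : Fin 3 → Fin 3 → R) (m : Fin 3 → R) : R := dt (nn A m) (nn A m)

/-- the partial derivatives of the normal: `A₂ c b = ∂_c ∂_b X`, `m₁ c = ∂_c m` -/
def dn (A : Fin 3 → Fin 3 → R) (A₂ : Fin 3 → Fin 3 → Fin 3 → R) (m : Fin 3 → R)
    (m₁ : Fin 3 → Fin 3 → R) (c : Fin 3) : Fin 3 → R := kk A (A₂ c) m + nn A (m₁ c)

/-- mean curvature times `G ^ (3/2)` -/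
def bb (A : Fin 3 → Fin 3 → R) (A₂ : Fin 3 → Fin 3 → Fin 3 → R) (m : Fin 3 → R)
    (m₁ : Fin 3 → Fin 3 → R) : R := -dt (nn A m) (kk (dn A A₂ m m₁) A m)

/-- the flux of the first variation -/
def tt (w : Fin 3 → R) (A : Fin 3 → Fin 3 → R) (m : Fin 3 → R) : Fin 3 → Fin 3 → R :=
  ![m 1 • cr w (A 2) - m 2 • cr w (A 1), m 2 • cr w (A 0) - m 0 • cr w (A 2),
    m 0 • cr w (A 1) - m 1 • cr w (A 0)]

/-- change of variables in the derivatives: `(A M)_b = ∑_c M c b A_c` -/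
def rp (A : Fin 3 → Fin 3 → R) (M : Fin 3 → Fin 3 → R) (b : Fin 3) : Fin 3 → R :=
  M 0 b • A 0 + M 1 b • A 1 + M 2 b • A 2

/-- change of variables in the conormal -/
def rm (m : Fin 3 → R) (M : Fin 3 → Fin 3 → R) (b : Fin 3) : R :=
  M 0 b * m 0 + M 1 b * m 1 + M 2 b * m 2

/-- the determinant -/
def dd (M : Fin 3 → Fin 3 → R) : R := dt (M 0) (cr (M 1) (M 2))

@[simp] theorem cr0 (a b : Fin 3 → R) : cr a b 0 = a 1 * b 2 - a 2 * b 1 := rfl
@[simp] theorem cr1 (a b : Fin 3 → R) : cr a b 1 = a 2 * b 0 - a 0 * b 2 := rfl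
@[simp] theorem cr2 (a b : Fin 3 → R) : cr a b 2 = a 0 * b 1 - a 1 * b 0 := rfl

theorem tt0 (w : Fin 3 → R) (A : Fin 3 → Fin 3 → R) (m : Fin 3 → R) :
    tt w A m 0 = m 1 • cr w (A 2) - m 2 • cr w (A 1) := rfl
theorem tt1 (w : Fin 3 → R) (A : Fin 3 → Fin 3 → R) (m : Fin 3 → R) :
    tt w A m 1 = m 2 • cr w (A 0) - m 0 • cr w (A 2) := rfl
theorem tt2 (w : Fin 3 → R) (A : Fin 3 → Fin 3 → R) (m : Fin 3 → R) :
    tt w A m 2 = m 0 • cr w (A 1) - m 1 • cr w (A 0) := rfl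

theorem ext3 {α : Type*} {a b : Fin 3 → α} (h0 : a 0 = b 0) (h1 : a 1 = b 1) (h2 : a 2 = b 2) :
    a = b := by
  funext i
  fin_cases i
  exacts [h0, h1, h2]

theorem dd_eq_det (M : Matrix (Fin 3) (Fin 3) R) : dd M = M.det := by
  simp only [dd, dt, cr0, cr1, cr2, Matrix.det_fin_three]
  ring

theorem dt_comm (a b : Fin 3 → R) : dt a b = dt b a := by
  simp only [dt]
  ring

theorem dt_smul (s : R) (a b : Fin 3 → R) : dt a (s • b) = s * dt a b := by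
  simp only [dt, Pi.smul_apply, smul_eq_mul]
  ring

theorem smul_dt (s : R) (a b : Fin 3 → R) : dt (s • a) b = s * dt a b := by
  simp only [dt, Pi.smul_apply, smul_eq_mul]
  ring

theorem dt_add (a b c : Fin 3 → R) : dt a (b + c) = dt a b + dt a c := by
  simp only [dt, Pi.add_apply]
  ring

theorem add_dt (a b c : Fin 3 → R) : dt (a + b) c = dt a c + dt b c := by
  simp only [dt, Pi.add_apply]
  ring

theorem kk_comm (A B : Fin 3 → Fin 3 → R) (m : Fin 3 → R) : kk A B m = kk B A m := by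
  apply ext3 <;>
  · simp only [kk, Pi.add_apply, Pi.sub_apply, Pi.smul_apply, smul_eq_mul, cr0, cr1, cr2]
    ring

theorem kk_self (A : Fin 3 → Fin 3 → R) (m : Fin 3 → R) : kk A A m = (2 : R) • nn A m := by
  apply ext3 <;>
  · simp only [kk, nn, Pi.add_apply, Pi.sub_apply, Pi.smul_apply, smul_eq_mul, cr0, cr1, cr2]
    ring

theorem kk_smul (s : R) (A B : Fin 3 → Fin 3 → R) (m : Fin 3 → R) :
    kk A B (s • m) = s • kk A B m := by
  apply ext3 <;>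
  · simp only [kk, Pi.add_apply, Pi.sub_apply, Pi.smul_apply, smul_eq_mul, cr0, cr1, cr2]
    ring

theorem nn_smul (s : R) (A : Fin 3 → Fin 3 → R) (m : Fin 3 → R) : nn A (s • m) = s • nn A m := by
  apply ext3 <;>
  · simp only [nn, Pi.add_apply, Pi.smul_apply, smul_eq_mul, cr0, cr1, cr2]
    ring

theorem kk_rp (A B M : Fin 3 → Fin 3 → R) (m : Fin 3 → R) :
    kk (rp A M) (rp B M) (rm m M) = dd M • kk A B m := by
  apply ext3 <;>
  · simp only [kk, rp, rm, dd, dt, Pi.add_apply, Pi.sub_apply, Pi.smul_apply, smul_eq_mul, cr0,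
      cr1, cr2]
    ring

theorem nn_rp (A M : Fin 3 → Fin 3 → R) (m : Fin 3 → R) :
    nn (rp A M) (rm m M) = dd M • nn A m := by
  apply ext3 <;>
  · simp only [nn, rp, rm, dd, dt, Pi.add_apply, Pi.smul_apply, smul_eq_mul, cr0, cr1, cr2]
    ring

theorem gg_rp (A M : Fin 3 → Fin 3 → R) (m : Fin 3 → R) :
    gg (rp A M) (rm m M) = dd M ^ 2 * gg A m := by
  rw [gg, nn_rp, smul_dt, dt_smul, gg]
  ring

/-- the first variation of the area element is a sum over the derivatives of the variation -/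
theorem dt_kk (w : Fin 3 → R) (A B : Fin 3 → Fin 3 → R) (m : Fin 3 → R) :
    dt w (kk A B m) = dt (B 0) (tt w A m 0) + dt (B 1) (tt w A m 1) + dt (B 2) (tt w A m 2) := by
  simp only [kk, tt0, tt1, tt2, dt, Pi.add_apply, Pi.sub_apply, Pi.smul_apply, smul_eq_mul, cr0,
    cr1, cr2]
  ring

/-- divergence of the flux: the part with the derivative of `w` -/
theorem tt_div (B A : Fin 3 → Fin 3 → R) (m : Fin 3 → R) :
    tt (B 0) A m 0 + tt (B 1) A m 1 + tt (B 2) A m 2 = -kk B A m := by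
  apply ext3 <;>
  · simp only [kk, tt0, tt1, tt2, Pi.add_apply, Pi.sub_apply, Pi.neg_apply, Pi.smul_apply,
      smul_eq_mul, cr0, cr1, cr2]
    ring

theorem tt_div_A (w : Fin 3 → R) (A₂ : Fin 3 → Fin 3 → Fin 3 → R) (m : Fin 3 → R)
    (h : ∀ b c, A₂ b c = A₂ c b) :
    tt w (A₂ 0) m 0 + tt w (A₂ 1) m 1 + tt w (A₂ 2) m 2 = 0 := by
  rw [tt0, tt1, tt2, h 1 0, h 2 0, h 2 1]
  abel

theorem tt_div_m (w : Fin 3 → R) (A m₁ : Fin 3 → Fin 3 → R) (h : ∀ b c, m₁ b c = m₁ c b) :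
    tt w A (m₁ 0) 0 + tt w A (m₁ 1) 1 + tt w A (m₁ 2) 2 = 0 := by
  rw [tt0, tt1, tt2, h 1 0, h 2 0, h 2 1]
  abel

/-- rank one first argument -/
theorem kk_rank (w X : Fin 3 → R) (A : Fin 3 → Fin 3 → R) (m : Fin 3 → R) :
    kk (fun c => dt X (A c) • w) A m = dt w X • nn A m - dt w (nn A m) • X := by
  apply ext3 <;>
  · simp only [kk, nn, dt, Pi.add_apply, Pi.sub_apply, Pi.smul_apply, smul_eq_mul, cr0, cr1, cr2]
    ring

theorem dt_kk_rank (w l : Fin 3 → R) (A : Fin 3 → Fin 3 → R) (m : Fin 3 → R) :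
    dt w (kk (fun c => l c • w) A m) = 0 := by
  simp only [kk, dt, Pi.add_apply, Pi.sub_apply, Pi.smul_apply, smul_eq_mul, cr0, cr1, cr2]
  ring

theorem kk_add (A B C : Fin 3 → Fin 3 → R) (m : Fin 3 → R) :
    kk (A + B) C m = kk A C m + kk B C m := by
  apply ext3 <;>
  · simp only [kk, Pi.add_apply, Pi.sub_apply, Pi.smul_apply, smul_eq_mul, cr0, cr1, cr2]
    ring

theorem smul_kk (s : R) (A B : Fin 3 → Fin 3 → R) (m : Fin 3 → R) :
    kk (s • A) B m = s • kk A B m := by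
  apply ext3 <;>
  · simp only [kk, Pi.add_apply, Pi.sub_apply, Pi.smul_apply, smul_eq_mul, cr0, cr1, cr2]
    ring

/-- if the columns of `B` are orthogonal to the normal, then `kk B A m` is normal -/
theorem kk_normal (A B : Fin 3 → Fin 3 → R) (m Y : Fin 3 → R)
    (h : ∀ c, dt (nn A m) (B c) = 0) :
    gg A m * dt Y (kk B A m) = dt Y (nn A m) * dt (nn A m) (kk B A m) := by
  have h0 := h 0
  have h1 := h 1
  have h2 := h 2
  have e : ∀ N K : Fin 3 → R, dt N N * dt Y K - dt Y N * dt N K = -dt (cr Y N) (cr N K) := by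
    intro N K
    simp only [dt, cr0, cr1, cr2]
    ring
  have e2 : cr (nn A m) (kk B A m) = dt (nn A m) (B 0) • (m 1 • A 2 - m 2 • A 1)
      + dt (nn A m) (B 1) • (m 2 • A 0 - m 0 • A 2)
      + dt (nn A m) (B 2) • (m 0 • A 1 - m 1 • A 0) := by
    apply ext3 <;>
    · simp only [kk, nn, dt, Pi.add_apply, Pi.sub_apply, Pi.smul_apply, smul_eq_mul, cr0, cr1, cr2]
      ring
  rw [← sub_eq_zero, gg, e, e2, h0, h1, h2]
  simp [dt]

section map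

variable {S : Type*} [CommRing S] {F : Type*} [FunLike F R S] [RingHomClass F R S] (f : F)

theorem map_dt (a b : Fin 3 → R) : f (dt a b) = dt (fun i => f (a i)) (fun i => f (b i)) := by
  simp only [dt, map_add, map_mul]

theorem map_cr (a b : Fin 3 → R) (i : Fin 3) :
    f (cr a b i) = cr (fun i => f (a i)) (fun i => f (b i)) i := by
  fin_cases i <;> simp [map_sub, map_mul]

theorem map_kk (A B : Fin 3 → Fin 3 → R) (m : Fin 3 → R) (i : Fin 3) :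
    f (kk A B m i) = kk (fun b i => f (A b i)) (fun b i => f (B b i)) (fun i => f (m i)) i := by
  simp only [kk, Pi.add_apply, Pi.sub_apply, Pi.smul_apply, smul_eq_mul, map_add, map_sub, map_mul,
    map_cr]

theorem map_nn (A : Fin 3 → Fin 3 → R) (m : Fin 3 → R) (i : Fin 3) :
    f (nn A m i) = nn (fun b i => f (A b i)) (fun i => f (m i)) i := by
  simp only [nn, Pi.add_apply, Pi.smul_apply, smul_eq_mul, map_add, map_mul, map_cr]

theorem map_gg (A : Fin 3 → Fin 3 → R) (m : Fin 3 → R) :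
    f (gg A m) = gg (fun b i => f (A b i)) (fun i => f (m i)) := by
  simp only [gg, map_dt, map_nn]

theorem map_dn (A : Fin 3 → Fin 3 → R) (A₂ : Fin 3 → Fin 3 → Fin 3 → R) (m : Fin 3 → R)
    (m₁ : Fin 3 → Fin 3 → R) (c i : Fin 3) :
    f (dn A A₂ m m₁ c i) = dn (fun b i => f (A b i)) (fun c b i => f (A₂ c b i))
      (fun i => f (m i)) (fun c i => f (m₁ c i)) c i := by
  simp only [dn, Pi.add_apply, map_add, map_kk, map_nn]

theorem map_bb (A : Fin 3 → Fin 3 → R) (A₂ : Fin 3 → Fin 3 → Fin 3 → R) (m : Fin 3 → R)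
    (m₁ : Fin 3 → Fin 3 → R) :
    f (bb A A₂ m m₁) = bb (fun b i => f (A b i)) (fun c b i => f (A₂ c b i))
      (fun i => f (m i)) (fun c i => f (m₁ c i)) := by
  simp only [bb, map_neg, map_dt, map_nn, map_kk, map_dn]

end map

end ring

section deriv

variable {𝕜 : Type*} [NontriviallyNormedField 𝕜] {𝔸 : Type*} [NormedCommRing 𝔸]
  [NormedAlgebra 𝕜 𝔸] {t : 𝕜}

theorem hd_dt {a b : 𝕜 → Fin 3 → 𝔸} {a' b' : Fin 3 → 𝔸} (ha : HasDerivAt a a' t)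
    (hb : HasDerivAt b b' t) :
    HasDerivAt (fun s => dt (a s) (b s)) (dt a' (b t) + dt (a t) b') t := by
  rw [hasDerivAt_pi] at ha hb
  refine ((((ha 0).fun_mul (hb 0)).fun_add ((ha 1).fun_mul (hb 1))).fun_add
    ((ha 2).fun_mul (hb 2))).congr_deriv ?_
  simp only [dt]
  ring

theorem hd_cr {a b : 𝕜 → Fin 3 → 𝔸} {a' b' : Fin 3 → 𝔸} (ha : HasDerivAt a a' t)
    (hb : HasDerivAt b b' t) :
    HasDerivAt (fun s => cr (a s) (b s)) (cr a' (b t) + cr (a t) b') t := by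
  rw [hasDerivAt_pi] at ha hb ⊢
  intro i
  fin_cases i
  · refine (((ha 1).fun_mul (hb 2)).fun_sub ((ha 2).fun_mul (hb 1))).congr_deriv ?_
    simp
    ring
  · refine (((ha 2).fun_mul (hb 0)).fun_sub ((ha 0).fun_mul (hb 2))).congr_deriv ?_
    simp
    ring
  · refine (((ha 0).fun_mul (hb 1)).fun_sub ((ha 1).fun_mul (hb 0))).congr_deriv ?_
    simp
    ring

theorem hd_smul {l : 𝕜 → 𝔸} {a : 𝕜 → Fin 3 → 𝔸} {l' : 𝔸} {a' : Fin 3 → 𝔸}
    (hl : HasDerivAt l l' t) (ha : HasDerivAt a a' t) :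
    HasDerivAt (fun s => l s • a s) (l' • a t + l t • a') t := by
  rw [hasDerivAt_pi] at ha ⊢
  exact fun i => hl.fun_mul (ha i)

theorem hd_kk {A B : 𝕜 → Fin 3 → Fin 3 → 𝔸} {m : 𝕜 → Fin 3 → 𝔸} {A' B' : Fin 3 → Fin 3 → 𝔸}
    {m' : Fin 3 → 𝔸} (hA : HasDerivAt A A' t) (hB : HasDerivAt B B' t) (hm : HasDerivAt m m' t) :
    HasDerivAt (fun s => kk (A s) (B s) (m s))
      (kk A' (B t) (m t) + kk (A t) B' (m t) + kk (A t) (B t) m') t := by
  rw [hasDerivAt_pi] at hA hB hm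
  refine (((hd_smul (hm 0) ((hd_cr (hA 1) (hB 2)).fun_sub (hd_cr (hA 2) (hB 1)))).fun_add
    (hd_smul (hm 1) ((hd_cr (hA 2) (hB 0)).fun_sub (hd_cr (hA 0) (hB 2))))).fun_add
    (hd_smul (hm 2) ((hd_cr (hA 0) (hB 1)).fun_sub (hd_cr (hA 1) (hB 0))))).congr_deriv ?_
  simp only [kk, smul_sub, smul_add]
  abel

theorem hd_nn {A : 𝕜 → Fin 3 → Fin 3 → 𝔸} {m : 𝕜 → Fin 3 → 𝔸} {A' : Fin 3 → Fin 3 → 𝔸}
    {m' : Fin 3 → 𝔸} (hA : HasDerivAt A A' t) (hm : HasDerivAt m m' t) :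
    HasDerivAt (fun s => nn (A s) (m s)) (kk (A t) A' (m t) + nn (A t) m') t := by
  rw [hasDerivAt_pi] at hA hm
  refine (((hd_smul (hm 0) (hd_cr (hA 1) (hA 2))).fun_add
    (hd_smul (hm 1) (hd_cr (hA 2) (hA 0)))).fun_add
    (hd_smul (hm 2) (hd_cr (hA 0) (hA 1)))).congr_deriv ?_
  apply ext3 <;>
  · simp only [kk, nn, Pi.add_apply, Pi.sub_apply, Pi.smul_apply, smul_eq_mul, cr0, cr1, cr2]
    ring

theorem hd_tt {w : 𝕜 → Fin 3 → 𝔸} {A : 𝕜 → Fin 3 → Fin 3 → 𝔸} {m : 𝕜 → Fin 3 → 𝔸}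
    {w' : Fin 3 → 𝔸} {A' : Fin 3 → Fin 3 → 𝔸} {m' : Fin 3 → 𝔸} (hw : HasDerivAt w w' t)
    (hA : HasDerivAt A A' t) (hm : HasDerivAt m m' t) (c : Fin 3) :
    HasDerivAt (fun s => tt (w s) (A s) (m s) c)
      (tt w' (A t) (m t) c + tt (w t) A' (m t) c + tt (w t) (A t) m' c) t := by
  rw [hasDerivAt_pi] at hA hm
  have k : ∀ a b a' b', HasDerivAt (fun s => m s a • cr (w s) (A s b) - m s a' • cr (w s) (A s b'))
      ((m t a • cr w' (A t b) - m t a' • cr w' (A t b'))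
        + (m t a • cr (w t) (A' b) - m t a' • cr (w t) (A' b'))
        + (m' a • cr (w t) (A t b) - m' a' • cr (w t) (A t b'))) t := fun a b a' b' => by
    refine ((hd_smul (hm a) (hd_cr hw (hA b))).fun_sub
      (hd_smul (hm a') (hd_cr hw (hA b')))).congr_deriv ?_
    simp only [smul_add]
    abel
  fin_cases c
  exacts [k 1 2 2 1, k 2 0 0 2, k 0 1 1 0]

end deriv

section diff

variable {𝕜 : Type*} [NontriviallyNormedField 𝕜] {𝔸 : Type*} [NormedCommRing 𝔸]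
  [NormedAlgebra 𝕜 𝔸] {E : Type*} [NormedAddCommGroup E] [NormedSpace 𝕜 E] {n : WithTop ℕ∞}
  {s : Set E} {x : E}

@[fun_prop] theorem cd_dt {a b : E → Fin 3 → 𝔸} (ha : ContDiffWithinAt 𝕜 n a s x)
    (hb : ContDiffWithinAt 𝕜 n b s x) : ContDiffWithinAt 𝕜 n (fun y => dt (a y) (b y)) s x := by
  rw [contDiffWithinAt_pi] at ha hb
  exact (((ha 0).mul (hb 0)).add ((ha 1).mul (hb 1))).add ((ha 2).mul (hb 2))

@[fun_prop] theorem cd_cr {a b : E → Fin 3 → 𝔸} (ha : ContDiffWithinAt 𝕜 n a s x)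
    (hb : ContDiffWithinAt 𝕜 n b s x) : ContDiffWithinAt 𝕜 n (fun y => cr (a y) (b y)) s x := by
  rw [contDiffWithinAt_pi] at ha hb ⊢
  intro i
  fin_cases i
  exacts [((ha 1).mul (hb 2)).sub ((ha 2).mul (hb 1)), ((ha 2).mul (hb 0)).sub ((ha 0).mul (hb 2)),
    ((ha 0).mul (hb 1)).sub ((ha 1).mul (hb 0))]

theorem cd_smul {l : E → 𝔸} {a : E → Fin 3 → 𝔸} (hl : ContDiffWithinAt 𝕜 n l s x)
    (ha : ContDiffWithinAt 𝕜 n a s x) : ContDiffWithinAt 𝕜 n (fun y => l y • a y) s x := by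
  rw [contDiffWithinAt_pi] at ha ⊢
  exact fun i => hl.mul (ha i)

@[fun_prop] theorem cd_kk {A B : E → Fin 3 → Fin 3 → 𝔸} {m : E → Fin 3 → 𝔸}
    (hA : ContDiffWithinAt 𝕜 n A s x) (hB : ContDiffWithinAt 𝕜 n B s x)
    (hm : ContDiffWithinAt 𝕜 n m s x) :
    ContDiffWithinAt 𝕜 n (fun y => kk (A y) (B y) (m y)) s x := by
  rw [contDiffWithinAt_pi] at hA hB hm
  exact ((cd_smul (hm 0) ((cd_cr (hA 1) (hB 2)).sub (cd_cr (hA 2) (hB 1)))).add
    (cd_smul (hm 1) ((cd_cr (hA 2) (hB 0)).sub (cd_cr (hA 0) (hB 2))))).add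
    (cd_smul (hm 2) ((cd_cr (hA 0) (hB 1)).sub (cd_cr (hA 1) (hB 0))))

@[fun_prop] theorem cd_nn {A : E → Fin 3 → Fin 3 → 𝔸} {m : E → Fin 3 → 𝔸}
    (hA : ContDiffWithinAt 𝕜 n A s x) (hm : ContDiffWithinAt 𝕜 n m s x) :
    ContDiffWithinAt 𝕜 n (fun y => nn (A y) (m y)) s x := by
  rw [contDiffWithinAt_pi] at hA hm
  exact ((cd_smul (hm 0) (cd_cr (hA 1) (hA 2))).add (cd_smul (hm 1) (cd_cr (hA 2) (hA 0)))).add
    (cd_smul (hm 2) (cd_cr (hA 0) (hA 1)))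

@[fun_prop] theorem cd_gg {A : E → Fin 3 → Fin 3 → 𝔸} {m : E → Fin 3 → 𝔸}
    (hA : ContDiffWithinAt 𝕜 n A s x) (hm : ContDiffWithinAt 𝕜 n m s x) :
    ContDiffWithinAt 𝕜 n (fun y => gg (A y) (m y)) s x := cd_dt (cd_nn hA hm) (cd_nn hA hm)

@[fun_prop] theorem cd_dn {A : E → Fin 3 → Fin 3 → 𝔸} {A₂ : E → Fin 3 → Fin 3 → Fin 3 → 𝔸}
    {m : E → Fin 3 → 𝔸} {m₁ : E → Fin 3 → Fin 3 → 𝔸} (hA : ContDiffWithinAt 𝕜 n A s x)
    (hA₂ : ContDiffWithinAt 𝕜 n A₂ s x) (hm : ContDiffWithinAt 𝕜 n m s x)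
    (hm₁ : ContDiffWithinAt 𝕜 n m₁ s x) :
    ContDiffWithinAt 𝕜 n (fun y => dn (A y) (A₂ y) (m y) (m₁ y)) s x := by
  rw [contDiffWithinAt_pi] at hA₂ hm₁ ⊢
  exact fun c => (cd_kk hA (hA₂ c) hm).add (cd_nn hA (hm₁ c))

@[fun_prop] theorem cd_bb {A : E → Fin 3 → Fin 3 → 𝔸} {A₂ : E → Fin 3 → Fin 3 → Fin 3 → 𝔸}
    {m : E → Fin 3 → 𝔸} {m₁ : E → Fin 3 → Fin 3 → 𝔸} (hA : ContDiffWithinAt 𝕜 n A s x)
    (hA₂ : ContDiffWithinAt 𝕜 n A₂ s x) (hm : ContDiffWithinAt 𝕜 n m s x)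
    (hm₁ : ContDiffWithinAt 𝕜 n m₁ s x) :
    ContDiffWithinAt 𝕜 n (fun y => bb (A y) (A₂ y) (m y) (m₁ y)) s x :=
  (cd_dt (cd_nn hA hm) (cd_kk (cd_dn hA hA₂ hm hm₁) hA hm)).neg

theorem cd_tt {w : E → Fin 3 → 𝔸} {A : E → Fin 3 → Fin 3 → 𝔸} {m : E → Fin 3 → 𝔸}
    (hw : ContDiffWithinAt 𝕜 n w s x) (hA : ContDiffWithinAt 𝕜 n A s x)
    (hm : ContDiffWithinAt 𝕜 n m s x) (c : Fin 3) :
    ContDiffWithinAt 𝕜 n (fun y => tt (w y) (A y) (m y) c) s x := by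
  rw [contDiffWithinAt_pi] at hA hm
  fin_cases c
  exacts [(cd_smul (hm 1) (cd_cr hw (hA 2))).sub (cd_smul (hm 2) (cd_cr hw (hA 1))),
    (cd_smul (hm 2) (cd_cr hw (hA 0))).sub (cd_smul (hm 0) (cd_cr hw (hA 2))),
    (cd_smul (hm 0) (cd_cr hw (hA 1))).sub (cd_smul (hm 1) (cd_cr hw (hA 0)))]

end diff

end Vale.Agent.P218N
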