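import Vale.Agent.P218N.Spec3

/-! Row MIDW: far from the tips the heavy norms are comparable. -/

open Set

noncomputable section

namespace Vale.Agent.P218I

open Vale.Agent.P218M Vale.Agent.P218L Vale.Agent.P218W

namespace MidA

variable {R Z z : ℝ} {c : ℂ}

theorem disc (z2 : 2 ≤ z) (zZ : z ≤ Z) (h : ‖c‖ * Z ^ 2 ≤ 1) : 1 ≤ (rh c z).re ∧
    (rh c z).re ≤ ‖rh c z‖ ∧ ‖rh c z‖ ≤ 3 ∧ ‖rh c z‖ ^ 2 ≤ 6 * (rh c z).re := by
  have h1 : ‖rh c z - 2‖ ≤ 1 := by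
    rw [rh, add_sub_cancel_left, norm_mul, show (z : ℂ) ^ 2 - 2 = (z ^ 2 - 2 : ℝ) by push_cast; rfl,
      Complex.norm_real, Real.norm_of_nonneg (by nlinarith)]
    exact (mul_le_mul_of_nonneg_left (by nlinarith) (norm_nonneg c)).trans h
  have h2 := abs_le.1 ((Complex.abs_re_le_norm _).trans h1)
  have h3 := norm_sub_norm_le (rh c z) 2
  have h4 := pow_le_one₀ (n := 2) (norm_nonneg _) h1
  simp only [Complex.sq_norm, Complex.normSq_apply, Complex.sub_re, Complex.sub_im, Complex.re_ofNat,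
    Complex.im_ofNat, Complex.norm_ofNat] at h2 h3 h4 ⊢
  exact ⟨by linarith, Complex.re_le_norm _, by linarith, by nlinarith⟩

theorem cyl (R2 : 2 ≤ R) (RZ : R + 1 ≤ Z) (h : ‖c‖ * Z ^ 2 ≤ 1) : Cyl 1 R Z c :=
  ⟨by linarith, RZ, by linarith, fun z hz => by
    nlinarith [(disc (R2.trans hz.1) hz.2 h).1, hz.1], fun _ hz => (disc (R2.trans hz.1) hz.2 h).2.2.2⟩

theorem rp {a κ : ℝ} (a0 : 0 ≤ a) (a3 : a ≤ 3) (κ0 : 0 ≤ κ) (κ1 : κ ≤ 1) : a ^ κ ≤ 3 * 2 ^ κ :=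
  ((Real.rpow_le_rpow a0 a3 κ0).trans ((Real.rpow_le_rpow_of_exponent_le (by norm_num) κ1).trans_eq
    (Real.rpow_one 3))).trans (le_mul_of_one_le_right (by norm_num)
      (Real.one_le_rpow (by norm_num) κ0))

theorem wts (z2 : 2 ≤ z) (zZ : z ≤ Z) (h : ‖c‖ * Z ^ 2 ≤ 1) :
    (∀ i, nu (wK (19 / 32) c) c Z i z ≤ 36 * nu (wK (19 / 32) 0) 0 Z i z) ∧
    hv c z * (rh c z).re ≤ 36 * (hv 0 z * (rh 0 z).re) ∧
    hv c z * (gO c Z z + (rh c z).re) ≤ 36 * (hv 0 z * (gO 0 Z z + (rh 0 z).re)) := by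
  obtain ⟨h1, h2, h3, -⟩ := disc z2 zZ h
  have z0 : 0 < z := by linarith
  have e0 : rh 0 z = 2 := by simp [rh]
  have e1 : sg 0 z = 1 / 2 := by simp [sg, e0]
  have e2 : ta 0 z = 1 := by simp [ta, e0]
  have L0 : 0 ≤ z ^ 2 * ly Z z := by unfold ly; positivity
  have s1 : 1 / 9 ≤ sg c z ∧ sg c z ≤ 1 := by
    have : 0 < ‖rh c z‖ ^ 2 := pow_pos (by linarith) 2
    rw [sg, Complex.inv_re, Complex.normSq_eq_norm_sq, le_div_iff₀ this, div_le_one this]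
    constructor <;> nlinarith
  have t1 : 0 ≤ ta c z ∧ ta c z ≤ 3 := by
    rw [ta, div_le_iff₀ (by positivity)]
    exact ⟨by positivity, by linarith⟩
  have w0 : 0 ≤ wK (19 / 32) c z := by unfold wK; positivity
  have w1 : wK (19 / 32) c z ≤ 3 * wK (19 / 32) 0 z := by
    rw [wK, wK, e0, Complex.norm_ofNat, mul_left_comm]
    exact mul_le_mul_of_nonneg_left (rp (norm_nonneg _) h3 (by norm_num) (by norm_num))
      (by positivity)
  have g0 : 0 ≤ gW (wK (19 / 32) c) c Z z := mul_nonneg w0 (by linarith)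
  have g1 : gW (wK (19 / 32) c) c Z z ≤ 6 * gW (wK (19 / 32) 0) 0 Z z := by
    rw [gW, gW, e1]
    exact (mul_le_mul w1 (by linarith : _ ≤ 2 * (1 / 2 + z ^ 2 * ly Z z)) (by linarith)
      (by linarith)).trans_eq (by ring)
  have g2 := mul_le_mul g1 t1.2 t1.1 (by linarith)
  have v0 : 0 ≤ hv 0 z := by rw [hv, e0, Complex.re_ofNat]; positivity
  have v1 : hv c z ≤ 2 * hv 0 z := by
    rw [hv, hv, e0, div_le_iff₀ (by positivity), Complex.re_ofNat]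
    nlinarith
  have o0 : 0 ≤ wO 0 z := by rw [wO, e0, Complex.re_ofNat]; positivity
  have o1 : wO c z ≤ 3 * wO 0 z := by
    rw [wO, wO, e0, Complex.re_ofNat, mul_left_comm]
    exact mul_le_mul_of_nonneg_left (rp (by linarith) (by linarith) (by norm_num) (by norm_num))
      (by positivity)
  have i1 := inv_le_one_of_one_le₀ h1
  have i0 : 0 ≤ ((rh c z).re)⁻¹ := by positivity
  have o2 : 0 ≤ gO c Z z := mul_nonneg (by unfold wO; positivity) (by linarith)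
  have o3 : gO c Z z ≤ 6 * gO 0 Z z := by
    rw [gO, gO, e0, Complex.re_ofNat]
    exact (mul_le_mul o1 (by linarith : _ ≤ 2 * (2⁻¹ + z ^ 2 * ly Z z)) (by linarith)
      (by linarith)).trans_eq (by ring)
  refine ⟨fun i => ?_, ?_, ?_⟩
  · fin_cases i
    · change wK _ c z ≤ 36 * wK _ 0 z
      linarith
    · change √_ ≤ 36 * √_
      rw [← Real.sqrt_sq (by norm_num : (0 : ℝ) ≤ 36), ← Real.sqrt_mul (by norm_num), e1]
      refine Real.sqrt_le_sqrt ?_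
      rw [div_le_iff₀ (by linarith)]
      nlinarith [mul_le_mul w1 g1 g0 (by linarith), mul_nonneg w0 g0]
    · change gW _ c Z z / _ ≤ 36 * (gW _ 0 Z z / _)
      rw [e1, div_le_iff₀ (by linarith)]
      nlinarith
    · change gW _ c Z z * _ / z ≤ 36 * (gW _ 0 Z z * _ / z)
      rw [e2, ← mul_div_assoc]
      exact div_le_div_of_nonneg_right (by linarith) z0.le
    · change gW _ c Z z * _ * √_ ≤ 36 * (gW _ 0 Z z * _ * √_)
      have a : √‖rh c z‖ ≤ 2 := Real.sqrt_le_iff.2 ⟨by norm_num, by linarith⟩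
      have b : 1 ≤ √‖rh 0 z‖ := by rw [e0, Real.one_le_sqrt]; norm_num
      rw [e2]
      nlinarith [mul_le_mul g2 a (Real.sqrt_nonneg _) (by linarith)]
    · change gW _ c Z z * _ ≤ 36 * (gW _ 0 Z z * _)
      rw [e2]
      linarith
  · rw [e0, Complex.re_ofNat]
    nlinarith [mul_le_mul v1 (h2.trans h3) (by linarith) (by linarith)]
  · rw [e0, Complex.re_ofNat]
    nlinarith [mul_le_mul v1 (by linarith : gO c Z z + (rh c z).re ≤ 6 * (gO 0 Z z + 2))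
      (by linarith) (by linarith), mul_nonneg v0 (by linarith : 0 ≤ gO 0 Z z + 2)]

theorem pw (h : Cyl 1 R Z c) : (∀ i, PW (Icc R Z) (om (fun z => hv c z * (rh c z).re)
    (fun z => hv c z * (gO c Z z + (rh c z).re)) (wK (19 / 32) c) c Z i)) ∧
    ∀ i, PW (Icc R Z) (nu (wK (19 / 32) c) c Z i) := by
  obtain ⟨a, -, e, f, g, -⟩ := pw_all h le_rfl
  exact ⟨pw_om h one_pos (a _) (f.mul isCompact_Icc g) (f.mul isCompact_Icc (e.add isCompact_Icc g)),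
    pw_nu h one_pos (a _)⟩

theorem omle {o₀ o₁ o₀' o₁' w w' : ℝ → ℝ} {c' : ℂ} {A : ℝ} (z0 : 0 ≤ z)
    (h1 : ∀ i, nu w c Z i z ≤ A * nu w' c' Z i z) (h2 : o₀ z ≤ A * o₀' z) (h3 : o₁ z ≤ A * o₁' z)
    (i : Fin 6) : om o₀ o₁ w c Z i z ≤ A * om o₀' o₁' w' c' Z i z := by
  have h4 := (div_le_div_of_nonneg_right h3 z0).trans_eq (mul_div_assoc _ _ _)
  revert i
  simp only [P218W.om, Fin.forall_fin_succ, Matrix.cons_val_zero, Matrix.cons_val_succ, h1, h2, h3, h4,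
    IsEmpty.forall_iff, and_self]

theorem xn_cmp {ι : Type} [Fintype ι] {s : Set ℝ} {r : ℝ → ℝ} (h : Ret s r)
    {o n o' n' : ι → ℝ → ℝ} {A : ℝ} (A0 : 0 ≤ A) (a : ∀ i, PW s (o i)) (b : ∀ i, PW s (n i))
    (a' : ∀ i, PW s (o' i)) (b' : ∀ i, PW s (n' i)) (ho : ∀ z ∈ s, ∀ i, o i z ≤ A * o' i z)
    (hn : ∀ z ∈ s, ∀ i, n i z ≤ A * n' i z) (J : ι → W r) : xn s o' n' J ≤ A * xn s o n J :=
  have l := (h.xn_le_iff a b (apply_nonneg _ _)).1 (le_refl (xn s o n J))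
  (h.xn_le_iff a' b' (by positivity)).2 fun i =>
    ⟨(l i).1.wt A0 (fun _ hz => ((a' i).pos hz).le) fun z hz => ho z hz i,
      (l i).2.wt A0 (fun _ hz => ((b' i).pos hz).le) fun z hz => hn z hz i⟩

end MidA

open MidA in
theorem midw : MIDW := by
  refine ⟨36, fun R Z c R2 RZ h J => ?_⟩
  obtain ⟨a, b⟩ := pw (cyl R2 RZ h)
  obtain ⟨a0, b0⟩ := pw (cyl (c := 0) R2 RZ (by simp))
  have k := fun z (hz : z ∈ Icc R Z) => wts (R2.trans hz.1) hz.2 h
  simp only [pH, MP.xe, Seminorm.comp_apply]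
  exact xn_cmp (ret_cl (by linarith)) (by norm_num) a b a0 b0 (fun z hz =>
    omle (by linarith [hz.1]) (k z hz).1 (k z hz).2.1 (k z hz).2.2) (fun z hz => (k z hz).1) _

end Vale.Agent.P218I
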