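import Vale.Agent.P218L.All
import Vale.Agent.P218C.Ex
import Vale.Agent.P218I.Asm
import Vale.Agent.P218I.Adn
import Vale.Agent.P218I.Bca
import Vale.Agent.P218I.Fara
import Vale.Agent.P218I.FarbH
import Vale.Agent.P218I.Fard
import Vale.Agent.P218I.Fv
import Vale.Agent.P218I.Prof
import Vale.Agent.P218I.Cj
import Vale.Agent.P218I.Eqn
import Vale.Agent.P218I.Farc
import Vale.Agent.P218I.Fark
import Vale.Agent.P218I.Ind
import Vale.Agent.P218I.Rp
import Vale.Agent.P218I.Sound
import Vale.Agent.P218I.U0v
import Vale.Agent.P218I.Usv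
import Vale.Agent.P218I.Uzl
import Vale.Agent.P218I.Xiv
import Vale.Agent.P218I.Zon
import Vale.Agent.P218N.Evj
import Vale.Agent.P218N.Fl
import Vale.Agent.P218N.Fva
import Vale.Agent.P218N.Gds
import Vale.Agent.P218N.Hb
import Vale.Agent.P218N.Hi
import Vale.Agent.P218N.Jn
import Vale.Agent.P218N.Jth
import Vale.Agent.P218N.Mid
import Vale.Agent.P218N.MidW
import Vale.Agent.P218N.Mpc
import Vale.Agent.P218N.Mpn
import Vale.Agent.P218N.Near
import Vale.Agent.P218N.Sibp
import Vale.Agent.P218N.Smc
import Vale.Agent.P218N.Stc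
import Vale.Agent.P218N.Stk
import Vale.Agent.P218N.Tub
import Vale.Agent.P218R.All0

/-! Block NL: the rows without hypotheses. -/

namespace Vale.Agent.P218I

open Vale.Agent.P218T Vale.Agent.P218L

theorem eqn' : EQN := eqn cy

theorem zon' : ZON := zon cy loww

theorem usv' : USV := usv sdec' eqs

theorem xiv'' : XIV := xiv' slow'

theorem uzl' : UZL := uzl u0v usv' xiv'' slow' kap''

theorem fark' : FARK := fark (conw conj') conj' eqs

theorem jth' : JTH := jth evj

theorem stc' : STC := stc adn

theorem stk' : STK := stk adn evj jth'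

theorem qc' : QC := qc adn evj

theorem qn' : QN := qn adn (jn' evj)

theorem nrz' : NRZ := nrz (P218N.tub P218N.lin0) adn evj

theorem gds' : GDS := gds nrz' adn jth' stc' stk' smc smk zon'

theorem flc' : FLC := flc stc' smc

theorem flk' : FLK := flk stk' smk

theorem lag'' : LAG := lag' adn jth' xiv'' kap''

theorem hi' : HI := hi gds' gau jth' eqn'

theorem hb' : HB := hb flc'

theorem mpn' : MPN := mpn (P218N.tub P218N.lin0) adn evj jth' stk' smk zon' uzl'

theorem mpc' : MPC := mpc stc' smc usv'

theorem hola' : Fld Obj.HOLA := hola hi' hb'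

theorem holb' : Fld Obj.HOLB := holb flc'

theorem cj' : Fld Obj.CJ := cj slow' (gdr gds' (gn nrz' zon') flc')

theorem rp' : Fld Obj.RP := rp ind xiv'' (inj' qb)

theorem fara' : FARA := fara eqs sdec'

theorem sound' : SOUND := sound zon' adn evj jth' stc' stk' smc smk qc' qn' fara' fark'

theorem obsi' : OBSI := obsi gds' stc' stk' smc smk hi' gau

theorem fv' : Fld Obj.FV :=
  fv (P218N.fva (P218N.sibp P218R.fv' P218R.low')) jth' gds' hi' hb' flc' flk' lag'' sound'

/-- **all fields** -/
theorem all' : Fld Obj.All :=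
  all_of eqn' zon' u0v usv' xiv'' uzl' qc' qn' fara' (farbH cy bt' fara') farc
    (fard eqs sdec' fara' u0v) (fare usv') fark' (bca cy) (bcb cy (bca cy)) hola' holb' fv' cj' nc
    rp' (prof sound' obsi') (dfv sound' obsi') (mid midw mpn' mpc' gau hi' hb')

/-- **INST from the geometric meaning of the real solutions** -/
theorem inst_lfd (lfd : LFDR) : INST := inst_of geo lex' ind all' lfd

end Vale.Agent.P218I
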