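import Vale.Agent.P218N.Spec2

/-! Block NL, rows CJA and CJF: complex conjugation. -/

open MeasureTheory Set Filter Topology
open scoped ContDiff Real

set_option linter.unusedSectionVars false

noncomputable section

namespace Vale.Agent.P218N

open Vale.Agent.P218H (J1 sa)
open Vale.Agent.P218T.HJ (wt Tb gm eta dta ps)

namespace Cq

/-! ### algebra -/

theorem sqrt_star {z : ℂ} (h : z ∈ Complex.slitPlane) :
    Complex.sqrt (star z) = star (Complex.sqrt z) := by
  have := Complex.conj_cpow z 2⁻¹ (Complex.slitPlane_arg_ne_pi h)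
  rwa [map_inv₀, map_ofNat] at this

theorem slit_star {z : ℂ} (h : z ∈ Complex.slitPlane) : star z ∈ Complex.slitPlane := by
  simpa [Complex.mem_slitPlane_iff] using h

theorem exp_star (s : ℂ) : Complex.exp (-star s / 4) = star (Complex.exp (-s / 4)) := by
  rw [Complex.star_def, ← Complex.exp_conj, map_div₀, map_neg, map_ofNat]

theorem re_star (x : ℝ) : star (x : ℂ) = x := Complex.conj_ofReal x

variable (a b l m : V3) (A B m₁ : Fin 3 → V3) (A₂ : Fin 3 → Fin 3 → V3)

theorem dt_star : dt (star a) (star b) = star (dt a b) := by simp [dt]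

theorem cr_star : cr (star a) (star b) = star (cr a b) := by
  apply ext3 <;> simp

theorem nn_star : nn (star A) (star m) = star (nn A m) := by
  simp only [nn, Pi.star_apply, cr_star, star_add, star_smul]

theorem kk_star : kk (star A) (star B) (star m) = star (kk A B m) := by
  simp only [kk, Pi.star_apply, cr_star, star_add, star_smul, star_sub]

theorem gg_star : gg (star A) (star m) = star (gg A m) := by rw [gg, nn_star, dt_star, gg]

theorem dn_star : dn (star A) (star A₂) (star m) (star m₁) = star (dn A A₂ m m₁) := by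
  funext c
  simp only [dn, Pi.star_apply, kk_star, nn_star, star_add]

theorem bb_star : bb (star A) (star A₂) (star m) (star m₁) = star (bb A A₂ m m₁) := by
  rw [bb, dn_star, kk_star, nn_star, dt_star, bb, star_neg]

theorem ee_star (θ : ℂ) :
    ee (star θ) (star a) (star A) (star A₂) (star m) (star m₁) = star (ee θ a A A₂ m m₁) := by
  simp only [ee, nn_star, dt_star, bb_star, gg_star, star_add, star_mul', star_div₀, star_ofNat]

theorem rr_star : rr (star l) (star A) (star m) = star (rr l A m) := by
  simp only [rr, Pi.star_apply, star_add, star_smul, star_sub, star_mul']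

theorem cay_star : cay (star a) (star b) = star (cay a b) := by
  simp only [cay, dt_star, cr_star, star_add, star_smul, star_div₀, star_ofNat, star_one]

theorem cx_star (v : E3) : star (cx v) = cx v := funext fun _ => re_star _

theorem lk_star (k s : ℂ) : lk (star k) (star s) = star (lk k s) := by
  simp only [lk, exp_star, star_div₀, star_pow, star_add]

theorem lk'_star (k s : ℂ) : lk' (star k) (star s) = star (lk' k s) := by
  simp only [lk', exp_star, star_div₀, star_pow, star_add, star_mul', star_ofNat]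

/-! ### derivatives -/

theorem dd_star (i : J1 3) (φ : E3 → ℂ) : P218H.dd i (star φ) = star (P218H.dd i φ) := by
  rcases i with _ | i
  · rfl
  · funext x
    exact congrArg (fun L : E3 →L[ℝ] ℂ => L _) (fderiv_star (𝕜 := ℝ) (f := φ) (x := x))

theorem pd_nu (w : E3 → ℝ) (x : E3) : star (pd (nu w) x) = pd (nu w) x := by
  funext c
  have := congrArg (fun L : E3 →L[ℝ] V3 => L (EuclideanSpace.single c 1))
    (fderiv_star (𝕜 := ℝ) (f := nu w) (x := x))
  simp only [nu, cx_star] at this
  exact this.symm

section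

variable {B : Type} [NormedAddCommGroup B] [NormedSpace ℝ B] [StarAddMonoid B] [StarModule ℝ B]
  [ContinuousStar B] {G : E3 × ℂ × B → V3} {z : E3 × ℂ × B} {x : E3} {j : Jt} {t : B}

/-- `G` commutes with conjugation near `z` -/
def Sy (G : E3 × ℂ × B → V3) (z : E3 × ℂ × B) : Prop :=
  ∀ᶠ q in 𝓝 z, G (q.1, star q.2) = star (G q)

theorem Sy.fderiv (h : Sy G z) {u : E3 × ℂ × B} (hu : star u.2 = u.2) :
    Sy (fun q => fderiv ℝ G q u) z := by
  let σ : (E3 × ℂ × B) ≃L[ℝ] E3 × ℂ × B := (ContinuousLinearEquiv.refl ℝ E3).prodCongr (starL' ℝ)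
  refine h.eventually_nhds.mono fun q k => ?_
  have e : _root_.fderiv ℝ (G ∘ σ) q = _root_.fderiv ℝ (fun q => star (G q)) q :=
    EventuallyEq.fderiv_eq k
  rw [σ.comp_right_fderiv, fderiv_star] at e
  have e' := congrArg (fun L : (E3 × ℂ × B) →L[ℝ] V3 => L u) e
  have su : σ u = u := Prod.ext rfl hu
  simp only [ContinuousLinearMap.comp_apply, ContinuousLinearEquiv.coe_coe, su] at e'
  exact e'

theorem Sy.dB (h : Sy G z) (b : Fin 3) : Sy (dB b G) z := h.fderiv (star_zero _)

theorem Sy.dF (h : Sy G z) : Sy (dF G) z := h.fderiv (Prod.ext (star_one _) (star_zero _))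

theorem Sy.at_ (h : Sy G (x, j none none, t)) :
    G (x, star j none none, star t) = star (G (x, j none none, t)) := h.self_of_nhds

theorem Sy.jA (h : Sy G (x, j none none, t)) : jA G x (star j) (star t) = star (jA G x j t) := by
  funext b
  rw [P218N.jA, (h.dB b).at_, h.dF.at_, Pi.star_apply (P218N.jA G x j t), P218N.jA, star_add,
    star_smul]
  rfl

theorem Sy.jA2 (h : Sy G (x, j none none, t)) :
    jA2 G x (star j) (star t) = star (jA2 G x j t) := by
  funext c b
  rw [P218N.jA2, (h.dB b).jA, h.dF.jA, h.dF.at_, Pi.star_apply (P218N.jA2 G x j t),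
    Pi.star_apply (P218N.jA2 G x j t c), P218N.jA2, star_add, star_add, star_smul, star_smul]
  rfl

end

/-! ### the ansatz -/

variable {ι α : Type} [Fintype ι] [Fintype α] {D : AD ι α} (x : E3) (t : Pi' ι α) (s : ℂ)

theorem ov_star (h : D.Re) : D.ov x (star t) = star (D.ov x t) := by
  have e : ∀ j l, star (D.om j l) = D.om j l := fun j l => congrFun (congrFun h.om j) l
  simp only [AD.ov, star_sum, star_smul, star_add, re_star, e, Prod.fst_star, Pi.star_apply]

theorem gw_star : D.gw x (star t) (star s) = star (D.gw x t s) := by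
  simp only [AD.gw, star_sum, star_add, star_mul', re_star, star_one, Prod.fst_star, Prod.snd_star,
    Pi.star_apply, lk_star]

theorem Om_star : D.Om x (star t) (star s) = star (D.Om x t s) := by
  rw [AD.Om, gw_star, exp_star, AD.Om, star_mul']

theorem th_star : D.th x (star t) (star s) = star (D.th x t s) := by
  simp only [AD.th, gw_star, star_sum, star_sub, star_mul', star_div₀, re_star, star_one,
    star_ofNat, Prod.fst_star, Prod.snd_star, Pi.star_apply, lk'_star]

theorem lw_star : D.lw x (star t) (star s) = star (D.lw x t s) := by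
  funext c
  simp only [AD.lw, gw_star, star_sum, star_mul', star_div₀, re_star, Prod.fst_star, Prod.snd_star,
    Pi.star_apply, lk_star]

theorem lag_star (h : D.Re) : D.lag x (star t) = star (D.lag x t) := by
  have e : ∀ i, star (D.b i x) = D.b i x := fun i => congrFun (congrFun h.b i) x
  simp only [AD.lag, star_sum, star_sub, star_mul', re_star, e, Prod.fst_star, Prod.snd_star,
    Pi.star_apply]

theorem Ln_star (h : D.Re) (j : Jt) : D.Ln x (star j) (star t) = star (D.Ln x j t) := by
  have e : ∀ i, star (D.b i x) = D.b i x := fun i => congrFun (congrFun h.b i) x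
  simp only [AD.Ln, star_sum, star_sub, star_add, star_mul', star_smul, star_trivial (R := ℝ),
    re_star, e, Prod.fst_star, Prod.snd_star, Pi.star_apply]

theorem arg_star (h : D.Re) (j : ι) (φ : ℂ) :
    D.VS j x + star φ / D.q j x = star (D.VS j x + φ / D.q j x) := by
  rw [star_add, star_div₀, show star (D.VS j x) = _ from congrFun (congrFun h.VS j) x,
    show star (D.q j x) = _ from congrFun (congrFun h.q j) x]

variable {x t}

theorem sy_XX (h : D.Re) {φ : ℂ} (k : D.Rg x φ t) : Sy D.XX (x, φ, t) := by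
  have ev : ∀ j, ∀ᶠ q : E3 × ℂ × Pi' ι α in 𝓝 (x, φ, t),
      D.lam j q.1 = 0 ∨ D.VS j q.1 + q.2.1 / D.q j q.1 ∈ Complex.slitPlane := fun j => by
    rcases k.cyl j with e | ⟨a, -, c, -, e, f⟩
    · exact ((continuousAt_fst (p := (x, φ, t))).eventually
        (show ∀ᶠ y in 𝓝 x, D.lam j y = 0 from e)).mono fun _ => .inl
    · have c' : ContinuousAt (fun q : E3 × ℂ × Pi' ι α => D.VS j q.1 + q.2.1 / D.q j q.1)
          (x, φ, t) := (a.continuousAt.comp_of_eq continuousAt_fst rfl).add
        (continuousAt_snd.fst.div (c.continuousAt.comp_of_eq continuousAt_fst rfl) e)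
      exact (c'.eventually (Complex.isOpen_slitPlane.mem_nhds f)).mono fun _ => .inr
  refine (eventually_all.2 ev).mono fun q l => ?_
  have e : D.X0 (q.1, star q.2) = star (D.X0 q) := by
    have e1 : star (D.a q.1) = D.a q.1 := congrFun h.a q.1
    have e2 : ∀ j, star (D.ax j) = D.ax j := congrFun h.ax
    have e3 : ∀ j, star (D.er j q.1) = D.er j q.1 := fun j => congrFun (congrFun h.er j) q.1
    have e4 : ∀ j, star (D.rS j q.1) = D.rS j q.1 := fun j => congrFun (congrFun h.rS j) q.1
    simp only [AD.X0, star_add, star_sum, star_smul, star_mul', star_sub, cx_star, re_star, e1, e2,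
      e3, e4, Prod.fst_star, Prod.snd_star, Pi.star_apply]
    congr 2
    refine Finset.sum_congr rfl fun j _ => ?_
    rcases l j with e | e
    · simp [e]
    · rw [arg_star _ h, sqrt_star e]
  rw [AD.XX, e, AD.XX, ← cay_star, ← ov_star _ _ h]
  rfl

theorem mn_star (f : ℝ → ℂ) : mn (fun θ => star (f θ)) = star (mn f) := integral_conj

theorem ps_star (c : ℕ → ℝ) (n : ℕ) (y : ℂ) : ps c n (star y) = star (ps c n y) := by
  simp only [ps, star_sum, star_mul', star_pow, re_star]

theorem eta_star (n : ℕ) (Z V : ℂ) :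
    eta n (star Z ^ 2 * star V / 4) = star (eta n (Z ^ 2 * V / 4)) := by
  simp only [eta, star_sub, star_one, ← ps_star, star_inv₀, star_div₀, star_mul', star_pow,
    star_ofNat]

theorem gm_star (n : ℕ) (Z V : ℂ) : gm n (star Z) (star V) = star (gm n Z V) := by
  simp only [gm, eta_star, dta, star_sub, star_add, star_one, ← ps_star, star_inv₀, star_div₀,
    star_mul', star_pow, star_ofNat]

theorem Tb_star (n : ℕ) (Z : ℂ) {V : ℂ} (h : V ∈ Complex.slitPlane) :
    Tb n (star Z) (star V) = star (Tb n Z V) := by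
  have e : wt (star Z) (star V) = star (wt Z V) := by
    simp only [wt, Complex.star_def, ← Complex.exp_conj, map_sub, map_div₀, map_neg, map_pow,
      map_ofNat]
  simp only [Tb, e, eta_star, sqrt_star h, star_mul', star_div₀, star_ofNat]

theorem PQ_star {V p : ℂ} (h : 0 < V.re) (k : ‖p‖ ^ 2 ≤ 2 * ‖V‖) :
    Pc (star V) (star p) = star (Pc V p) ∧ Qc (star V) (star p) = star (Qc V p) := by
  have V0 : 0 < ‖V‖ := h.trans_le (Complex.re_le_norm V)
  have sq : Complex.sqrt V ^ 2 = V := Complex.cpow_ofNat_inv_pow V 2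
  have n : ‖(p / Complex.sqrt V) ^ 2 / 4‖ < 1 := by
    rw [div_pow, sq, norm_div, norm_div, norm_pow, Complex.norm_ofNat, div_div,
      div_lt_one (by positivity)]
    linarith
  have e := sqrt_star (Complex.mem_slitPlane_of_norm_lt_one n)
  simp only [star_add, star_one, star_div₀, star_pow, star_ofNat] at e
  simp only [Pc, Qc, sqrt_star (.inl h), e, star_div₀, star_one, and_self]

end Cq

open Cq in
/-- **CJA** -/
theorem cja : CJA := by
  intro ι α _ _ D h x j t k
  have y := sy_XX h k.rg
  have n : star (nu D.w x) = nu D.w x := cx_star _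
  have g : gg (star (jA D.XX x j t)) (nu D.w x) = star (gg (jA D.XX x j t) (nu D.w x)) := by
    rw [← gg_star, n]
  have e : D.E x (star j) (star t) = star (D.E x j t) := by
    have r : star (rh0 x) = rh0 x := re_star _
    simp only [AD.E, y.at_, y.jA, y.jA2, y.dF.at_, g, sqrt_star k.sl, lag_star _ _ h, star_add,
      star_sub, star_mul', star_div₀, star_ofNat, ← ee_star, ← dt_star, ← cr_star, ← rr_star,
      ← nn_star, ← th_star, ← lw_star, ← Om_star, n, pd_nu, r]
  refine ⟨⟨⟨k.rg.w, k.rg.a, k.rg.lam, k.rg.rot, k.rg.sh, k.rg.ze, fun l => (k.rg.cyl l).imp_right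
    fun c => ⟨c.1, c.2.1, c.2.2.1, c.2.2.2.1, c.2.2.2.2.1, ?_⟩, ?_⟩, ⟨fun l => ?_, ?_⟩, ?_⟩,
    y.at_, e, ?_, ?_, fun φ => ?_⟩
  · exact (arg_star x h l _).symm ▸ slit_star c.2.2.2.2.2
  · rw [ov_star _ _ h, dt_star, ← star_ofNat (R := ℂ) 4, ← star_add]
    exact star_ne_zero.2 k.rg.cay
  · rw [y.at_, dt_star, exp_star]
    exact (star_add _ _).symm.trans_ne (star_ne_zero.2 (k.rw.k l))
  · rw [y.at_, dt_star, gw_star]
    exact star_ne_zero.2 k.rw.g
  · rw [y.jA, g]
    exact slit_star k.sl
  · rw [AD.Rm, e, Ln_star _ _ h, AD.Rm, star_sub]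
  · rw [AD.If, AD.Wj, y.at_, y.jA, g, sqrt_star k.sl, dt_star, Om_star, AD.If, star_mul', AD.Wj]
  · funext i i'
    rw [jt, dd_star, dd_star]
    rfl

open Cq in
/-- **CJF** -/
theorem cjf : CJF := by
  intro J₀ J v ε k ζ ζ₁ ζ₂ c V U p
  have pi : star (π : ℂ) = π := re_star _
  refine ⟨funext fun i => by fin_cases i <;> simp [rj], ?_, fun h => ⟨?_, fun l => ?_⟩⟩
  · simp only [Ef, vv, vD, te, Pi.star_apply, star_add, star_sub, star_mul', star_div₀, star_pow,
      star_ofNat, star_one, ← lk_star, ← lk'_star]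
  · simp only [Tf, Tb_star _ _ (.inl h), star_add, star_sub, star_mul', star_ofNat, star_one, pi]
  · apply ext3 <;> simp only [Bc, Pi.star_apply, Matrix.cons_val_zero, Matrix.cons_val_one,
      Matrix.cons_val, (PQ_star h (l _)).1, (PQ_star h (l _)).2, sqrt_star (.inl h), gm_star,
      star_add, star_sub, star_mul', star_div₀, star_pow, star_ofNat, star_one, ← lk_star,
      ← mn_star, re_star]

end Vale.Agent.P218N
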