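import Vale.Agent.P218N.Var

/-! Block NL: the shrinker operator in charts; cylindrical and conical ends; Cayley rotations. -/

noncomputable section

namespace Vale.Agent.P218N

open Ring (inverse)

section ring

variable {R : Type*} [CommRing R]

/-- `g_bb ⟨X_aa, N⟩ - 2 g_ab ⟨X_ab, N⟩ + g_aa ⟨X_bb, N⟩` with `N = X_a × X_b` -/
def hn (Xa Xb Xaa Xab Xbb : Fin 3 → R) : R :=
  dt Xb Xb * dt Xaa (cr Xa Xb) - 2 * dt Xa Xb * dt Xab (cr Xa Xb) + dt Xa Xa * dt Xbb (cr Xa Xb)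

/-- the squared area element in a chart -/
def g2 (Xa Xb : Fin 3 → R) : R := dt (cr Xa Xb) (cr Xa Xb)

/-- the shrinker operator in a chart -/
def e2 (θ : R) (X Xa Xb Xaa Xab Xbb : Fin 3 → R) : R :=
  θ * dt X (cr Xa Xb) + 2 * hn Xa Xb Xaa Xab Xbb * inverse (g2 Xa Xb)

/-- the conormal of a chart -/
def mt : Fin 3 → R := ![0, 0, 1]

theorem nn_mt (A : Fin 3 → Fin 3 → R) : nn A mt = cr (A 0) (A 1) := by simp [nn, mt]

theorem gg_mt (A : Fin 3 → Fin 3 → R) : gg A mt = g2 (A 0) (A 1) := by rw [gg, nn_mt, g2]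

theorem kk_mt (A B : Fin 3 → Fin 3 → R) : kk A B mt = cr (A 0) (B 1) - cr (A 1) (B 0) := by
  simp [kk, mt]

theorem bb_mt (A : Fin 3 → Fin 3 → R) (A₂ : Fin 3 → Fin 3 → Fin 3 → R) (h : A₂ 1 0 = A₂ 0 1) :
    bb A A₂ mt 0 = hn (A 0) (A 1) (A₂ 0 0) (A₂ 0 1) (A₂ 1 1) := by
  have z : nn A 0 = 0 := by simp [nn]
  simp only [bb, kk_mt, nn_mt, dn, Pi.zero_apply, z, add_zero, h, hn, dt, Pi.sub_apply, cr0, cr1,
    cr2]
  ring

/-- a linear map which preserves the dot product, and the cross product up to the sign `ε` -/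
structure Orth (T : (Fin 3 → R) → Fin 3 → R) (ε : R) : Prop where
  add : ∀ a b, T (a + b) = T a + T b
  smul : ∀ (s : R) a, T (s • a) = s • T a
  dt : ∀ a b, dt (T a) (T b) = dt a b
  cr : ∀ a b, cr (T a) (T b) = ε • T (cr a b)
  sq : ε * ε = 1

variable {T T' : (Fin 3 → R) → Fin 3 → R} {ε ε' : R}

theorem Orth.comp (h : Orth T ε) (k : Orth T' ε') : Orth (fun v => T (T' v)) (ε * ε') :=
  ⟨fun a b => by rw [k.add, h.add], fun s a => by rw [k.smul, h.smul],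
    fun a b => by rw [h.dt, k.dt], fun a b => by rw [h.cr, k.cr, h.smul, smul_smul],
    by linear_combination ε' * ε' * h.sq + k.sq⟩

theorem Orth.g2 (h : Orth T ε) (a b : Fin 3 → R) : g2 (T a) (T b) = g2 a b := by
  rw [P218N.g2, h.cr, smul_dt, dt_smul, h.dt, ← mul_assoc, h.sq, one_mul, P218N.g2]

theorem Orth.hn (h : Orth T ε) (Xa Xb Xaa Xab Xbb : Fin 3 → R) :
    hn (T Xa) (T Xb) (T Xaa) (T Xab) (T Xbb) = ε * hn Xa Xb Xaa Xab Xbb := by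
  simp only [P218N.hn, h.cr, dt_smul, h.dt]
  ring

theorem Orth.e2 (h : Orth T ε) (θ : R) (X Xa Xb Xaa Xab Xbb : Fin 3 → R) :
    e2 θ (T X) (T Xa) (T Xb) (T Xaa) (T Xab) (T Xbb) = ε * e2 θ X Xa Xb Xaa Xab Xbb := by
  simp only [P218N.e2, h.g2, h.hn, h.cr, dt_smul, h.dt]
  ring

/-- the vector with coordinates `v` in the frame `(a, b, c)` -/
def fr (a b c v : Fin 3 → R) : Fin 3 → R := v 0 • a + v 1 • b + v 2 • c

theorem orth_fr {a b c : Fin 3 → R} (aa : dt a a = 1) (bb : dt b b = 1) (ab : dt a b = 0)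
    (hc : cr a b = ε • c) (sq : ε * ε = 1) : Orth (fr a b c) ε := by
  have e : c = ε • cr a b := by rw [hc, smul_smul, sq, one_smul]
  subst e
  simp only [dt] at aa bb ab
  refine ⟨fun u v => ?_, fun s u => ?_, fun u v => ?_, fun u v => ?_, sq⟩
  · simp only [fr, Pi.add_apply, add_smul]
    abel
  · simp only [fr, Pi.smul_apply, smul_add, smul_smul, smul_eq_mul, mul_assoc]
  · simp only [fr, dt, Pi.add_apply, Pi.smul_apply, smul_eq_mul, cr0, cr1, cr2]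
    linear_combination (u 0 * v 0 + u 2 * v 2 * ε * ε * (b 0 * b 0 + b 1 * b 1 + b 2 * b 2)) * aa
      + (u 1 * v 1 + u 2 * v 2 * ε * ε) * bb + (u 0 * v 1 + u 1 * v 0
        - u 2 * v 2 * ε * ε * (a 0 * b 0 + a 1 * b 1 + a 2 * b 2)) * ab + u 2 * v 2 * sq
  · apply ext3 <;> simp only [fr, Pi.add_apply, Pi.smul_apply, smul_eq_mul, cr0, cr1, cr2]
    · linear_combination (ε * (u 1 * v 2 - u 2 * v 1) * a 0) * bb
        + (ε * (u 2 * v 0 - u 0 * v 2) * b 0) * aa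
        + ε * ((u 0 * v 2 - u 2 * v 0) * a 0 - (u 1 * v 2 - u 2 * v 1) * b 0) * ab
        - (u 0 * v 1 - u 1 * v 0) * (a 1 * b 2 - a 2 * b 1) * sq
    · linear_combination (ε * (u 1 * v 2 - u 2 * v 1) * a 1) * bb
        + (ε * (u 2 * v 0 - u 0 * v 2) * b 1) * aa
        + ε * ((u 0 * v 2 - u 2 * v 0) * a 1 - (u 1 * v 2 - u 2 * v 1) * b 1) * ab
        - (u 0 * v 1 - u 1 * v 0) * (a 2 * b 0 - a 0 * b 2) * sq
    · linear_combination (ε * (u 1 * v 2 - u 2 * v 1) * a 2) * bb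
        + (ε * (u 2 * v 0 - u 0 * v 2) * b 2) * aa
        + ε * ((u 0 * v 2 - u 2 * v 0) * a 2 - (u 1 * v 2 - u 2 * v 1) * b 2) * ab
        - (u 0 * v 1 - u 1 * v 0) * (a 0 * b 1 - a 1 * b 0) * sq

/-! ### cylindrical ends: `p = V_z`, `q = V_θ`, `a = V_zz`, `b = V_zθ`, `c = V_θθ` -/

/-- `4 V G` -/
def vD (V p q : R) : R := 4 * V ^ 2 + V * p ^ 2 + q ^ 2

/-- the nonlinear terms -/
def vN (V p q a b c : R) : R :=
  (V * p ^ 2 * (a + 2) + q ^ 2 * (c * inverse V + 4) + 2 * p * q * b) * inverse (vD V p q)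

/-- twice the operator on a cylindrical end -/
def vv2 (θ z V p q a b c : R) : R :=
  θ * (2 * V - z * p) + 2 * (a - 2 + c * inverse V - vN V p q a b c)

/-! ### conical ends: `J = (u/z, u_θ/z, u_θθ/z, u_z, u_zθ, z u_zz)` -/

/-- `G / z²` -/
def kD (l κ J₀ J₁ J₃ : R) : R := (l * (1 - κ * J₀)) ^ 2 * (1 + J₃ ^ 2) + J₁ ^ 2

/-- `B / z²` -/
def kH (l κ κ' J₀ J₁ J₂ J₃ J₄ J₅ : R) : R :=
  ((l * (1 - κ * J₀)) ^ 2 + J₁ ^ 2) * (l * (1 - κ * J₀)) * J₅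
    - 2 * J₃ * J₁ * (l * (1 - κ * J₀) * J₄ - l * (1 - κ * J₃) * J₁)
    + (1 + J₃ ^ 2) * (l * (1 - κ * J₀) * J₂ + l * (l * (1 - κ * J₀)) ^ 2 * (κ + J₃)
      + l * J₁ * (κ' * J₀ + 2 * κ * J₁))

/-- the operator on a conical end, `J₆ = z (z u_z - u)` -/
def kE (l κ κ' J₀ J₁ J₂ J₃ J₄ J₅ J₆ : R) : R :=
  2 * kH l κ κ' J₀ J₁ J₂ J₃ J₄ J₅ * inverse (kD l κ J₀ J₁ J₃) - l * (1 - κ * J₀) * J₆

/-! ### a rotating frame on a cylindrical end -/

/-- the operator for the map `C(z) X₀` with `C' = C (g ω ×)`; `X₀ = (r, 0, z)` in the moving frame,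
`i = 1 / (2 r)`, `r² = V` -/
def eR (θ z r i g g' : R) (ω : Fin 3 → R) (p q a b c : R) : R :=
  e2 θ ![r, 0, z] ![q * i, r, 0] (![p * i, 0, 1] + g • cr ω ![r, 0, z])
    ![c * i - 2 * q ^ 2 * i ^ 3 - r, 2 * (q * i), 0]
    (![b * i - 2 * p * q * i ^ 3, p * i, 0] + g • cr ω ![q * i, r, 0])
    (![a * i - 2 * p ^ 2 * i ^ 3, 0, 0] + (2 * g) • cr ω ![p * i, 0, 1] + g' • cr ω ![r, 0, z]
      + g ^ 2 • cr ω (cr ω ![r, 0, z]))

end ring

theorem ee_mt (θ : ℂ) (X : V3) (A : Fin 3 → V3) (A₂ : Fin 3 → Fin 3 → V3) (h : A₂ 1 0 = A₂ 0 1) :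
    ee θ X A A₂ mt 0 = e2 θ X (A 0) (A 1) (A₂ 0 0) (A₂ 0 1) (A₂ 1 1) := by
  rw [ee, e2, nn_mt, bb_mt _ _ h, gg_mt, Ring.inverse_eq_inv, div_eq_mul_inv]

/-- the operator on a cylindrical end -/
def vv (θ z V p q a b c : ℂ) : ℂ :=
  θ * (V - z * p / 2) + a - 2 + c / V
    - (V * p ^ 2 * (a + 2) + q ^ 2 * (c / V + 4) + 2 * p * q * b) / vD V p q

theorem vv2_eq (θ z V p q a b c : ℂ) : vv2 θ z V p q a b c = 2 * vv θ z V p q a b c := by
  simp only [vv2, vv, vN, Ring.inverse_eq_inv, div_eq_mul_inv]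
  ring

theorem g2_cyl {r ζ : ℂ} (hr : r ≠ 0) (hζ : ζ ≠ 0) (p q : ℂ) :
    g2 ![q / (2 * r), r, 0] ![p / (2 * r), 0, ζ] = ζ ^ 2 * vD (r ^ 2) (p / ζ) q / (4 * r ^ 2) := by
  simp only [g2, dt, cr0, cr1, cr2, vD, Matrix.cons_val_zero, Matrix.cons_val_one,
    Matrix.cons_val]
  field_simp
  ring

/-- the operator for `X = (√V, 0, z)` in the moving frame, parameters `(θ, z)`, height `ζ₀ (z)` -/
theorem e2_cyl {r ζ : ℂ} (hr : r ≠ 0) (hζ : ζ ≠ 0) (θ ζ₀ ζ' p q a b c : ℂ)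
    (hD : vD (r ^ 2) (p / ζ) q ≠ 0) :
    e2 θ ![r, 0, ζ₀] ![q / (2 * r), r, 0] ![p / (2 * r), 0, ζ]
      ![c / (2 * r) - q ^ 2 / (4 * r ^ 3) - r, q / r, 0]
      ![b / (2 * r) - p * q / (4 * r ^ 3), p / (2 * r), 0]
      ![a / (2 * r) - p ^ 2 / (4 * r ^ 3), 0, ζ'] =
      ζ * vv θ ζ₀ (r ^ 2) (p / ζ) q ((a - p * ζ' / ζ) / ζ ^ 2) (b / ζ) c := by
  rw [e2, g2_cyl hr hζ, Ring.inverse_eq_inv, vv]
  generalize hE : vD (r ^ 2) (p / ζ) q = D at hD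
  have hE' : D * ζ ^ 2 = 4 * r ^ 4 * ζ ^ 2 + r ^ 2 * p ^ 2 + q ^ 2 * ζ ^ 2 := by
    rw [← hE, vD]
    field_simp
  simp only [hn, dt, cr0, cr1, cr2, Matrix.cons_val_zero, Matrix.cons_val_one, Matrix.cons_val]
  field_simp
  linear_combination (-(4 : ℂ) * (r ^ 3 * (a * ζ - p * ζ') - 2 * r ^ 3 * ζ ^ 3
    + r * c * ζ ^ 3)) * hE'

theorem eR_zero {r : ℂ} (hr : r ≠ 0) (θ z : ℂ) (ω : V3) (p q a b c : ℂ)
    (hD : vD (r ^ 2) p q ≠ 0) :
    eR θ z r (2 * r)⁻¹ 0 0 ω p q a b c = vv θ z (r ^ 2) p q a b c := by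
  have := e2_cyl hr one_ne_zero θ z 0 p q a b c (by simpa using hD)
  simp only [div_one, mul_zero, sub_zero, one_pow, one_mul] at this
  rw [← this, eR]
  simp only [zero_smul, add_zero, mul_zero, ne_eq, OfNat.ofNat_ne_zero, not_false_eq_true,
    zero_pow]
  congr 1 <;> apply ext3 <;> simp <;> field_simp <;> ring

/-- the operator for `X = z γ + u n` in the frame `(γ, γ' / l, n)`, parameters `(z, θ)` -/
theorem e2_cone {z : ℂ} (hz : z ≠ 0) (l κ κ' u uz ut uzz uzt utt : ℂ) :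
    e2 1 ![z, 0, u] ![1, 0, uz] ![0, l * (z - κ * u), ut] ![0, 0, uzz] ![0, l * (1 - κ * uz), uzt]
      ![-(l * (l * (z - κ * u))), -(l * (κ' * u + 2 * κ * ut)), utt + l * κ * (l * (z - κ * u))] =
      kE l κ κ' (u / z) (ut / z) (utt / z) uz uzt (z * uzz) (z * (z * uz - u)) ∧
    g2 ![1, 0, uz] ![0, l * (z - κ * u), ut] = z ^ 2 * kD l κ (u / z) (ut / z) uz := by
  have g : g2 ![1, 0, uz] ![0, l * (z - κ * u), ut] = z ^ 2 * kD l κ (u / z) (ut / z) uz := by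
    simp only [g2, dt, cr0, cr1, cr2, kD, Matrix.cons_val_zero, Matrix.cons_val_one,
      Matrix.cons_val]
    field_simp
    ring
  refine ⟨?_, g⟩
  rw [e2, g, kE, Ring.inverse_eq_inv, Ring.inverse_eq_inv, mul_inv]
  generalize (kD l κ (u / z) (ut / z) uz)⁻¹ = D
  simp only [hn, kH, dt, cr0, cr1, cr2, Matrix.cons_val_zero, Matrix.cons_val_one, Matrix.cons_val]
  field_simp
  ring

/-! ### Cayley rotations -/

/-- the rotation with Cayley parameter `ω` -/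
def cay (ω v : V3) : V3 := v + (4 / (4 + dt ω ω)) • (cr ω v + (1 / 2 : ℂ) • cr ω (cr ω v))

theorem cay_zero (v : V3) : cay 0 v = v := by
  apply ext3 <;> simp [cay]

theorem orth_cay {ω : V3} (h : 4 + dt ω ω ≠ 0) : Orth (cay ω) 1 := by
  have h' : 4 + (ω 0 * ω 0 + ω 1 * ω 1 + ω 2 * ω 2) ≠ 0 := h
  refine ⟨fun a b => ?_, fun s a => ?_, fun a b => ?_, fun a b => ?_, one_mul 1⟩
  · apply ext3 <;>
    · simp only [cay, Pi.add_apply, Pi.smul_apply, smul_eq_mul, cr0, cr1, cr2]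
      ring
  · apply ext3 <;>
    · simp only [cay, Pi.add_apply, Pi.smul_apply, smul_eq_mul, cr0, cr1, cr2]
      ring
  · simp only [cay, dt, Pi.add_apply, Pi.smul_apply, smul_eq_mul, cr0, cr1, cr2]
    generalize hD : 4 + (ω 0 * ω 0 + ω 1 * ω 1 + ω 2 * ω 2) = D at h' ⊢
    field_simp
    rw [← hD]
    ring
  · apply ext3 <;>
    · simp only [cay, dt, Pi.add_apply, Pi.smul_apply, smul_eq_mul, cr0, cr1, cr2]
      generalize hD : 4 + (ω 0 * ω 0 + ω 1 * ω 1 + ω 2 * ω 2) = D at h' ⊢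
      field_simp
      rw [← hD]
      ring

/-- the angular velocity of the Cayley rotation -/
def av (ω η : V3) : V3 := (4 / (4 + dt ω ω)) • (η - (1 / 2 : ℂ) • cr ω η)

theorem hd_cay {𝕜 : Type*} [RCLike 𝕜] [NormedAlgebra 𝕜 ℂ] {t : 𝕜} {ω v : 𝕜 → V3} {η v' : V3}
    (hω : HasDerivAt ω η t) (hv : HasDerivAt v v' t) (h : 4 + dt (ω t) (ω t) ≠ 0) :
    HasDerivAt (fun s => cay (ω s) (v s)) (cay (ω t) (cr (av (ω t) η) (v t) + v')) t := by
  have h1 := ((hd_dt hω hω).const_add 4).fun_inv h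
  have h2 := hd_cr hω hv
  have h3 := hv.fun_add (hd_smul (h1.const_mul 4)
    (h2.fun_add (hd_smul (hasDerivAt_const t (1 / 2 : ℂ)) (hd_cr hω h2))))
  simp only [← div_eq_mul_inv] at h3
  refine h3.congr_deriv ?_
  have h' : 4 + (ω t 0 * ω t 0 + ω t 1 * ω t 1 + ω t 2 * ω t 2) ≠ 0 := h
  apply ext3 <;>
  · simp only [cay, av, dt, Pi.add_apply, Pi.sub_apply, Pi.smul_apply, smul_eq_mul, cr0, cr1, cr2]
    generalize hD : 4 + (ω t 0 * ω t 0 + ω t 1 * ω t 1 + ω t 2 * ω t 2) = D at h' ⊢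
    field_simp
    rw [← hD]
    ring

end Vale.Agent.P218N
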