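import Vale.Agent.P218N.Alg

/-! Block NL: integration by parts for the parametric area integrand in `ℝ³`. -/

open MeasureTheory Set Filter Topology

noncomputable section

namespace Vale.Agent.P218N

/-- Euclidean three-space -/
abbrev E3 := EuclideanSpace ℝ (Fin 3)

/-- complex vectors -/
abbrev V3 := Fin 3 → ℂ

variable {F : Type*} [NormedAddCommGroup F] [NormedSpace ℝ F]

/-- the partial derivatives -/
def pd (f : E3 → F) (x : E3) (c : Fin 3) : F := fderiv ℝ f x (EuclideanSpace.single c 1)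

theorem hd_pd {f : E3 → F} {x : E3} (hf : DifferentiableAt ℝ f x) (c : Fin 3) :
    HasDerivAt (fun t : ℝ => f (x + t • EuclideanSpace.single c 1)) (pd f x c) 0 :=
  hf.hasFDerivAt.hasLineDerivAt _

theorem pd_eq {f : E3 → F} {x : E3} (hf : DifferentiableAt ℝ f x) {c : Fin 3} {a : F}
    (h : HasDerivAt (fun t : ℝ => f (x + t • EuclideanSpace.single c 1)) a 0) : pd f x c = a :=
  (hd_pd hf c).unique h

theorem cd_pd {f : E3 → F} {x : E3} {n k : WithTop ℕ∞} (hf : ContDiffAt ℝ n f x)
    (h : k + 1 ≤ n) : ContDiffAt ℝ k (pd f) x :=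
  contDiffAt_pi.2 fun _ => (hf.fderiv_right h).clm_apply contDiffAt_const

theorem pd_congr {f g : E3 → F} {x : E3} (h : f =ᶠ[𝓝 x] g) : pd f x = pd g x := by
  funext c
  rw [pd, pd, h.fderiv_eq]

theorem pd_congr' {f g : E3 → F} {x : E3} (h : f =ᶠ[𝓝 x] g) : pd f =ᶠ[𝓝 x] pd g :=
  h.eventuallyEq_nhds.mono fun _ h => pd_congr h

theorem pd_apply {ι : Type*} [Fintype ι] {f : E3 → ι → F} {x : E3} (hf : DifferentiableAt ℝ f x)
    (c : Fin 3) (i : ι) : pd f x c i = pd (fun y => f y i) x c :=
  (pd_eq (differentiableAt_pi.1 hf i) (hasDerivAt_pi.1 (hd_pd hf c) i)).symm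

theorem pd_symm {f : E3 → F} {x : E3} (hf : ContDiffAt ℝ 2 f x) (b c : Fin 3) :
    pd (pd f) x b c = pd (pd f) x c b := by
  have d : DifferentiableAt ℝ (fderiv ℝ f) x :=
    (hf.fderiv_right (m := 1) (by norm_num)).differentiableAt (by norm_num)
  have e : ∀ b c, pd (pd f) x b c = fderiv ℝ (fderiv ℝ f) x (EuclideanSpace.single b 1)
      (EuclideanSpace.single c 1) := fun b c => by
    rw [pd_apply ((cd_pd hf (k := 1) (by norm_num)).differentiableAt (by norm_num)), pd]
    unfold pd
    rw [fderiv_clm_apply d (differentiableAt_const _)]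
    simp
  rw [e, e]
  exact (hf.isSymmSndFDerivAt (by simp)).eq _ _

theorem int_pd {f : E3 → ℂ} (hf : ContDiff ℝ 1 f) (hc : HasCompactSupport f) (c : Fin 3) :
    Integrable (fun x => pd f x c) ∧ ∫ x, pd f x c = 0 := by
  have i : Integrable (fun x => pd f x c) :=
    ((hf.continuous_fderiv (by norm_num)).clm_apply continuous_const).integrable_of_hasCompactSupport
      (hc.fderiv_apply ℝ _)
  refine ⟨i, ?_⟩
  have := integral_mul_fderiv_eq_neg_fderiv_mul_of_integrable (μ := (volume : Measure E3))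
    (f := fun _ : E3 => (1 : ℂ)) (g := f) (v := EuclideanSpace.single c 1) (by simp)
    (by simpa [pd] using i)
    (by simpa using hf.continuous.integrable_of_hasCompactSupport hc)
    (fun _ _ => differentiableAt_const _) (fun _ _ => hf.differentiable (by norm_num) _)
  simpa [pd] using this

/-- a function which is continuous on an open set `O` and vanishes near each point outside a compact
subset of `O` is integrable -/
theorem int_of {f : E3 → ℂ} {O K : Set E3} (hK : IsCompact K) (hO : K ⊆ O)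
    (hf : ∀ x ∈ O, ContinuousAt f x) (h0 : ∀ x, x ∉ K → f x = 0) : Integrable f := by
  have : Continuous f := continuous_iff_continuousAt.2 fun x => by
    by_cases hx : x ∈ K
    · exact hf x (hO hx)
    · exact continuousAt_const.congr
        (eventually_of_mem (hK.isClosed.isOpen_compl.mem_nhds hx) fun y hy => (h0 y hy).symm)
  exact this.integrable_of_hasCompactSupport (HasCompactSupport.intro hK h0)

theorem off_supp {M Y : E3 → V3} {x : E3} (hx : x ∉ tsupport M ∩ tsupport Y) :
    M =ᶠ[𝓝 x] (fun _ => 0) ∨ Y =ᶠ[𝓝 x] fun _ => 0 := by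
  rw [mem_inter_iff, not_and_or, notMem_tsupport_iff_eventuallyEq,
    notMem_tsupport_iff_eventuallyEq] at hx
  exact hx

theorem kk_zero (A B : Fin 3 → V3) : kk A B 0 = 0 := by simp [kk]

theorem kk_zero' (A : Fin 3 → V3) (m : V3) : kk A 0 m = 0 := by
  apply ext3 <;> simp [kk]

theorem pd_const (a : F) (x : E3) : pd (fun _ => a) x = 0 := by
  funext c
  simp [pd]

/-- **Integration by parts.** `M` is a curl free conormal field. -/
theorem ibp {O : Set E3} {X Y w M : E3 → V3} (hX : ∀ x ∈ O, ContDiffAt ℝ 2 X x)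
    (hY : ∀ x ∈ O, ContDiffAt ℝ 1 Y x) (hw : ∀ x ∈ O, ContDiffAt ℝ 1 w x)
    (hM : ∀ x ∈ O, ContDiffAt ℝ 1 M x) (hc : ∀ x ∈ O, ∀ b c, pd M x b c = pd M x c b)
    (hK : IsCompact (tsupport M ∩ tsupport Y)) (hO : tsupport M ∩ tsupport Y ⊆ O) :
    Integrable (fun x => dt (w x) (kk (pd X x) (pd Y x) (M x))) ∧
    Integrable (fun x => dt (Y x) (kk (pd w x) (pd X x) (M x))) ∧
    ∫ x, dt (w x) (kk (pd X x) (pd Y x) (M x)) = ∫ x, dt (Y x) (kk (pd w x) (pd X x) (M x)) := by
  set K := tsupport M ∩ tsupport Y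
  have hA : ∀ x ∈ O, ContDiffAt ℝ 1 (pd X) x := fun x hx => cd_pd (hX x hx) (by norm_num)
  have z1 : ∀ x, x ∉ K → dt (w x) (kk (pd X x) (pd Y x) (M x)) = 0 := fun x hx => by
    rcases off_supp hx with h | h
    · rw [h.self_of_nhds, kk_zero]; simp [dt]
    · rw [pd_congr h, pd_const, kk_zero']; simp [dt]
  have z2 : ∀ x, x ∉ K → dt (Y x) (kk (pd w x) (pd X x) (M x)) = 0 := fun x hx => by
    rcases off_supp hx with h | h
    · rw [h.self_of_nhds, kk_zero]; simp [dt]
    · rw [h.self_of_nhds]; simp [dt]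
  have i1 := int_of hK hO (fun x hx => (contDiffWithinAt_univ.1 (cd_dt (n := 0)
    ((hw x hx).of_le (by norm_num)).contDiffWithinAt (cd_kk ((hA x hx).of_le (by norm_num)).contDiffWithinAt
    (cd_pd (hY x hx) (by norm_num)).contDiffWithinAt
    ((hM x hx).of_le (by norm_num)).contDiffWithinAt))).continuousAt) z1
  have i2 := int_of hK hO (fun x hx => (contDiffWithinAt_univ.1 (cd_dt (n := 0)
    ((hY x hx).of_le (by norm_num)).contDiffWithinAt (cd_kk (cd_pd (hw x hx) (by norm_num)).contDiffWithinAt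
    ((hA x hx).of_le (by norm_num)).contDiffWithinAt
    ((hM x hx).of_le (by norm_num)).contDiffWithinAt))).continuousAt) z2
  refine ⟨i1, i2, ?_⟩
  set f : Fin 3 → E3 → ℂ := fun c x => dt (Y x) (tt (w x) (pd X x) (M x) c) with hf
  have f0 : ∀ c x, x ∉ K → f c =ᶠ[𝓝 x] fun _ => 0 := fun c x hx => by
    rcases off_supp hx with h | h
    · filter_upwards [h] with y hy
      fin_cases c <;> simp [hf, hy, tt, dt]
    · filter_upwards [h] with y hy
      simp [hf, hy, dt]
  have f1 : ∀ c, ∀ x ∈ O, ContDiffAt ℝ 1 (f c) x := fun c x hx =>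
    contDiffWithinAt_univ.1 (cd_dt (hY x hx).contDiffWithinAt (cd_tt (hw x hx).contDiffWithinAt
      (hA x hx).contDiffWithinAt (hM x hx).contDiffWithinAt c))
  have f2 : ∀ c, ContDiff ℝ 1 (f c) := fun c => contDiff_iff_contDiffAt.2 fun x => by
    by_cases hx : x ∈ K
    · exact f1 c x (hO hx)
    · exact contDiffAt_const.congr_of_eventuallyEq (f0 c x hx)
  have f3 := fun c => int_pd (f2 c) (HasCompactSupport.intro hK fun x hx => (f0 c x hx).self_of_nhds) c
  have e : ∀ x, pd (f 0) x 0 + pd (f 1) x 1 + pd (f 2) x 2 =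
      dt (w x) (kk (pd X x) (pd Y x) (M x)) - dt (Y x) (kk (pd w x) (pd X x) (M x)) := fun x => by
    by_cases hx : x ∈ K
    · have hx := hO hx
      have k : ∀ c, pd (f c) x c = dt (pd Y x c) (tt (w x) (pd X x) (M x) c) + dt (Y x)
          (tt (pd w x c) (pd X x) (M x) c + tt (w x) (pd (pd X) x c) (M x) c
            + tt (w x) (pd X x) (pd M x c) c) := fun c => by
        refine pd_eq ((f1 c x hx).differentiableAt (by norm_num)) ?_
        simpa using hd_dt (hd_pd ((hY x hx).differentiableAt (by norm_num)) c)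
          (hd_tt (hd_pd ((hw x hx).differentiableAt (by norm_num)) c)
            (hd_pd ((hA x hx).differentiableAt (by norm_num)) c)
            (hd_pd ((hM x hx).differentiableAt (by norm_num)) c) c)
      have a1 := congrArg (dt (Y x)) (tt_div (pd w x) (pd X x) (M x))
      have a2 := congrArg (dt (Y x)) (tt_div_A (w x) (pd (pd X) x) (M x) (pd_symm (hX x hx)))
      have a3 := congrArg (dt (Y x)) (tt_div_m (w x) (pd X x) (pd M x) (hc x hx))
      rw [← neg_one_smul ℂ, dt_smul] at a1
      rw [← zero_smul ℂ (0 : V3), dt_smul] at a2 a3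
      simp only [dt_add] at a1 a2 a3
      simp only [k, dt_kk (w x), dt_add]
      linear_combination a1 + a2 + a3
    · rw [z1 x hx, z2 x hx, pd_congr (f0 0 x hx), pd_congr (f0 1 x hx), pd_congr (f0 2 x hx),
        pd_const]
      simp
  rw [← sub_eq_zero, ← integral_sub i1 i2, ← integral_congr_ae (ae_of_all _ e),
    integral_add (by exact (f3 0).1.add (f3 1).1) (f3 2).1, integral_add (f3 0).1 (f3 1).1, (f3 0).2,
    (f3 1).2, (f3 2).2]
  simp

end Vale.Agent.P218N
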