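import Vale.Agent.P218N.Spec2
import Vale.Agent.P218Q.Jet

/-! Block NL, row PRF: the weights at a point and the jets on one circle. -/

set_option linter.all false

open Set Filter Topology
open scoped Real

noncomputable section

namespace Vale.Agent.P218N.Prf

open Vale.Agent.P218W (Jet XN co Adm MJ)
open Vale.Agent.P218M (rh gO wO wK gW sg ta ly Cyl)
open Vale.Agent.P218Q (Circ)

/-- the relative size of the oscillating part -/
def aa (c : ℂ) (z : ℝ) : ℝ := wK (31 / 16) c z / (‖rh c z‖ * √‖rh c z‖)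

/-- the loss in the boundary layer -/
def bb (Z z : ℝ) : ℝ := √(1 + 6 * (z ^ 2 * ly Z z))

theorem key1 {z n : ℝ} (z1 : 1 ≤ z) (n0 : 0 < n) (n6 : n ≤ 6) :
    (z ^ (2 - 2 * (31 / 16) : ℝ) * n ^ (31 / 16 : ℝ) / (n * √n)) ^ 2 * (z ^ 3 * √z) ≤ 2 * √n := by
  have a : n ^ (3 / 8 : ℝ) ≤ 2 := by
    refine le_of_pow_le_pow_left₀ (n := 8) (by norm_num) (by norm_num) ?_
    rw [← Real.rpow_natCast, ← Real.rpow_mul n0.le]
    norm_num
    linarith [pow_le_pow_left₀ n0.le n6 3]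
  refine le_trans ?_ (mul_le_mul_of_nonneg_right a (Real.sqrt_nonneg n))
  obtain ⟨a, rfl⟩ : ∃ a, z = Real.exp a := ⟨_, (Real.exp_log (by linarith)).symm⟩
  obtain ⟨b, rfl⟩ : ∃ a, n = Real.exp a := ⟨_, (Real.exp_log n0).symm⟩
  have := Real.one_le_exp_iff.1 z1
  simp only [Real.sqrt_eq_rpow, ← Real.exp_nat_mul, ← Real.exp_mul, ← Real.exp_add,
    ← Real.exp_sub, Real.exp_le_exp, Nat.cast_ofNat]
  linarith

theorem key2 {z x : ℝ} (z0 : 0 < z) (x0 : 0 < x) :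
    (z ^ (-3 / 2 : ℝ) * x ^ (1 / 4 : ℝ)) ^ 4 * z ^ 6 = x := by
  obtain ⟨a, rfl⟩ : ∃ a, z = Real.exp a := ⟨_, (Real.exp_log z0).symm⟩
  obtain ⟨b, rfl⟩ : ∃ a, x = Real.exp a := ⟨_, (Real.exp_log x0).symm⟩
  simp only [← Real.exp_nat_mul, ← Real.exp_mul, ← Real.exp_add]
  congr 1; push_cast; ring

theorem ro {z q x s L o : ℝ} (z4 : 10 ^ 4 ≤ z) (q1 : 100 ≤ q) (q2 : q ^ 2 = z) (x0 : 0 < x)
    (xn : x ≤ s ^ 2) (n6 : s ^ 2 ≤ 6) (s0 : 0 < s) (zs : 10 ^ 4 ≤ z * s) (t : 10 ^ 8 ≤ z ^ 2 * x)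
    (L0 : 0 < L) (L1 : L ≤ 1) (o0 : 0 < o) (o4 : o ^ 4 * z ^ 6 = x) :
    (o * (x⁻¹ + z ^ 2 * L) + x) / z ≤ 3 * s ∧ o * (x⁻¹ + z ^ 2 * L) + x ≤ 7 + 2 * (q * L) := by
  have z0 : 0 < z := by linarith
  have ox : o ≤ x := by
    refine le_of_pow_le_pow_left₀ (n := 4) (by norm_num) x0.le
      (le_of_mul_le_mul_right ?_ (pow_pos z0 6))
    have := mul_le_mul_of_nonneg_left (one_le_pow₀ (n := 3) (show 1 ≤ z ^ 2 * x by linarith)) x0.le
    linarith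
  have oz : o * z ≤ s := by
    refine le_of_pow_le_pow_left₀ (n := 4) (by norm_num) s0.le
      (le_of_mul_le_mul_right ?_ (pow_pos z0 2))
    have := mul_le_mul xn (show 1 ≤ (z * s) ^ 2 by nlinarith) zero_le_one (sq_nonneg s)
    linarith
  have oq : o * z ^ 2 ≤ 2 * q := by
    refine le_of_pow_le_pow_left₀ (n := 4) (by norm_num) (by positivity) ?_
    have : q ^ 4 = z ^ 2 := by rw [← q2]; ring
    have e : o ^ 4 * z ^ 6 * z ^ 2 ≤ 6 * z ^ 2 := by rw [o4]; gcongr; linarith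
    linarith [sq_nonneg z]
  have oi : o * x⁻¹ ≤ 1 := by rw [← div_eq_mul_inv]; exact (div_le_one x0).2 ox
  refine ⟨(div_le_iff₀ z0).2 ?_, by linarith [mul_le_mul_of_nonneg_right oq L0.le]⟩
  linarith [mul_le_mul oz (mul_le_of_le_one_right z0.le L1) (by positivity) s0.le]

theorem rn {z q x s y a b : ℝ} (z0 : 0 < z) (q1 : 10 ^ 6 ≤ z * q) (x0 : 0 < x)
    (d : (s ^ 2) ^ 2 ≤ 6 * x) (n6 : s ^ 2 ≤ 6) (s0 : 0 < s) (zs : 10 ^ 4 ≤ z * s) (y0 : 0 < y)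
    (a0 : 0 < a) (a5 : a ^ 2 * (z ^ 3 * q) ≤ 2 * s) (b1 : 1 ≤ b) (b2 : b ^ 2 = 1 + 6 * y)
    (b3 : b ≤ 3 * z) : a * (s ^ 2 * s) ≤ x ∧ a * (s ^ 2 * s) ≤ 3 * (a * b * s ^ 2) ∧
    √(a * (s ^ 2 * s) * (a * (s ^ 2 * s) * (x / (s ^ 2) ^ 2 + y)) / (x / (s ^ 2) ^ 2)) ≤
      3 * (a * b * s ^ 2) ∧
    a * (s ^ 2 * s) * (x / (s ^ 2) ^ 2 + y) / (x / (s ^ 2) ^ 2) ≤ 3 * (a * b ^ 2 * s ^ 2) ∧
    a * (s ^ 2 * s) * (x / (s ^ 2) ^ 2 + y) * (s ^ 2 / x) / z ≤ 3 * (a * b * s) ∧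
    a * (s ^ 2 * s) * (x / (s ^ 2) ^ 2 + y) * (s ^ 2 / x) ≤ 3 * (a * b ^ 2) := by
  have s3 : s ≤ 3 := by nlinarith
  have e1 : 1 + y * (s ^ 2) ^ 2 / x ≤ b ^ 2 := by
    rw [b2, mul_div_assoc, mul_comm 6]
    gcongr
    exact (div_le_iff₀ x0).2 d
  have e2 : a * (s ^ 2 * s) * (x / (s ^ 2) ^ 2 + y) * (s ^ 2 / x) ≤ a * b ^ 2 * s := by
    refine le_trans (le_of_eq ?_) ((mul_le_mul_of_nonneg_left e1 (mul_pos a0 s0).le).trans_eq ?_)
    · field_simp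
    · ring
  have e3 := e2.trans ((mul_le_mul_of_nonneg_left s3 (by positivity)).trans_eq (mul_comm _ _))
  refine ⟨?_, ?_, ?_, ?_, ?_, e3⟩
  · have as : 6 * a ≤ s := by
      have : 10 ^ 4 * (10 ^ 4 * 10 ^ 6) ≤ z * s * (z * s * (z * q)) := by gcongr
      refine le_of_pow_le_pow_left₀ two_ne_zero s0.le (le_of_mul_le_mul_right (by linarith)
        (show 0 < z ^ 2 * (z * q) by have : 0 < z * q := by linarith
                                     positivity))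
    refine le_of_mul_le_mul_right ?_ s0
    linarith [mul_le_mul_of_nonneg_left d a0.le, mul_le_mul_of_nonneg_left as x0.le]
  · have : a * s ^ 2 * s ≤ a * s ^ 2 * (3 * b) := by gcongr; linarith
    linarith
  · refine Real.sqrt_le_iff.2 ⟨by positivity, ?_⟩
    calc _ = (a * s ^ 2) ^ 2 * (s ^ 2 * (1 + y * (s ^ 2) ^ 2 / x)) := by field_simp
      _ ≤ (a * s ^ 2) ^ 2 * (9 * b ^ 2) := by gcongr; linarith
      _ = _ := by ring
  · refine le_trans (le_of_eq ?_) ((mul_le_mul_of_nonneg_right e3 (sq_nonneg s)).trans_eq ?_)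
    · field_simp
    · ring
  · refine (div_le_iff₀ z0).2 (e2.trans ?_)
    linarith [mul_le_mul_of_nonneg_left b3 (show 0 ≤ a * b * s by positivity)]

/-- the weights at a point -/
structure Wp (z q x s L a b n₀ n₁ n₂ n₃ n₄ n₅ o₃ o₅ : ℝ) : Prop where
  q1 : 100 ≤ q
  q2 : q ^ 2 = z
  x0 : 0 < x
  xs : x ≤ s ^ 2
  s0 : 0 < s
  s6 : s ^ 2 ≤ 6
  zs : 10 ^ 4 ≤ z * s
  a0 : 0 < a
  a5 : a ^ 2 * (z ^ 3 * q) ≤ 2 * s
  L0 : 0 < L
  L1 : L ≤ 1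
  b1 : 1 ≤ b
  b2 : b ^ 2 = 1 + 6 * (z ^ 2 * L)
  b3 : b ≤ 3 * z
  nx : n₀ ≤ x
  n0 : n₀ ≤ 3 * (a * b * s ^ 2)
  n1 : n₁ ≤ 3 * (a * b * s ^ 2)
  n2 : n₂ ≤ 3 * (a * b ^ 2 * s ^ 2)
  n3 : n₃ ≤ 3 * (a * b * s)
  n4 : n₄ ≤ 3 * (a * b ^ 2 * s)
  n5 : n₅ ≤ 3 * (a * b ^ 2)
  o3 : o₃ ≤ 3 * s
  o5 : o₅ ≤ 7 + 2 * (q * L)

/-- the weights of mode zero -/
abbrev oo (c : ℂ) (Z : ℝ) := P218W.om (fun z => (rh c z).re) (fun z => gO c Z z + (rh c z).re)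
  (wK (31 / 16) c) c Z

/-- the weights of the other modes -/
abbrev nn (c : ℂ) (Z : ℝ) := P218W.nu (wK (31 / 16) c) c Z

variable {R Z z : ℝ} {c : ℂ}

theorem wp (h : Cyl (10 ^ 8) R Z c) (R4 : 10 ^ 4 ≤ R) (hz : z ∈ Icc R Z) :
    Wp z √z (rh c z).re √‖rh c z‖ (ly Z z) (aa c z) (bb Z z) (nn c Z 0 z) (nn c Z 1 z)
      (nn c Z 2 z) (nn c Z 3 z) (nn c Z 4 z) (nn c Z 5 z) (oo c Z 3 z) (oo c Z 5 z) := by
  have z4 : 10 ^ 4 ≤ z := R4.trans hz.1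
  have z0 : 0 < z := by linarith
  have x0 := h.re0 (by norm_num) hz
  have xn : (rh c z).re ≤ ‖rh c z‖ := Complex.re_le_norm _
  have n0 := x0.trans_le xn
  have d := h.dsc z hz
  have n6 : ‖rh c z‖ ≤ 6 := by nlinarith
  have t := h.tip z hz
  have L0 := P218M.ly_pos Z z
  have L1 : ly Z z ≤ 1 := Real.exp_le_one_iff.2 (by nlinarith only [z0, hz.2])
  have a5 : aa c z ^ 2 * (z ^ 3 * √z) ≤ 2 * √‖rh c z‖ := key1 (by linarith) n0 n6
  have a0 : 0 < aa c z := by unfold aa wK; positivity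
  have o4 : wO c z ^ 4 * z ^ 6 = (rh c z).re := key2 z0 x0
  have o0 : 0 < wO c z := by unfold wO; positivity
  have b2 : bb Z z ^ 2 = 1 + 6 * (z ^ 2 * ly Z z) := Real.sq_sqrt (by positivity)
  have b0 : 0 ≤ bb Z z := Real.sqrt_nonneg _
  have s0 : 0 < √‖rh c z‖ := Real.sqrt_pos.2 n0
  have s2 : ‖rh c z‖ = √‖rh c z‖ ^ 2 := (Real.sq_sqrt n0.le).symm
  have w : wK (31 / 16) c z = aa c z * (‖rh c z‖ * √‖rh c z‖) := by unfold aa; field_simp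
  have q2 : √z ^ 2 = z := Real.sq_sqrt z0.le
  have q1 : 100 ≤ √z := Real.le_sqrt_of_sq_le (by linarith)
  have G : gW (wK (31 / 16) c) c Z z = wK (31 / 16) c z * ((rh c z).re / ‖rh c z‖ ^ 2 +
    z ^ 2 * ly Z z) := by rw [gW, P218M.sg_eq]
  simp only [P218W.om, P218W.nu, Matrix.cons_val, P218M.sg_eq, ta, gO, G, w]
  generalize √‖rh c z‖ = s at *
  generalize (rh c z).re = x, ‖rh c z‖ = n, ly Z z = L, aa c z = a, bb Z z = b, wO c z = o,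
    √z = q at *
  subst s2
  have y0 : 0 < z ^ 2 * L := by positivity
  have b1 : 1 ≤ b := by nlinarith
  have b3 : b ≤ 3 * z := by
    refine le_of_pow_le_pow_left₀ two_ne_zero (by positivity) ?_
    nlinarith [mul_le_mul_of_nonneg_left L1 (sq_nonneg z)]
  have zs : 10 ^ 4 ≤ z * s := by
    refine le_of_pow_le_pow_left₀ two_ne_zero (by positivity) ?_
    nlinarith [mul_le_mul_of_nonneg_left xn (sq_nonneg z)]
  obtain ⟨e0, e1, e2, e3, e4, e5⟩ :=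
    rn z0 (by nlinarith only [z4, q1]) x0 d n6 s0 zs y0 a0 a5 b1 b2 b3
  obtain ⟨e6, e7⟩ := ro z4 q1 q2 x0 xn n6 s0 zs t L0 L1 o0 o4
  exact ⟨q1, q2, x0, xn, s0, n6, zs, a0, a5, L0, L1, b1, b2, b3, e0, e1, e2, e3, e4,
    (mul_le_mul_of_nonneg_right e5 s0.le).trans_eq (by ring), e5, e6, e7⟩

theorem av_co (F : ℝ × ℝ → ℂ) (z : ℝ) : P218Q.av (fun θ => F (z, θ)) = co F 0 z := by
  simp [P218Q.av, interval_average_eq, co, P218W.c1]

/-- the data on an end -/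
structure Dt (R Z : ℝ) (c : ℂ) (u V : Fin 6 → ℝ × ℝ → ℂ) : Prop where
  cyl : Cyl (10 ^ 8) R Z c
  R4 : 10 ^ 4 ≤ R
  jet : Jet (Icc R Z) u
  cont : ∀ i, ContinuousOn (u i) (Icc R Z ×ˢ univ)
  xn : XN (Icc R Z) (oo c Z) (nn c Z) u (1 / 100)
  eq : ∀ i y, V i y = rj c y.1 1 0 i + u i y

namespace Dt

variable {u V : Fin 6 → ℝ × ℝ → ℂ} (h : Dt R Z c u V)
include h

theorem adu (i : Fin 6) : Adm (Icc R Z) (u i) :=
  ((h.xn i).le (ω := fun z => oo c Z i z + nn c Z i z)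
    (fun z hz => le_add_of_nonneg_right ((h.xn i).2.w0 z hz))
    fun z hz => le_add_of_nonneg_left ((h.xn i).1.w0 z hz)).adm

theorem fe : V = fun i p => rj c p.1 1 0 i + u i p := funext fun i => funext (h.eq i)

theorem ad (i : Fin 6) : Adm (Icc R Z) (V i) :=
  h.fe ▸ (P218W.adm_z _ fun z => rj c z 1 0 i).add (h.adu i)

theorem cV (i : Fin 6) : ContinuousOn (V i) (Icc R Z ×ˢ univ) := by
  rw [h.fe]
  refine (Continuous.continuousOn ?_).add (h.cont i)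
  fin_cases i <;> simp only [rj, Matrix.cons_val, Fin.reduceFinMk] <;> fun_prop

theorem mj : MJ (Icc R Z) V := by
  have d : ∀ z : ℝ, HasDerivAt (fun z : ℝ => (z : ℂ)) 1 z := fun z => Complex.ofRealCLM.hasDerivAt
  have j : Jet (Icc R Z) fun i p => rj c p.1 1 0 i :=
    ⟨P218W.der_z (φ := fun z => 2 + c * (z ^ 2 - 2)) (φ' := fun z => 2 * c * z * 1) fun z _ =>
      ((((d z).fun_pow 2).sub_const 2).const_mul c |>.const_add 2).congr_deriv (by simp; ring),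
    P218W.der_z fun z _ => hasDerivAt_const z 0,
    P218W.der_z (φ := fun z => 2 * c * z * 1) (φ' := fun z => 2 * c * 1 ^ 2 + 2 * c * z * 0)
      fun z _ => (((d z).const_mul (2 * c)).mul_const 1).congr_deriv (by ring)⟩
  refine Jet.mj (h.fe ▸ j.add h.jet) ?_ h.ad h.cV
  rw [interior_Icc, closure_Ioo (by linarith [h.cyl.RZ])]

theorem ce (hz : z ∈ Icc R Z) (i : Fin 6) : co (V i) 0 z = rj c z 1 0 i + co (u i) 0 z := by
  rw [h.fe, P218W.co_add (P218W.adm_z _ fun z => rj c z 1 0 i) (h.adu i) 0 hz,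
    P218W.co_z fun z => rj c z 1 0 i, if_pos rfl]

theorem osc (hz : z ∈ Icc R Z) (i : Fin 6) (θ : ℝ) :
    ‖V i (z, θ) - co (V i) 0 z‖ ≤ nn c Z i z / 200 := by
  rw [h.ce hz, h.eq, add_sub_add_left_eq_sub]
  exact ((h.xn i).2.apply hz θ).trans_eq (by ring)

theorem mean (hz : z ∈ Icc R Z) (i : Fin 6) :
    ‖co (V i) 0 z - rj c z 1 0 i‖ ≤ oo c Z i z / 200 := by
  rw [h.ce hz, add_sub_cancel_left]
  exact ((h.xn i).1.apply hz 0).trans_eq (by ring)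

theorem circ (hz : z ∈ Icc R Z) : Circ (fun θ => V 0 (z, θ)) (fun θ => V 3 (z, θ))
    (fun θ => V 1 (z, θ)) (fun θ => V 5 (z, θ)) (fun θ => V 4 (z, θ)) (fun θ => V 2 (z, θ))
    (co (V 0) 0 z) (co (V 3) 0 z) (co (V 5) 0 z) (aa c z * bb Z z) (aa c z * bb Z z ^ 2) ∧
    ‖co (V 0) 0 z - rh c z‖ ≤ (rh c z).re / 200 ∧ ‖co (V 5) 0 z‖ ≤ 1 + √z * ly Z z ∧
    ∀ θ, ‖V 0 (z, θ) - rh c z‖ ≤ (rh c z).re / 100 := by
  have w := wp h.cyl h.R4 hz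
  have z4 : 10 ^ 4 ≤ z := h.R4.trans hz.1
  have z0 : 0 < z := by linarith
  have m1 : co (V 1) 0 z = 0 := by simp [h.mj.t1 0 z hz]
  have m2 : co (V 2) 0 z = 0 := by simp [h.mj.t2 0 z hz]
  have m4 : co (V 4) 0 z = 0 := by simp [h.mj.t4 0 z hz]
  have e0 : ‖co (V 0) 0 z - rh c z‖ ≤ (rh c z).re / 200 := h.mean hz 0
  have e3 : ‖co (V 3) 0 z - 2 * c * z * 1‖ ≤ _ := h.mean hz 3
  have e5 : ‖co (V 5) 0 z - (2 * c * 1 ^ 2 + 2 * c * z * 0)‖ ≤ _ := h.mean hz 5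
  have cz : ‖c‖ * z ^ 2 ≤ 8 := le_trans (by gcongr; exact hz.2) h.cyl.cZ
  have s2 : ‖rh c z‖ = √‖rh c z‖ ^ 2 := (Real.sq_sqrt (norm_nonneg _)).symm
  have o := h.osc hz
  have o1 := o 1; have o2 := o 2; have o4 := o 4
  simp only [m1, m2, m4, sub_zero] at o1 o2 o4
  have n0 := (P218Q.Jet.nrm e0).1
  have n3 := (P218Q.Jet.nrm e3).2
  have n5 := (P218Q.Jet.nrm e5).2
  simp only [norm_mul, mul_one, one_pow, mul_zero, add_zero, Complex.norm_ofNat, Complex.norm_real,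
    Real.norm_of_nonneg z0.le] at n3 n5
  have r0 := (abs_le.1 ((Complex.abs_re_le_norm _).trans e0)).1
  rw [Complex.sub_re] at r0
  generalize √‖rh c z‖ = s, aa c z = a, bb Z z = b, √z = q, ly Z z = L at *
  have s0 := w.s0; have a0 := w.a0; have b1 := w.b1; have x0 := w.x0; have L0 := w.L0
  have q1 := w.q1; have xs := w.xs
  have v1 : s ^ 2 ≤ 2 * ‖co (V 0) 0 z‖ := by linarith
  have v2 : s ≤ 2 * √‖co (V 0) 0 z‖ := by
    nlinarith [Real.le_sqrt_of_sq_le (show (s / 2) ^ 2 ≤ ‖co (V 0) 0 z‖ by nlinarith)]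
  have ab : 0 < a * b := by positivity
  have ab2 : 0 < a * b ^ 2 := by positivity
  have k1 := mul_le_mul_of_nonneg_left v1 ab.le
  have k2 := mul_le_mul_of_nonneg_left v2 ab.le
  have k3 := mul_le_mul_of_nonneg_left v1 ab2.le
  have k4 := mul_le_mul_of_nonneg_left v2 ab2.le
  have k5 := mul_pos ab (pow_pos s0 2)
  have k6 := mul_pos ab s0
  have k7 := mul_pos ab2 (pow_pos s0 2)
  have k8 := mul_pos ab2 s0
  have c1 : ‖c‖ * z ≤ s / 1000 := by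
    refine le_of_mul_le_mul_right ?_ z0
    linarith [w.zs]
  have c2 : ‖c‖ ≤ 1 / 1000 := by nlinarith only [cz, z4, norm_nonneg c]
  refine ⟨⟨(h.ad 0 z hz).1, (h.ad 3 z hz).1, (h.ad 1 z hz).1, (h.ad 5 z hz).1, (h.ad 4 z hz).1,
    (h.ad 2 z hz).1, av_co _ _, av_co _ _, (av_co _ _).trans m1, av_co _ _, (av_co _ _).trans m4,
    (av_co _ _).trans m2, by linarith, ?_, ab, ?_, fun θ => by linarith [o 0 θ, w.n0],
    fun θ => by linarith [o 3 θ, w.n3], fun θ => by linarith [o1 θ, w.n1],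
    fun θ => by linarith [o 5 θ, w.n5], fun θ => by linarith [o4 θ, w.n4],
    fun θ => by linarith [o2 θ, w.n2]⟩, e0, by linarith [w.o5, mul_pos (by linarith : 0 < q) L0],
    fun θ => ?_⟩
  · have : ‖co (V 3) 0 z‖ ≤ s / 2 := by linarith [w.o3]
    nlinarith only [this, v1, norm_nonneg (co (V 3) 0 z)]
  · refine le_of_pow_le_pow_left₀ two_ne_zero (by norm_num)
      (le_of_mul_le_mul_right ?_ (show 0 < z * q by positivity))
    have : a ^ 2 * b ^ 2 * (z * q) ≤ a ^ 2 * (3 * z) ^ 2 * (z * q) := by gcongr; exact w.b3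
    have : 10 ^ 4 * 100 ≤ z * q := by gcongr
    have : s ≤ 3 := by nlinarith only [w.s6]
    linarith [w.a5]
  · linarith [norm_sub_le_norm_sub_add_norm_sub (V 0 (z, θ)) (co (V 0) 0 z) (rh c z), o 0 θ, w.nx]

end Dt

end Vale.Agent.P218N.Prf
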