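import Vale.Agent.P218N.Amb

/-! Block NL: calculus of the functions which are smooth in the point and holomorphic in the
parameters; the chain rule on jets. -/

open Set Filter Topology
open scoped ContDiff

set_option linter.unusedSectionVars false

noncomputable section

namespace Vale.Agent.P218N

section

variable {E E' P P' F G : Type*} [NormedAddCommGroup E] [NormedSpace ℝ E]
  [NormedAddCommGroup E'] [NormedSpace ℝ E']
  [NormedAddCommGroup P] [NormedSpace ℝ P] [NormedSpace ℂ P] [IsScalarTower ℝ ℂ P]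
  [NormedAddCommGroup P'] [NormedSpace ℝ P'] [NormedSpace ℂ P'] [IsScalarTower ℝ ℂ P']
  [NormedAddCommGroup F] [NormedSpace ℝ F] [NormedSpace ℂ F] [IsScalarTower ℝ ℂ F]
  [NormedAddCommGroup G] [NormedSpace ℝ G] [NormedSpace ℂ G] [IsScalarTower ℝ ℂ G]
  {Φ Ψ : E × P → F} {z : E × P}

namespace SH

theorem cont (h : SH Φ z) : ContinuousAt Φ z := h.sm.continuousAt

theorem at_ (h : SH Φ z) : DifferentiableAt ℂ (fun ζ => Φ (z.1, ζ)) z.2 := h.hol.self_of_nhds

theorem ev (h : SH Φ z) (n : ℕ) : ∀ᶠ q in 𝓝 z, ContDiffAt ℝ n Φ q :=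
  (h.sm.of_le (by exact_mod_cast le_top)).eventually (by simp)

theorem congr (h : SH Φ z) (e : Ψ =ᶠ[𝓝 z] Φ) : SH Ψ z :=
  ⟨h.sm.congr_of_eventuallyEq e, (h.hol.and e.eventuallyEq_nhds).mono fun q k =>
    k.1.congr_of_eventuallyEq ((Continuous.prodMk_right q.1).continuousAt.eventually k.2)⟩

theorem fst {g : E → F} (h : ContDiffAt ℝ ∞ g z.1) : SH (fun q : E × P => g q.1) z :=
  ⟨h.comp z contDiffAt_fst, .of_forall fun q => differentiableAt_const (g q.1)⟩

theorem const (a : F) : SH (fun _ : E × P => a) z := fst contDiffAt_const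

theorem real {g : E → ℝ} (h : ContDiffAt ℝ ∞ g z.1) : SH (fun q : E × P => (g q.1 : ℂ)) z :=
  fst (Complex.ofRealCLM.contDiff.contDiffAt.comp _ h)

theorem snd : SH (fun q : E × P => q.2) z := ⟨contDiffAt_snd, .of_forall fun _ => differentiableAt_id⟩

theorem prodMk {Ψ : E × P → G} (h : SH Φ z) (k : SH Ψ z) : SH (fun q => (Φ q, Ψ q)) z :=
  ⟨h.sm.prodMk k.sm, (h.hol.and k.hol).mono fun _ l => l.1.prodMk l.2⟩

theorem pi {ι : Type*} [Fintype ι] {Φ : E × P → ι → F} (h : ∀ i, SH (fun q => Φ q i) z) : SH Φ z :=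
  ⟨contDiffAt_pi.2 fun i => (h i).sm,
    (eventually_all.2 fun i => (h i).hol).mono fun _ l => differentiableAt_pi.2 l⟩

end SH

theorem SH.hcomp {g : F → G} (h : SH Φ z) (hg : ContDiffAt ℂ ∞ g (Φ z)) :
    SH (fun q => g (Φ q)) z :=
  ⟨(hg.restrict_scalars ℝ).comp z h.sm, (h.hol.and (h.cont.eventually
    ((hg.of_le (m := 1) (by exact_mod_cast le_top)).eventually (by simp)))).mono fun q l =>
      (l.2.differentiableAt one_ne_zero).comp q.2 l.1⟩

namespace SH

theorem clm (L : F →L[ℂ] G) (h : SH Φ z) : SH (fun q => L (Φ q)) z := h.hcomp L.contDiff.contDiffAt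

theorem ap {ι : Type*} [Fintype ι] {Φ : E × P → ι → F} (h : SH Φ z) (i : ι) :
    SH (fun q => Φ q i) z := h.clm (.proj i)

theorem p1 {Φ : E × P → F × G} (h : SH Φ z) : SH (fun q => (Φ q).1) z := h.clm (.fst ℂ F G)

theorem p2 {Φ : E × P → F × G} (h : SH Φ z) : SH (fun q => (Φ q).2) z := h.clm (.snd ℂ F G)

theorem add (h : SH Φ z) (k : SH Ψ z) : SH (fun q => Φ q + Ψ q) z :=
  (h.prodMk k).hcomp (g := fun a => a.1 + a.2) (by fun_prop)

theorem sub (h : SH Φ z) (k : SH Ψ z) : SH (fun q => Φ q - Ψ q) z :=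
  (h.prodMk k).hcomp (g := fun a => a.1 - a.2) (by fun_prop)

theorem neg (h : SH Φ z) : SH (fun q => -Φ q) z := h.hcomp (g := fun a => -a) (by fun_prop)

theorem smul {a : E × P → ℂ} (h : SH a z) (k : SH Ψ z) : SH (fun q => a q • Ψ q) z :=
  (h.prodMk k).hcomp (g := fun a => a.1 • a.2) (by fun_prop)

theorem sum {ι : Type*} (s : Finset ι) {Φ : ι → E × P → F} (h : ∀ i, SH (Φ i) z) :
    SH (fun q => ∑ i ∈ s, Φ i q) z := by
  classical
  induction s using Finset.induction_on with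
  | empty => simpa using const 0
  | insert i s hi ih => simpa only [Finset.sum_insert hi] using (h i).add ih

variable {a b : E × P → ℂ}

theorem mul (h : SH a z) (k : SH b z) : SH (fun q => a q * b q) z := h.smul k

theorem inv (h : SH a z) (n : a z ≠ 0) : SH (fun q => (a q)⁻¹) z := h.hcomp (contDiffAt_inv ℂ n)

theorem div (h : SH a z) (k : SH b z) (n : b z ≠ 0) : SH (fun q => a q / b q) z := by
  simpa only [div_eq_mul_inv] using h.mul (k.inv n)

theorem pow (h : SH a z) (n : ℕ) : SH (fun q => a q ^ n) z :=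
  h.hcomp (g := fun a => a ^ n) (by fun_prop)

theorem exp (h : SH a z) : SH (fun q => Complex.exp (a q)) z := h.hcomp Complex.contDiff_exp.contDiffAt

theorem sqrt (h : SH a z) (n : a z ∈ Complex.slitPlane) : SH (fun q => Complex.sqrt (a q)) z :=
  h.hcomp (cd_sqrt n)

variable {u v m : E × P → V3} {A B m₁ : E × P → Fin 3 → V3} {A₂ : E × P → Fin 3 → Fin 3 → V3}

theorem dt (h : SH u z) (k : SH v z) : SH (fun q => dt (u q) (v q)) z :=
  (((h.ap 0).mul (k.ap 0)).add ((h.ap 1).mul (k.ap 1))).add ((h.ap 2).mul (k.ap 2))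

theorem cr (h : SH u z) (k : SH v z) : SH (fun q => cr (u q) (v q)) z :=
  pi fun i => by
    fin_cases i
    exacts [((h.ap 1).mul (k.ap 2)).sub ((h.ap 2).mul (k.ap 1)),
      ((h.ap 2).mul (k.ap 0)).sub ((h.ap 0).mul (k.ap 2)),
      ((h.ap 0).mul (k.ap 1)).sub ((h.ap 1).mul (k.ap 0))]

theorem nn (h : SH A z) (k : SH m z) : SH (fun q => nn (A q) (m q)) z :=
  (((k.ap 0).smul ((h.ap 1).cr (h.ap 2))).add ((k.ap 1).smul ((h.ap 2).cr (h.ap 0)))).add
    ((k.ap 2).smul ((h.ap 0).cr (h.ap 1)))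

theorem gg (h : SH A z) (k : SH m z) : SH (fun q => gg (A q) (m q)) z := (h.nn k).dt (h.nn k)

theorem kk (h : SH A z) (h' : SH B z) (k : SH m z) : SH (fun q => kk (A q) (B q) (m q)) z :=
  (((k.ap 0).smul (((h.ap 1).cr (h'.ap 2)).sub ((h.ap 2).cr (h'.ap 1)))).add
    ((k.ap 1).smul (((h.ap 2).cr (h'.ap 0)).sub ((h.ap 0).cr (h'.ap 2))))).add
    ((k.ap 2).smul (((h.ap 0).cr (h'.ap 1)).sub ((h.ap 1).cr (h'.ap 0))))

theorem rr (h : SH u z) (h' : SH A z) (k : SH m z) : SH (fun q => rr (u q) (A q) (m q)) z :=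
  (((((k.ap 1).mul (h.ap 2)).sub ((k.ap 2).mul (h.ap 1))).smul (h'.ap 0)).add
    ((((k.ap 2).mul (h.ap 0)).sub ((k.ap 0).mul (h.ap 2))).smul (h'.ap 1))).add
    ((((k.ap 0).mul (h.ap 1)).sub ((k.ap 1).mul (h.ap 0))).smul (h'.ap 2))

theorem ee (t : SH a z) (x : SH u z) (h : SH A z) (h₂ : SH A₂ z) (k : SH m z) (k₁ : SH m₁ z)
    (n : P218N.gg (A z) (m z) ≠ 0) :
    SH (fun q => ee (a q) (u q) (A q) (A₂ q) (m q) (m₁ q)) z :=
  (t.mul (x.dt (h.nn k))).add (((const 2).mul ((h.nn k).dt ((pi fun c =>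
    (h.kk (h₂.ap c) k).add (h.nn (k₁.ap c))).kk h k)).neg).div (h.gg k) n)

theorem cay (h : SH u z) (k : SH v z) (n : 4 + P218N.dt (u z) (u z) ≠ 0) :
    SH (fun q => cay (u q) (v q)) z :=
  k.add (((const 4).div ((const 4).add (h.dt h)) n).smul
    ((h.cr k).add ((const _).smul (h.cr (h.cr k)))))

end SH

/-- the partial derivative in the parameters -/
theorem SH.part (d : DifferentiableAt ℝ Φ z) (h : DifferentiableAt ℂ (fun ζ => Φ (z.1, ζ)) z.2)
    (s : P) : fderiv ℝ Φ z (0, s) = fderiv ℂ (fun ζ => Φ (z.1, ζ)) z.2 s := by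
  have e := (d.hasFDerivAt.comp z.2 (hasFDerivAt_prodMk_right z.1 z.2)).unique
    (h.hasFDerivAt.restrictScalars ℝ)
  exact congrArg (fun L => L s) e

theorem SH.lin (h : SH Φ z) : ∀ᶠ q in 𝓝 z, ∀ (a : ℂ) s,
    fderiv ℝ Φ q (0, a • s) = a • fderiv ℝ Φ q (0, s) :=
  ((h.ev 1).and h.hol).mono fun q k a s => by
    rw [SH.part (k.1.differentiableAt (by simp)) k.2, SH.part (k.1.differentiableAt (by simp)) k.2,
      map_smul]

/-- derivatives in a fixed direction -/
theorem SH.fderiv (h : SH Φ z) (u : E × P) : SH (fun q => fderiv ℝ Φ q u) z := by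
  refine ⟨(h.sm.fderiv_right (m := ∞) (by simp)).clm_apply contDiffAt_const, ?_⟩
  filter_upwards [h.ev 2, h.lin.eventually_nhds] with q c l
  have c : ContDiffAt ℝ 2 Φ q := by exact_mod_cast c
  have d := ((c.fderiv_right (m := 1) (by norm_num)).differentiableAt one_ne_zero).hasFDerivAt
  have d' : ∀ v, HasFDerivAt (fun y => _root_.fderiv ℝ Φ y v)
      ((_root_.fderiv ℝ (_root_.fderiv ℝ Φ) q).flip v) q := fun v => by
    simpa using d.clm_apply (hasFDerivAt_const v q)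
  let L := ((_root_.fderiv ℝ (_root_.fderiv ℝ Φ) q).flip u).comp (.inr ℝ E P)
  have hL : ∀ (a : ℂ) s, L (a • s) = a • L s := fun a s => by
    have e := ((d' (0, a • s)).congr_of_eventuallyEq
      (l.mono fun y k => (k a s).symm)).unique ((d' (0, s)).const_smul a)
    have sy := (c.isSymmSndFDerivAt (by simp)).eq
    change _root_.fderiv ℝ (_root_.fderiv ℝ Φ) q (0, a • s) u =
      a • _root_.fderiv ℝ (_root_.fderiv ℝ Φ) q (0, s) u
    rw [sy, sy (0, s)]
    exact congrArg (fun L => L u) e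
  exact (hasFDerivAt_of_restrictScalars ℝ (f' := ⟨⟨⟨L, L.map_add⟩, hL⟩, L.cont⟩)
    ((d' u).comp q.2 (hasFDerivAt_prodMk_right q.1 q.2)) rfl).differentiableAt

/-- composition -/
theorem SH.comp {y : E' × P'} {g : E' → E} {k : E' × P' → P} (h : SH Φ (g y.1, k y))
    (hg : ContDiffAt ℝ ∞ g y.1) (hk : SH k y) : SH (fun q => Φ (g q.1, k q)) y :=
  have c := (hg.comp y contDiffAt_fst).prodMk hk.sm
  ⟨h.sm.comp y c, (hk.hol.and (c.continuousAt.eventually h.hol)).mono fun q l =>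
    DifferentiableAt.comp (g := fun ζ => Φ (g q.1, ζ)) (f := fun ζ => k (q.1, ζ)) q.2 l.2 l.1⟩

end

/-! ### the chain rule -/

section

variable {B : Type*} [NormedAddCommGroup B] [NormedSpace ℝ B] [NormedSpace ℂ B]
  [IsScalarTower ℝ ℂ B] {G : E3 × ℂ × B → V3} {φ : E3 → ℂ} {x : E3} {t : B} {z : E3 × ℂ × B}

theorem SH.dB (h : SH G z) (b : Fin 3) : SH (dB b G) z := h.fderiv _

theorem SH.dF (h : SH G z) : SH (dF G) z := h.fderiv _

theorem pd_jA (d : DifferentiableAt ℝ G (x, φ x, t)) (l : ∀ (a : ℂ) s,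
    fderiv ℝ G (x, φ x, t) (0, a • s) = a • fderiv ℝ G (x, φ x, t) (0, s))
    (hφ : DifferentiableAt ℝ φ x) : pd (fun y => G (y, φ y, t)) x = jA G x (jt φ x) t := by
  funext b
  have e : HasFDerivAt (fun y => G (y, φ y, t)) _ x := d.hasFDerivAt.comp x
    ((hasFDerivAt_id x).prodMk (hφ.hasFDerivAt.prodMk (hasFDerivAt_const t x)))
  rw [pd, e.fderiv, jA, dB, dF]
  change fderiv ℝ G (x, φ x, t) (EuclideanSpace.single b 1, pd φ x b, 0) =
    fderiv ℝ G (x, φ x, t) _ + pd φ x b • fderiv ℝ G (x, φ x, t) _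
  rw [← l, ← map_add]
  simp

theorem SH.ev_jA (h : SH G (x, φ x, t)) (hφ : ContDiffAt ℝ 1 φ x) :
    pd (fun y => G (y, φ y, t)) =ᶠ[𝓝 x] fun y => jA G y (jt φ y) t := by
  have c : ContinuousAt (fun y => (y, φ y, t)) x :=
    continuousAt_id.prodMk (hφ.continuousAt.prodMk continuousAt_const)
  filter_upwards [c.eventually (h.ev 1), c.eventually h.lin, hφ.eventually (by simp)] with y a b d
  exact pd_jA (a.differentiableAt (by simp)) b (d.differentiableAt one_ne_zero)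

theorem SH.pd (h : SH G (x, φ x, t)) (hφ : DifferentiableAt ℝ φ x) :
    pd (fun y => G (y, φ y, t)) x = jA G x (jt φ x) t :=
  pd_jA (h.sm.differentiableAt (by simp)) h.lin.self_of_nhds hφ

theorem SH.cd (h : SH G (x, φ x, t)) {n : ℕ} (hφ : ContDiffAt ℝ n φ x) :
    ContDiffAt ℝ n (fun y => G (y, φ y, t)) x :=
  (h.ev n).self_of_nhds.comp x (contDiffAt_id.prodMk (hφ.prodMk contDiffAt_const))

theorem SH.pd2 (h : SH G (x, φ x, t)) (hφ : ContDiffAt ℝ 2 φ x) :
    P218N.pd (P218N.pd fun y => G (y, φ y, t)) x = jA2 G x (jt φ x) t := by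
  have h1 : ContDiffAt ℝ (1 : ℕ) φ x := hφ.of_le (by norm_num)
  have d1 := h1.differentiableAt (by simp)
  have d2 := fun b => (differentiableAt_pi.1
    ((cd_pd hφ (k := 1) (by norm_num)).differentiableAt one_ne_zero) b)
  funext c b
  rw [pd_apply ((cd_pd (h.cd (n := 2) hφ) (k := 1) (by norm_num)).differentiableAt one_ne_zero),
    pd_congr (g := fun y => P218N.dB b G (y, φ y, t) + P218N.pd φ y b • P218N.dF G (y, φ y, t))
      ((h.ev_jA h1).mono fun y e => congrFun e b)]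
  have a1 := ((h.dB b).cd h1).differentiableAt (by simp)
  have a2 := (h.dF.cd h1).differentiableAt (by simp)
  refine pd_eq (a1.add ((d2 b).smul a2)) ?_
  have := (hd_pd a1 c).fun_add (hd_smul (hd_pd (d2 b) c) (hd_pd a2 c))
  simp only [zero_smul, add_zero, (h.dB b).pd d1, h.dF.pd d1] at this
  refine this.congr_deriv ?_
  rw [jA2, add_assoc, add_comm (_ • P218N.dF _ _)]
  rfl

end

end Vale.Agent.P218N
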