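import Vale.Agent.P218N.Ibp

/-! Block NL: the weighted area integrand, its first variation, covariance. -/

open MeasureTheory Set Filter Topology

noncomputable section

namespace Vale.Agent.P218N

/-- the shrinker operator `θ ⟨X, N⟩ + 2 B / G` on jets -/
def ee (θ : ℂ) (X : V3) (A : Fin 3 → V3) (A₂ : Fin 3 → Fin 3 → V3) (m : V3) (m₁ : Fin 3 → V3) : ℂ :=
  θ * dt X (nn A m) + 2 * bb A A₂ m m₁ / gg A m

/-- the shrinker operator of the map `X` with conormal field `m` -/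
def eX (θ : ℂ) (X m : E3 → V3) (x : E3) : ℂ :=
  ee θ (X x) (pd X x) (pd (pd X) x) (m x) (pd m x)

/-- the area element -/
def wX (X m : E3 → V3) (x : E3) : ℂ := Complex.sqrt (gg (pd X x) (m x))

/-- the tangent vector dual to the covector `l` -/
def rr (l : V3) (A : Fin 3 → V3) (m : V3) : V3 :=
  (m 1 * l 2 - m 2 * l 1) • A 0 + (m 2 * l 0 - m 0 * l 2) • A 1 + (m 0 * l 1 - m 1 * l 0) • A 2

theorem kk_rr {R : Type*} [CommRing R] (w l : Fin 3 → R) (A : Fin 3 → Fin 3 → R) (m : Fin 3 → R) :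
    kk (fun c => l c • w) A m = cr w ((m 1 * l 2 - m 2 * l 1) • A 0
      + (m 2 * l 0 - m 0 * l 2) • A 1 + (m 0 * l 1 - m 1 * l 0) • A 2) := by
  apply ext3 <;>
  · simp only [kk, Pi.add_apply, Pi.sub_apply, Pi.smul_apply, smul_eq_mul, cr0, cr1, cr2]
    ring

theorem sq_sqrt (G : ℂ) : Complex.sqrt G ^ 2 = G := by
  simp [Complex.sqrt]

theorem sqrt_ne {G : ℂ} (h : G ≠ 0) : Complex.sqrt G ≠ 0 := fun e => h (by
  rw [← sq_sqrt G, e]; simp)

theorem hd_sqrt {G : ℂ} (h : G ∈ Complex.slitPlane) :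
    HasDerivAt Complex.sqrt (1 / (2 * Complex.sqrt G)) G := by
  refine (Complex.hasDerivAt_sqrt h).congr_deriv ?_
  rw [show (-1 / 2 : ℂ) = -2⁻¹ by norm_num, Complex.cpow_neg, Complex.sqrt]
  ring

theorem cd_sqrt {G : ℂ} (h : G ∈ Complex.slitPlane) {n : WithTop ℕ∞} :
    ContDiffAt ℂ n Complex.sqrt G := by
  have : AnalyticAt ℂ Complex.sqrt G :=
    (DifferentiableOn.analyticAt (s := Complex.slitPlane)
      (fun _ h => (hd_sqrt h).differentiableAt.differentiableWithinAt)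
      (Complex.isOpen_slitPlane.mem_nhds h))
  exact this.contDiffAt

/-- derivative of the area element along a curve of jets -/
theorem hd_area {𝕜 : Type*} [RCLike 𝕜] [NormedAlgebra 𝕜 ℂ] {t : 𝕜} {A : 𝕜 → Fin 3 → V3}
    {A' : Fin 3 → V3} {m : 𝕜 → V3} {m' : V3} (hA : HasDerivAt A A' t) (hm : HasDerivAt m m' t)
    (hG : gg (A t) (m t) ∈ Complex.slitPlane) :
    HasDerivAt (fun s => Complex.sqrt (gg (A s) (m s)))
      (dt (nn (A t) (m t)) (kk (A t) A' (m t) + nn (A t) m') / Complex.sqrt (gg (A t) (m t))) t := by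
  have h := hd_dt (hd_nn hA hm) (hd_nn hA hm)
  refine (((hd_sqrt hG).hasFDerivAt.restrictScalars 𝕜).comp_hasDerivAt t h).congr_deriv ?_
  have := sqrt_ne (Complex.slitPlane_ne_zero hG)
  simp only [ContinuousLinearMap.coe_restrictScalars', ContinuousLinearMap.toSpanSingleton_apply,
    smul_eq_mul, dt_comm (kk _ _ _ + _)]
  field_simp
  ring

variable {X Y m : E3 → V3} {x : E3}

theorem pd_nn (hX : ContDiffAt ℝ 2 X x) (hm : ContDiffAt ℝ 1 m x) :
    pd (fun y => nn (pd X y) (m y)) x = dn (pd X x) (pd (pd X) x) (m x) (pd m x) := by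
  have hA := cd_pd hX (k := 1) (by norm_num)
  funext c
  refine pd_eq ((contDiffWithinAt_univ.1 (cd_nn hA.contDiffWithinAt
    hm.contDiffWithinAt)).differentiableAt (by norm_num)) ?_
  simpa [dn] using hd_nn (hd_pd (hA.differentiableAt (by norm_num)) c)
    (hd_pd (hm.differentiableAt (by norm_num)) c)

theorem cd_wX {n : WithTop ℕ∞} (hX : ContDiffAt ℝ (n + 1) X x) (hm : ContDiffAt ℝ n m x)
    (hG : gg (pd X x) (m x) ∈ Complex.slitPlane) : ContDiffAt ℝ n (wX X m) x :=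
  ((cd_sqrt hG).restrict_scalars ℝ).comp x (contDiffWithinAt_univ.1
    (cd_gg (cd_pd hX le_rfl).contDiffWithinAt hm.contDiffWithinAt))

/-- the weighted unit normal -/
def om (Ω : E3 → ℂ) (X m : E3 → V3) (y : E3) : V3 := (Ω y / wX X m y) • nn (pd X y) (m y)

theorem cd_om {Ω : E3 → ℂ} (hX : ContDiffAt ℝ 2 X x) (hm : ContDiffAt ℝ 1 m x)
    (hΩ : ContDiffAt ℝ 1 Ω x) (hG : gg (pd X x) (m x) ∈ Complex.slitPlane) :
    ContDiffAt ℝ 1 (om Ω X m) x := by
  have h : ContDiffAt ℝ 1 (fun y => Ω y * (wX X m y)⁻¹) x :=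
    hΩ.mul ((cd_wX (n := 1) (by simpa [one_add_one_eq_two] using hX) hm hG).inv
      (sqrt_ne (Complex.slitPlane_ne_zero hG)))
  exact contDiffWithinAt_univ.1 (cd_smul h.contDiffWithinAt
    (cd_nn (cd_pd hX (by norm_num)).contDiffWithinAt hm.contDiffWithinAt))

/-- the derivatives of the weighted unit normal on jets -/
def dom (Ω W : ℂ) (Ω₁ N : V3) (D : Fin 3 → V3) (c : Fin 3) : V3 :=
  ((Ω₁ c * W - Ω * (dt N (D c) / W)) / W ^ 2) • N + (Ω / W) • D c

/-- **The Euler-Lagrange expression**, on jets. The weight `Ω` has derivative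
`2 q ⟨X, ∂X⟩ + l`. -/
theorem el_alg {Ω q θ W : ℂ} {X m l : V3} {A m₁ : Fin 3 → V3} {A₂ : Fin 3 → Fin 3 → V3}
    (W0 : W ≠ 0) (W2 : W ^ 2 = gg A m) (hθ : θ * Ω = -4 * q) (y : V3) :
    2 * q * dt X y * W + dt y (kk (dom Ω W (fun c => 2 * q * dt X (A c) + l c) (nn A m)
        (dn A A₂ m m₁)) A m) =
      -(Ω * ee θ X A A₂ m m₁ * dt y (nn A m)) / (2 * W) + dt y (cr (nn A m) (rr l A m)) / W := by
  set N := nn A m with hN
  set D := dn A A₂ m m₁ with hD
  have e : dom Ω W (fun c => 2 * q * dt X (A c) + l c) N D =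
      (Ω / W) • (fun c => D c + (-(dt N (D c)) / W ^ 2) • N)
      + ((2 * q / W) • (fun c => dt X (A c) • N) + W⁻¹ • fun c => l c • N) := by
    funext c i
    simp only [dom, Pi.add_apply, Pi.smul_apply, smul_eq_mul]
    field_simp
    ring
  have n1 := kk_normal A (fun c => D c + (-(dt N (D c)) / W ^ 2) • N) m y fun c => by
    rw [dt_add, dt_smul, ← hN]
    change dt N (D c) + -(dt N (D c)) / W ^ 2 * gg A m = 0
    rw [← W2]
    field_simp
    ring
  have n2 : dt N (kk (fun c => D c + (-(dt N (D c)) / W ^ 2) • N) A m) = -bb A A₂ m m₁ := by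
    have := kk_add D (fun c => (-(dt N (D c)) / W ^ 2) • N) A m
    rw [show (fun c => D c + (-(dt N (D c)) / W ^ 2) • N) =
      D + fun c => (-(dt N (D c)) / W ^ 2) • N from rfl, this, dt_add,
      dt_kk_rank N fun c => -(dt N (D c)) / W ^ 2, bb]
    ring
  rw [← hN, n2, ← W2] at n1
  have n3 : dt N N = W ^ 2 := W2.symm
  rw [e, kk_add, kk_add, smul_kk, smul_kk, smul_kk, kk_rank, kk_rr, dt_add, dt_add, dt_smul,
    dt_smul, dt_smul, ← hN, n3, sub_eq_add_neg, ← neg_smul, dt_add, dt_smul, dt_smul, ee, ← hN,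
    ← W2, dt_comm y X, dt_comm N X, rr]
  generalize dt y (kk (fun c => D c + (-dt N (D c) / W ^ 2) • N) A m) = T at n1 ⊢
  field_simp
  linear_combination (2 * Ω) * n1 + (W ^ 2 * dt X N * dt y N) * hθ

/-- derivative of the weighted unit normal along a curve of jets -/
theorem hd_om {t : ℝ} {A : ℝ → Fin 3 → V3} {A' : Fin 3 → V3} {m : ℝ → V3} {m' : V3} {Ω : ℝ → ℂ}
    {Ω' : ℂ} (hA : HasDerivAt A A' t) (hm : HasDerivAt m m' t) (hΩ : HasDerivAt Ω Ω' t)
    (hG : gg (A t) (m t) ∈ Complex.slitPlane) :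
    HasDerivAt (fun s => (Ω s / Complex.sqrt (gg (A s) (m s))) • nn (A s) (m s))
      (dom (Ω t) (Complex.sqrt (gg (A t) (m t))) (fun _ => Ω') (nn (A t) (m t))
        (fun _ => kk (A t) A' (m t) + nn (A t) m') 0) t :=
  hd_smul (hΩ.fun_div (hd_area hA hm hG) (sqrt_ne (Complex.slitPlane_ne_zero hG))) (hd_nn hA hm)

theorem pd_om {Ω : E3 → ℂ} (hX : ContDiffAt ℝ 2 X x) (hm : ContDiffAt ℝ 1 m x)
    (hΩ : ContDiffAt ℝ 1 Ω x) (hG : gg (pd X x) (m x) ∈ Complex.slitPlane) :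
    pd (om Ω X m) x = dom (Ω x) (wX X m x) (pd Ω x) (nn (pd X x) (m x))
      (dn (pd X x) (pd (pd X) x) (m x) (pd m x)) := by
  funext c
  refine pd_eq ((cd_om hX hm hΩ hG).differentiableAt (by norm_num)) ?_
  have h := hd_om (hd_pd ((cd_pd hX (k := 1) (by norm_num)).differentiableAt (by norm_num)) c)
    (hd_pd (hm.differentiableAt (by norm_num)) c) (hd_pd (hΩ.differentiableAt (by norm_num)) c)
    (by simpa using hG)
  simp only [zero_smul, add_zero] at h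
  exact h

/-- **The Euler-Lagrange expression.** -/
theorem el {Ω : E3 → ℂ} {q θ : ℂ} {l : V3} (hX : ContDiffAt ℝ 2 X x) (hm : ContDiffAt ℝ 1 m x)
    (hΩ : ContDiffAt ℝ 1 Ω x) (hG : gg (pd X x) (m x) ∈ Complex.slitPlane)
    (hq : ∀ c, pd Ω x c = 2 * q * dt (X x) (pd X x c) + l c) (hθ : θ * Ω x = -4 * q) (y : V3) :
    2 * q * dt (X x) y * wX X m x + dt y (kk (pd (om Ω X m) x) (pd X x) (m x)) =
      -(Ω x * eX θ X m x * dt y (nn (pd X x) (m x))) / (2 * wX X m x)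
        + dt y (cr (nn (pd X x) (m x)) (rr l (pd X x) (m x))) / wX X m x := by
  rw [pd_om hX hm hΩ hG, show pd Ω x = _ from funext hq]
  exact el_alg (sqrt_ne (Complex.slitPlane_ne_zero hG)) (sq_sqrt _) hθ y

/-! ### covariance -/

/-- the Jacobian matrix -/
def jm (Ψ : E3 → E3) (y : E3) (c b : Fin 3) : ℂ := (pd Ψ y b c : ℝ)

theorem pd_comp {Ψ : E3 → E3} {y : E3} (hX : DifferentiableAt ℝ X (Ψ y))
    (hΨ : DifferentiableAt ℝ Ψ y) : pd (fun z => X (Ψ z)) y = rp (pd X (Ψ y)) (jm Ψ y) := by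
  funext b
  have e : pd Ψ y b = ∑ c, pd Ψ y b c • EuclideanSpace.single c (1 : ℝ) := by
    ext i
    simp [Pi.single_apply]
  rw [pd, fderiv_fun_comp y hX hΨ, ContinuousLinearMap.comp_apply]
  change fderiv ℝ X (Ψ y) (pd Ψ y b) = _
  rw [e, map_sum, Fin.sum_univ_three]
  simp only [map_smul, rp, jm, pd, Complex.coe_smul]

theorem cd_jm {Ψ : E3 → E3} {y : E3} (hΨ : ContDiffAt ℝ 2 Ψ y) : ContDiffAt ℝ 1 (jm Ψ) y :=
  contDiffAt_pi.2 fun c => contDiffAt_pi.2 fun b => Complex.ofRealCLM.contDiff.contDiffAt.comp y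
    ((EuclideanSpace.proj c : E3 →L[ℝ] ℝ).contDiff.contDiffAt.comp y
      (contDiffAt_pi.1 (cd_pd hΨ (by norm_num)) b))

theorem cd_dd {Ψ : E3 → E3} {y : E3} (hΨ : ContDiffAt ℝ 2 Ψ y) :
    ContDiffAt ℝ 1 (fun z => dd (jm Ψ z)) y :=
  have h := fun c => (contDiffAt_pi.1 (cd_jm hΨ) c).contDiffWithinAt (s := univ)
  contDiffWithinAt_univ.1 (cd_dt (h 0) (cd_cr (h 1) (h 2)))

theorem pd_smul {a : E3 → ℂ} (ha : DifferentiableAt ℝ a x) (hY : DifferentiableAt ℝ Y x) :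
    pd (fun y => a y • Y y) x = a x • pd Y x + fun c => pd a x c • Y x := by
  funext c
  refine pd_eq (ha.smul hY) ?_
  have := hd_smul (hd_pd ha c) (hd_pd hY c)
  simp only [zero_smul, add_zero] at this
  exact this.congr_deriv (add_comm _ _)

/-- **Covariance** of the shrinker operator -/
theorem eX_comp {Ψ : E3 → E3} {y : E3} {X' m' : E3 → V3} (θ : ℂ) (hΨ : ContDiffAt ℝ 2 Ψ y)
    (hX : ContDiffAt ℝ 2 X (Ψ y)) (hm : ContDiffAt ℝ 1 m (Ψ y))
    (eX' : X' =ᶠ[𝓝 y] fun z => X (Ψ z)) (em : m' =ᶠ[𝓝 y] fun z => rm (m (Ψ z)) (jm Ψ z))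
    (hd : dd (jm Ψ y) ≠ 0) :
    nn (pd X' y) (m' y) = dd (jm Ψ y) • nn (pd X (Ψ y)) (m (Ψ y)) ∧
    gg (pd X' y) (m' y) = dd (jm Ψ y) ^ 2 * gg (pd X (Ψ y)) (m (Ψ y)) ∧
    eX θ X' m' y = dd (jm Ψ y) * eX θ X m (Ψ y) := by
  have cΨ := hΨ.continuousAt
  have e1 : ∀ᶠ z in 𝓝 y, pd X' z = rp (pd X (Ψ z)) (jm Ψ z) := by
    filter_upwards [pd_congr' eX', hΨ.eventually (by simp),
      cΨ.eventually (hX.eventually (by simp))] with z h1 h2 h3
    rw [h1, pd_comp (h3.differentiableAt (by norm_num)) (h2.differentiableAt (by norm_num))]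
  have e2 : (fun z => nn (pd X' z) (m' z)) =ᶠ[𝓝 y]
      fun z => dd (jm Ψ z) • nn (pd X (Ψ z)) (m (Ψ z)) := by
    filter_upwards [e1, em] with z h1 h2
    rw [h1, h2, nn_rp]
  have hX' : ContDiffAt ℝ 2 X' y := (hX.comp y hΨ).congr_of_eventuallyEq eX'
  have hm' : ContDiffAt ℝ 1 m' y := by
    refine ContDiffAt.congr_of_eventuallyEq (contDiffAt_pi.2 fun b => ?_) em
    have h1 := fun c => contDiffAt_pi.1 (contDiffAt_pi.1 (cd_jm hΨ) c) b
    have h2 := contDiffAt_pi.1 (hm.comp y (hΨ.of_le (by norm_num)))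
    exact (((h1 0).mul (h2 0)).add ((h1 1).mul (h2 1))).add ((h1 2).mul (h2 2))
  have dN : DifferentiableAt ℝ (fun z => nn (pd X z) (m z)) (Ψ y) :=
    (contDiffWithinAt_univ.1 (cd_nn (cd_pd hX (k := 1) (by norm_num)).contDiffWithinAt
      hm.contDiffWithinAt)).differentiableAt (by norm_num)
  have dΨ := hΨ.differentiableAt (by norm_num)
  have e3 := pd_congr e2
  rw [pd_nn hX' hm', pd_smul (Y := fun z => nn (pd X (Ψ z)) (m (Ψ z)))
    ((cd_dd hΨ).differentiableAt (by norm_num)) (dN.comp y dΨ),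
    pd_comp (X := fun z => nn (pd X z) (m z)) dN dΨ, pd_nn hX hm] at e3
  have g : gg (pd X' y) (m' y) = dd (jm Ψ y) ^ 2 * gg (pd X (Ψ y)) (m (Ψ y)) := by
    rw [e1.self_of_nhds, em.self_of_nhds, gg_rp]
  have e4 : nn (pd X' y) (m' y) = dd (jm Ψ y) • nn (pd X (Ψ y)) (m (Ψ y)) := e2.self_of_nhds
  refine ⟨e4, g, ?_⟩
  rw [eX, eX, ee, ee, g, bb, bb, e3, e4, eX'.self_of_nhds, kk_add, smul_kk,
    e1.self_of_nhds, em.self_of_nhds, kk_rp, dt_smul, smul_dt, dt_add, dt_smul, dt_smul,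
    dt_kk_rank _ fun c => pd (fun z => dd (jm Ψ z)) y c]
  by_cases h : gg (pd X (Ψ y)) (m (Ψ y)) = 0
  · simp only [h, mul_zero, div_zero, add_zero]
    ring
  · field_simp
    ring

end Vale.Agent.P218N
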